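import Vale.Agent.P196.Cover.Ends

/-!
P196, module B: flipping the ends of all four sides of the selected tiles. Each flip consists of
eight transpositions inside a tile; grouped by sides they give two elements of long edges, and
grouped by corners an element of the balls.
-/

namespace Vale.Agent.P196.SFT

open Equiv

variable {S : SFT} {k : ℕ}

namespace Flip

/-! ### Signs of restrictions -/

section Left

variable {α : Type*} [Fintype α] [DecidableEq α] (P : α → Prop) [DecidablePred P]

/-- The restriction to `P` exists and has sign `ε`. -/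
def HasSign (σ : Perm α) (ε : ℤˣ) : Prop :=
  ∃ h : ∀ x, P (σ x) ↔ P x, Perm.sign (σ.subtypePerm (p := P) h) = ε

variable {P}

lemma HasSign.one : HasSign P (1 : Perm α) 1 :=
  ⟨fun _ => Iff.rfl, by rw [Perm.subtypePerm_one]; exact map_one _⟩

lemma HasSign.mul {σ τ : Perm α} {e e' : ℤˣ} (h : HasSign P σ e) (h' : HasSign P τ e') :
    HasSign P (σ * τ) (e * e') := by
  obtain ⟨hσ, rfl⟩ := h
  obtain ⟨hτ, rfl⟩ := h'
  refine ⟨fun x => (hσ (τ x)).trans (hτ x), ?_⟩
  rw [← map_mul, Perm.subtypePerm_mul]

lemma hasSign_swap_in {u v : α} (hu : P u) (hv : P v) (hne : u ≠ v) :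
    HasSign P (swap u v) (-1) := by
  refine ⟨fun x => ?_, ?_⟩
  · rcases eq_or_ne x u with rfl | h1
    · simp [hu, hv]
    rcases eq_or_ne x v with rfl | h2
    · simp [hu, hv]
    rw [swap_apply_of_ne_of_ne h1 h2]
  · rw [show (swap u v).subtypePerm _ = swap (⟨u, hu⟩ : {x // P x}) ⟨v, hv⟩ from
      Equiv.ext fun x => Subtype.ext (Subtype.val_injective.swap_apply ⟨u, hu⟩ ⟨v, hv⟩ x)]
    exact Perm.sign_swap fun h => hne (congrArg Subtype.val h)

lemma hasSign_swap_out {u v : α} (hu : ¬ P u) (hv : ¬ P v) : HasSign P (swap u v) 1 := by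
  refine ⟨fun x => ?_, ?_⟩
  · rcases eq_or_ne x u with rfl | h1
    · simp [hu, hv]
    rcases eq_or_ne x v with rfl | h2
    · simp [hu, hv]
    rw [swap_apply_of_ne_of_ne h1 h2]
  · rw [show (swap u v).subtypePerm _ = (1 : Perm {x // P x}) from
      Equiv.ext fun x => Subtype.ext (swap_apply_of_ne_of_ne (fun h => hu (h ▸ x.2))
        (fun h => hv (h ▸ x.2)))]
    exact map_one _

end Left

/-! ### Pairs of cells -/

/-- Two distinct cells of a region. -/
def Good (F : Finset (Fin k × V)) (p : (Fin k × V) × (Fin k × V)) : Prop :=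
  p.1 ∈ F ∧ p.2 ∈ F ∧ p.1 ≠ p.2

/-- A pair of cells, translated. -/
def moved (w : V) (p : (Fin k × V) × (Fin k × V)) : (Fin k × V) × (Fin k × V) :=
  ((p.1.1, p.1.2 - w), (p.2.1, p.2.2 - w))

lemma moved_zero (p : (Fin k × V) × (Fin k × V)) : moved 0 p = p := by simp [moved]

/-- The transposition of a pair. -/
noncomputable def pp (F : Finset (Fin k × V)) (p : (Fin k × V) × (Fin k × V)) : Perm F := by
  classical exact if h : p.1 ∈ F ∧ p.2 ∈ F then swap ⟨p.1, h.1⟩ ⟨p.2, h.2⟩ else 1

variable {F : Finset (Fin k × V)} {p q : (Fin k × V) × (Fin k × V)}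

lemma pp_eq (hp : Good F p) : pp F p = swap ⟨p.1, hp.1⟩ ⟨p.2, hp.2.1⟩ := by
  classical
  rw [pp, dif_pos ⟨hp.1, hp.2.1⟩]

lemma sign_pp (hp : Good F p) : Perm.sign (pp F p) = -1 := by
  rw [pp_eq hp]
  exact Perm.sign_swap fun h => hp.2.2 (congrArg Subtype.val h)

lemma pp_fix {u : F} (h1 : u.1 ≠ p.1) (h2 : u.1 ≠ p.2) : pp F p u = u := by
  classical
  unfold pp
  split_ifs with h
  · exact swap_apply_of_ne_of_ne (fun e => h1 (congrArg Subtype.val e))
      (fun e => h2 (congrArg Subtype.val e))
  · rfl

lemma commute_pp (h11 : p.1 ≠ q.1) (h12 : p.1 ≠ q.2) (h21 : p.2 ≠ q.1) (h22 : p.2 ≠ q.2) :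
    Commute (pp F p) (pp F q) := by
  refine Perm.Disjoint.commute fun u => ?_
  by_cases hu : u.1 = p.1 ∨ u.1 = p.2
  · refine Or.inr (pp_fix ?_ ?_) <;> rcases hu with hu | hu <;> rw [hu] <;> assumption
  · push Not at hu
    exact Or.inl (pp_fix hu.1 hu.2)

/-- The double transposition of two pairs. -/
noncomputable def cc (hp : Good F p) (hq : Good F q) : alternatingGroup F :=
  ⟨pp F p * pp F q, Perm.mem_alternatingGroup.2 (by rw [map_mul, sign_pp hp, sign_pp hq]; rfl)⟩

/-- A fixed permutation over the selected components. -/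
def ind {L : S.Level} (g : LocallyConstant L.base (ZMod 2)) (F : Finset (Fin k × V)) :
    alternatingGroup F →* LocallyConstant L.base (alternatingGroup F) where
  toFun c := g.map fun e => if e = 1 then c else 1
  map_one' := LocallyConstant.ext fun b => by simp
  map_mul' c d := LocallyConstant.ext fun b => by
    by_cases h : g b = 1 <;> simp [h]

variable (Γ : S.Cover k) (L : S.Level)

/-- The element swapping two pairs over the selected components. -/
noncomputable def El (hF : L.Fits F) (h5 : 5 ≤ F.card) (hp : Good F p) (hq : Good F q)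
    (g : LocallyConstant L.base (ZMod 2)) : Γ.H :=
  Γ.lift (L.tower F hF) h5 (ind g F (cc hp hq))

lemma El_mem (hF : L.Fits F) (h5 : 5 ≤ F.card) (hp : Good F p) (hq : Good F q)
    (g : LocallyConstant L.base (ZMod 2)) : El Γ L hF h5 hp hq g ∈ Γ.reg L F := by
  rw [Γ.reg_eq L F hF h5]
  exact ⟨_, rfl⟩

lemma proj_El (hF : L.Fits F) (h5 : 5 ≤ F.card) (hp : Good F p) (hq : Good F q)
    (g : LocallyConstant L.base (ZMod 2)) (b : L.base) (u : F) :
    Γ.proj (El Γ L hF h5 hp hq g) (L.cpt b u.1) =
      L.cpt b ((if g b = 1 then pp F p * pp F q else 1) u).1 := by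
  rw [El]
  erw [Γ.proj_lift]
  refine ((L.tower F hF).alt_emb (ind g F (cc hp hq)) b u).trans ?_
  show L.cpt b (((if g b = 1 then cc hp hq else 1 : alternatingGroup F) : Perm F) u).1 = _
  by_cases h : g b = 1 <;> simp [h, cc]

/-- Translating both pairs into another region gives the same element. -/
lemma El_shift {F' : Finset (Fin k × V)} (hF : L.Fits F) (h5 : 5 ≤ F.card) (hF' : L.Fits F')
    (h5' : 5 ≤ F'.card) (hp : Good F p) (hq : Good F q) (w : V) (hw : L.cast w = 0)
    (hw' : L.cast (-w) = 0) (hsub : ∀ u ∈ F, (u.1, u.2 - w) ∈ F')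
    (hp' : Good F' (moved w p)) (hq' : Good F' (moved w q))
    (g g' : LocallyConstant L.base (ZMod 2)) (hg : ∀ b, g' b = g (L.shift (-w) hw' b)) :
    El Γ L hF h5 hp hq g = El Γ L hF' h5' hp' hq' g' := by
  let m := L.intoOfShift hF hF' w hw hsub
  have h := Γ.conj_lift (L.tower F hF) (L.tower F' hF') h5 h5' 1 m.push (fun σ => by
    rw [map_one]; exact m.conj_alt σ) (ind g F (cc hp hq))
  rw [one_mul, inv_one, mul_one] at h
  refine h.trans (congrArg (Γ.lift (L.tower F' hF') h5') ?_)
  refine LocallyConstant.ext fun b => Subtype.ext ?_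
  have hb : b ∈ m.preBase := (L.shift (-w) hw' b).2
  show m.pushFun ((L.tower F hF).evenIncl (ind g F (cc hp hq))) b =
    ((if g' b = 1 then cc hp' hq' else 1 : alternatingGroup F') : Perm F')
  rw [Tower.Into.pushFun, dif_pos hb, hg b]
  show Perm.viaEmbedding
      ((if g (L.shift (-w) hw' b) = 1 then cc hp hq else 1 : alternatingGroup F) : Perm F)
      (m.cell ⟨_, hb⟩) = _
  set ι : F ↪ F' := m.cell ⟨_, hb⟩ with hι
  have hιv : ∀ u : F, (ι u).1 = (u.1.1, u.1.2 - w) := fun u => rfl
  have hsw : ∀ {r : (Fin k × V) × (Fin k × V)}, Good F r → Good F' (moved w r) →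
      Perm.viaEmbeddingHom ι (pp F r) = pp F' (moved w r) := by
    intro r hr hr'
    rw [Perm.viaEmbeddingHom_apply, pp_eq hr, pp_eq hr']
    refine Equiv.ext fun y => ?_
    by_cases hy : y ∈ Set.range ι
    · obtain ⟨x, rfl⟩ := hy
      rw [Perm.viaEmbedding_apply]
      have e1 : (⟨(moved w r).1, hr'.1⟩ : F') = ι ⟨r.1, hr.1⟩ :=
        Subtype.ext (show _ = _ from (hιv ⟨r.1, hr.1⟩).symm)
      have e2 : (⟨(moved w r).2, hr'.2.1⟩ : F') = ι ⟨r.2, hr.2.1⟩ :=
        Subtype.ext (show _ = _ from (hιv ⟨r.2, hr.2.1⟩).symm)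
      rw [e1, e2]
      exact (ι.injective.swap_apply _ _ _).symm
    · rw [Perm.viaEmbedding_apply_of_notMem _ _ _ hy, swap_apply_of_ne_of_ne]
      · exact fun e => hy ⟨⟨r.1, hr.1⟩, Subtype.ext ((hιv _).trans (congrArg Subtype.val e).symm)⟩
      · exact fun e => hy ⟨⟨r.2, hr.2.1⟩, Subtype.ext ((hιv _).trans (congrArg Subtype.val e).symm)⟩
  show Perm.viaEmbeddingHom ι _ = _
  split_ifs with h1
  · show Perm.viaEmbeddingHom ι (pp F p * pp F q) = pp F' (moved w p) * pp F' (moved w q)
    rw [map_mul, hsw hp hp', hsw hq hq']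
  · exact map_one _

/-- Moving through a common subregion. -/
lemma El_transport {F' : Finset (Fin k × V)} (hF : L.Fits F) (h5 : 5 ≤ F.card) (hF' : L.Fits F')
    (h5' : 5 ≤ F'.card) (hp : Good F p) (hq : Good F q) (w : V) (hw : L.cast w = 0)
    (hw' : L.cast (-w) = 0) (f : ℕ → Fin k × V) (hf : Function.Injective f)
    (hfF : ∀ n < 5, f n ∈ F ∧ ((f n).1, (f n).2 - w) ∈ F')
    (hp' : Good F' (moved w p)) (hq' : Good F' (moved w q))
    (g g' : LocallyConstant L.base (ZMod 2)) (hg : ∀ b, g' b = g (L.shift (-w) hw' b)) :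
    El Γ L hF h5 hp hq g = El Γ L hF' h5' hp' hq' g' := by
  classical
  let G := F.filter fun u => (u.1, u.2 - w) ∈ F'
  have hG : L.Fits G := fun a ha b hb =>
    hF a (Finset.mem_filter.1 ha).1 b (Finset.mem_filter.1 hb).1
  have hG5 : 5 ≤ G.card := by
    have h := Finset.card_le_card (show (Finset.range 5).image f ⊆ G by
      intro u hu
      obtain ⟨n, hn, rfl⟩ := Finset.mem_image.1 hu
      exact Finset.mem_filter.2 (hfF n (Finset.mem_range.1 hn)))
    rwa [Finset.card_image_of_injective _ hf, Finset.card_range] at h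
  have good : ∀ {r : (Fin k × V) × (Fin k × V)}, Good F r → Good F' (moved w r) → Good G r :=
    fun h h' => ⟨Finset.mem_filter.2 ⟨h.1, h'.1⟩, Finset.mem_filter.2 ⟨h.2.1, h'.2.1⟩, h.2.2⟩
  have h0 : L.cast (0 : V) = 0 := by simp [Level.cast]
  have h0' : L.cast (-0 : V) = 0 := by simp [Level.cast]
  have e0 : ∀ b, L.shift (-0 : V) h0' b = b := fun b => Subtype.ext (by
    show S.act (-0) b.1 = b.1
    rw [neg_zero, Amen.act_zero])
  have a := El_shift Γ L hG hG5 hF h5 (good hp hp') (good hq hq') 0 h0 h0'
    (fun u hu => by simpa using (Finset.mem_filter.1 hu).1)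
    (by rw [moved_zero]; exact hp) (by rw [moved_zero]; exact hq) g g (fun b => by rw [e0])
  have b := El_shift Γ L hG hG5 hF' h5' (good hp hp') (good hq hq') w hw hw'
    (fun u hu => (Finset.mem_filter.1 hu).2) hp' hq' g g' hg
  simp only [moved_zero] at a
  exact a.symm.trans b

/-! ### The eight transpositions of a tile -/

variable (hk : 1 ≤ k)

/-- A cell of the first colour. -/
def fcell (tw : Bool) (a b : ℤ) : Fin k × V := (⟨0, hk⟩, swapIf tw (a, b))

/-- The pair at an end of a side of the tile. -/
def sidePair (r : ℕ) (tw far e : Bool) : (Fin k × V) × (Fin k × V) :=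
  (fcell hk tw (if e then (L.Q : ℤ) - 1 - r else r) (if far then (L.Q : ℤ) - 1 else 0),
    fcell hk tw (if e then (L.Q : ℤ) - 2 - r else r + 1) (if far then (L.Q : ℤ) - 1 else 0))

/-- The period leading to a side. -/
def sideVec (tw far : Bool) : V := if far then Cover.Kern.across L tw else 0

/-- The period leading to a corner. -/
def cornerVec (i j : Bool) : V := (if i then (L.Q : ℤ) else 0, if j then (L.Q : ℤ) else 0)

variable {r s : ℕ} (hr : 1 ≤ r) (hQ : 64 * (r + s + 1) ≤ L.Q)

include hQ in
lemma good_tile (tw far e : Bool) : Good (L.tileIn k 0) (sidePair L hk r tw far e) := by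
  refine ⟨?_, ?_, ?_⟩ <;>
    cases tw <;> cases far <;> cases e <;>
      simp [sidePair, fcell, swapIf, Level.tileIn, mem_rectCells, Prod.ext_iff] <;> omega

include hr hQ in
lemma good_long (tw far e : Bool) :
    Good (L.long k r tw) (moved (sideVec L tw far) (sidePair L hk r tw far e)) := by
  refine ⟨?_, ?_, ?_⟩ <;>
    cases tw <;> cases far <;> cases e <;>
      simp [sidePair, sideVec, moved, fcell, swapIf, Level.mem_long, Prod.ext_iff,
        Cover.Kern.across, Level.per₁, Level.per₂] <;> omega

include hQ in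
lemma good_ball (i j : Bool) :
    Good (L.ball k s) (moved (cornerVec L i j) (sidePair L hk r false j i)) ∧
    Good (L.ball k s) (moved (cornerVec L i j) (sidePair L hk r true i j)) := by
  refine ⟨⟨?_, ?_, ?_⟩, ?_, ?_, ?_⟩ <;>
    cases i <;> cases j <;>
      simp [sidePair, cornerVec, moved, fcell, swapIf, Level.ball, mem_rectCells, Prod.ext_iff] <;>
        omega

include hr hQ in
lemma pp_commute {F : Finset (Fin k × V)} {a b : Bool × Bool × Bool} (h : a ≠ b) :
    Commute (pp F (sidePair L hk r a.1 a.2.1 a.2.2)) (pp F (sidePair L hk r b.1 b.2.1 b.2.2)) := by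
  obtain ⟨a1, a2, a3⟩ := a
  obtain ⟨b1, b2, b3⟩ := b
  refine commute_pp ?_ ?_ ?_ ?_ <;>
    cases a1 <;> cases a2 <;> cases a3 <;> cases b1 <;> cases b2 <;> cases b3 <;>
      first
        | exact absurd rfl h
        | (simp [sidePair, fcell, swapIf, Prod.ext_iff] <;> omega)

lemma regroup {G : Type*} [Monoid G] {a b c d e f g h : G} (bc : Commute b c)
    (be : Commute b e) (bf : Commute b f) (de : Commute d e) (df : Commute d f)
    (ce : Commute c e) (dg : Commute d g) :
    a * b * (c * d) * (e * f * (g * h)) = a * e * (c * f) * (b * g * (d * h)) := by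
  rw [show a * b * (c * d) = a * c * (b * d) from bc.mul_mul_mul_comm a d, ← mul_assoc,
    mul_assoc (a * c) (b * d) (e * f),
    ((be.mul_right bf).mul_left (de.mul_right df)).eq, ← mul_assoc (a * c) (e * f) (b * d),
    ce.mul_mul_mul_comm a f, mul_assoc (a * e * (c * f)) (b * d) (g * h),
    dg.mul_mul_mul_comm b h]

end Flip

open Flip

/-- The flips exist. -/
theorem flipStatement (S : SFT) : FlipStatement S := by
  classical
  intro k hk Γ L r s hr hQ g
  have hT5 : 5 ≤ (L.tileIn k 0).card := five_le_card_rectCells hk (by simp; omega) (by simp; omega)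
  have hB : L.Fits (L.ball k s) := L.fits_rectCells (by omega) (by omega)
  have hB5 : 5 ≤ (L.ball k s).card := five_le_card_rectCells hk (by omega) (by omega)
  have hL : ∀ tw, L.Fits (L.long k r tw) := fun tw => by
    cases tw <;> exact L.fits_rectCells (by omega) (by omega)
  have hfc : ∀ (tw : Bool) (y : ℤ) (a : ℤ), Function.Injective fun n : ℕ =>
      fcell hk tw (a + n) y := fun tw y a n m h => by
    cases tw <;> simpa [fcell, swapIf] using h
  have hL5 : ∀ tw, 5 ≤ (L.long k r tw).card := fun tw => by
    have h := Finset.card_le_card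
      (show (Finset.range 5).image (fun n : ℕ => fcell hk tw ((r : ℤ) + n) 0) ⊆ L.long k r tw by
        intro u hu
        obtain ⟨n, hn, rfl⟩ := Finset.mem_image.1 hu
        have := Finset.mem_range.1 hn
        cases tw <;> simp [fcell, swapIf, Level.mem_long] <;> omega)
    rwa [Finset.card_image_of_injective _ (hfc tw 0 r), Finset.card_range] at h
  have hcast : ∀ tw far, L.cast (sideVec L tw far) = 0 := fun tw far => by
    cases far
    · simp [sideVec, Level.cast]
    · simp [sideVec, Cover.Kern.cast_across]
  have hcast' : ∀ tw far, L.cast (-sideVec L tw far) = 0 := fun tw far => by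
    have := hcast tw far
    simp only [Level.cast, Prod.ext_iff, Prod.fst_zero, Prod.snd_zero, Prod.fst_neg,
      Prod.snd_neg, Int.cast_neg, neg_eq_zero] at this ⊢
    exact this
  let gs : Bool → Bool → LocallyConstant L.base (ZMod 2) := fun tw far =>
    g.comap ⟨L.shift (-sideVec L tw far) (hcast' tw far), L.continuous_shift _ _⟩
  have gs0 : ∀ tw b, gs tw false b = g b := fun tw b => by
    show g _ = g b
    exact congrArg g (Subtype.ext (by
      show S.act (-sideVec L tw false) b.1 = b.1
      simp [sideVec, Amen.act_zero]))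
  have gs1 : ∀ tw b, gs tw true b = g (L.prev tw b) := fun tw b => rfl
  let sd := fun tw far e => sidePair L hk r tw far e
  let Side : Bool → Bool → Γ.H := fun tw far =>
    El Γ L (hL tw) (hL5 tw) (good_long L hk hr hQ tw far false) (good_long L hk hr hQ tw far true)
      (gs tw far)
  have side_tile : ∀ tw far, Side tw far =
      El Γ L L.fits_tile hT5 (good_tile L hk hQ tw far false) (good_tile L hk hQ tw far true) g := by
    intro tw far
    refine (El_transport Γ L L.fits_tile hT5 (hL tw) (hL5 tw) _ _ (sideVec L tw far)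
      (hcast tw far) (hcast' tw far)
      (fun n : ℕ => fcell hk tw ((r : ℤ) + n) (if far then (L.Q : ℤ) - 1 else 0)) (hfc tw _ r)
      (fun n hn => ?_) _ _ g (gs tw far) fun b => rfl).symm
    constructor <;> cases tw <;> cases far <;>
      simp [fcell, swapIf, sideVec, Cover.Kern.across, Level.per₁, Level.per₂, Level.mem_long,
        Level.tileIn, mem_rectCells] <;> omega
  have ended : ∀ tw, Γ.Ended L r s tw (Side tw false * Side tw true)
      (fun b => g b + g (L.prev tw b)) := by
    intro tw
    refine ⟨mul_mem (El_mem Γ L _ _ _ _ _) (El_mem Γ L _ _ _ _ _), fun b => ?_⟩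
    let A : Bool → Perm (L.long k r tw) := fun far =>
      pp _ (moved (sideVec L tw far) (sd tw far false)) *
        pp _ (moved (sideVec L tw far) (sd tw far true))
    let σ : Perm (L.long k r tw) :=
      (if g b = 1 then A false else 1) * (if g (L.prev tw b) = 1 then A true else 1)
    refine ⟨σ, fun u => ?_, fun u hu => ?_, ?_⟩
    · rw [map_mul, Perm.mul_apply, proj_El, proj_El, gs0, gs1]
      rfl
    · have hends : ∀ far e,
          L.InEnd s tw (moved (sideVec L tw far) (sd tw far e)).1 ∧
          L.InEnd s tw (moved (sideVec L tw far) (sd tw far e)).2 := fun far e => by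
        constructor <;> cases tw <;> cases far <;> cases e <;>
          simp [sd, sidePair, sideVec, moved, fcell, swapIf, Level.InEnd, Cover.Kern.across,
            Level.per₁, Level.per₂] <;> omega
      by_contra hcon
      have fix1 : ∀ far e, pp _ (moved (sideVec L tw far) (sd tw far e)) u = u := fun far e =>
        pp_fix (fun h => hcon (h ▸ (hends far e).1)) (fun h => hcon (h ▸ (hends far e).2))
      have fixA : ∀ far, A far u = u := fun far => by
        simp only [A, Perm.mul_apply, fix1]
      refine hu ?_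
      simp only [σ, Perm.mul_apply]
      split_ifs <;> simp [fixA]
    · have hA : ∀ far, HasSign (fun u : L.long k r tw => L.IsLeft tw u.1) (A far) (-1) := fun far => by
        have h1 : HasSign (fun u : L.long k r tw => L.IsLeft tw u.1)
            (pp _ (moved (sideVec L tw far) (sd tw far false))) (-1) := by
          rw [pp_eq (good_long L hk hr hQ tw far false)]
          refine hasSign_swap_in ?_ ?_ fun h => (good_long L hk hr hQ tw far false).2.2
            (congrArg Subtype.val h) <;>
          cases tw <;> cases far <;>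
            simp [sidePair, sideVec, moved, fcell, swapIf, Level.IsLeft, Cover.Kern.across,
              Level.per₁, Level.per₂] <;> omega
        have h2 : HasSign (fun u : L.long k r tw => L.IsLeft tw u.1)
            (pp _ (moved (sideVec L tw far) (sd tw far true))) 1 := by
          rw [pp_eq (good_long L hk hr hQ tw far true)]
          refine hasSign_swap_out ?_ ?_ <;>
          cases tw <;> cases far <;>
            simp [sidePair, sideVec, moved, fcell, swapIf, Level.IsLeft, Cover.Kern.across,
              Level.per₁, Level.per₂] <;> omega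
        simpa using h1.mul h2
      have hc : ∀ (far : Bool) (e : ZMod 2),
          HasSign (fun u : L.long k r tw => L.IsLeft tw u.1) (if e = 1 then A far else 1) (sgn e) :=
        fun far e => by
          fin_cases e
          · exact HasSign.one
          · exact hA far
      have := (hc false (g b)).mul (hc true (g (L.prev tw b)))
      rw [← sgn_add] at this
      exact this
  refine ⟨_, _, ended false, ended true, ?_⟩
  rw [side_tile, side_tile, side_tile, side_tile]
  let Crn : Bool → Bool → Γ.H := fun i j =>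
    El Γ L L.fits_tile hT5 (good_tile L hk hQ false j i) (good_tile L hk hQ true i j) g
  have hCrn : ∀ i j, Crn i j ∈ Γ.reg L (L.ball k s) := fun i j => by
    have hw : L.cast (cornerVec L i j) = 0 := by
      cases i <;> cases j <;> simp [cornerVec, Level.cast]
    have hw' : L.cast (-cornerVec L i j) = 0 := by
      cases i <;> cases j <;> simp [cornerVec, Level.cast]
    show El Γ L _ _ _ _ g ∈ _
    rw [El_transport Γ L L.fits_tile hT5 hB hB5 _ _ (cornerVec L i j) hw hw'
      (fun n : ℕ => fcell hk false ((if i then (L.Q : ℤ) - 5 else 0) + n)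
        (if j then (L.Q : ℤ) - 1 else 0)) (hfc false _ _)
      (fun n hn => by
        constructor <;> cases i <;> cases j <;>
          simp [fcell, swapIf, cornerVec, Level.tileIn, Level.ball, mem_rectCells] <;> omega)
      (good_ball L hk hQ i j).1 (good_ball L hk hQ i j).2 g
      (g.comap ⟨L.shift (-cornerVec L i j) hw', L.continuous_shift _ _⟩) fun b => rfl]
    exact El_mem Γ L _ _ _ _ _
  have hmul : El Γ L L.fits_tile hT5 (good_tile L hk hQ false false false)
      (good_tile L hk hQ false false true) g *
      El Γ L L.fits_tile hT5 (good_tile L hk hQ false true false)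
        (good_tile L hk hQ false true true) g *
      (El Γ L L.fits_tile hT5 (good_tile L hk hQ true false false)
        (good_tile L hk hQ true false true) g *
      El Γ L L.fits_tile hT5 (good_tile L hk hQ true true false)
        (good_tile L hk hQ true true true) g) =
      Crn false false * Crn false true * (Crn true false * Crn true true) := by
    let E : alternatingGroup (L.tileIn k 0) →* Γ.H :=
      (Γ.lift (L.tower _ L.fits_tile) hT5).comp (ind g (L.tileIn k 0))
    show E _ * E _ * (E _ * E _) = E _ * E _ * (E _ * E _)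
    simp only [← map_mul]
    refine congrArg E (Subtype.ext ?_)
    simp only [cc, Subgroup.coe_mul]
    refine regroup ?_ ?_ ?_ ?_ ?_ ?_ ?_
    · exact pp_commute L hk hr hQ (a := (false, false, true)) (b := (false, true, false)) (by simp)
    · exact pp_commute L hk hr hQ (a := (false, false, true)) (b := (true, false, false)) (by simp)
    · exact pp_commute L hk hr hQ (a := (false, false, true)) (b := (true, false, true)) (by simp)
    · exact pp_commute L hk hr hQ (a := (false, true, true)) (b := (true, false, false)) (by simp)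
    · exact pp_commute L hk hr hQ (a := (false, true, true)) (b := (true, false, true)) (by simp)
    · exact pp_commute L hk hr hQ (a := (false, true, false)) (b := (true, false, false)) (by simp)
    · exact pp_commute L hk hr hQ (a := (false, true, true)) (b := (true, true, false)) (by simp)
  rw [hmul]
  exact mul_mem (mul_mem (hCrn _ _) (hCrn _ _)) (mul_mem (hCrn _ _) (hCrn _ _))

end Vale.Agent.P196.SFT
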