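import Vale.Agent.P196.Cover.Vanish
import Vale.Agent.P196.Cover.Flip

/-!
P196, module B: the split of a kernel element without flow into long edges and balls, and the
proof that it is trivial.
-/

namespace Vale.Agent.P196.SFT

open Equiv Square

variable {S : SFT} {k : ℕ}

/-- The data of a split of a square permutation. -/
def IsSplit {Q : ℕ} (r R : ℕ) (σ : Perm (Sq k Q))
    (uq : (Bool × Bool → Perm (Sq k Q)) × (Bool × Bool → Perm (Sq k Q))) : Prop :=
  (∀ i, Perm.sign (uq.1 i) = 1 ∧ ∀ x, uq.1 i x ≠ x → Side r i x) ∧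
    (∀ p, Perm.sign (uq.2 p) = 1 ∧ ∀ x, uq.2 p x ≠ x → Corner R p x) ∧
    σ = uq.2 (false, false) * uq.2 (true, false) * uq.2 (false, true) * uq.2 (true, true) *
      (uq.1 (false, false) * uq.1 (false, true) * uq.1 (true, false) * uq.1 (true, true))

namespace Cover

variable {Γ : S.Cover k}

open scoped Classical in
/-- A tile element moving only a set of at least five positions lies in their region. -/
lemma tile_mem_image (L : S.Level) {x : Γ.H} (hx : x ∈ Γ.reg L (L.tileIn k 0))
    {π : LocallyConstant L.base (Perm (Sq k L.Q))}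
    (hπ : ∀ b y, Γ.proj x (L.pt b y) = L.pt b (π b y)) (P : Sq k L.Q → Prop)
    (h5 : ∃ e : Fin 5 → Sq k L.Q, Function.Injective e ∧ ∀ m, P (e m))
    (hP : ∀ b y, π b y ≠ y → P y) :
    x ∈ Γ.reg L ((Finset.univ.filter P).image L.sqCell) := by
  have hsub : (Finset.univ.filter P).image L.sqCell ⊆ L.tileIn k 0 := fun p hp => by
    obtain ⟨y, _, rfl⟩ := Finset.mem_image.1 hp
    exact L.mem_tile y
  refine Γ.mem_of_supp L L.fits_tile hsub ?_ hx fun b u hu hm => ?_
  · obtain ⟨e, he, heP⟩ := h5
    rw [Finset.card_image_of_injective _ L.sqCell_injective]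
    have := Finset.card_le_card_of_injOn (s := (Finset.univ : Finset (Fin 5))) e
      (fun m _ => Finset.mem_filter.2 ⟨Finset.mem_univ _, heP m⟩) he.injOn
    simpa using this
  · obtain ⟨y, hy⟩ := (L.sqEquiv (k := k)).surjective ⟨u, hu⟩
    have hu' : L.sqCell y = u := congrArg Subtype.val hy
    refine Finset.mem_image.2 ⟨y, Finset.mem_filter.2 ⟨Finset.mem_univ _, hP b y fun h => hm ?_⟩, hu'⟩
    rw [← hu']
    have := hπ b y
    rw [h] at this
    exact this

open scoped Classical in
/-- An element of the tile supported in a corner square lies in the ball. -/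
lemma corner_mem_ball (hk : 1 ≤ k) (L : S.Level) {s : ℕ} (hs : 4 * (s + 5) ≤ L.Q) {x : Γ.H}
    (hx : x ∈ Γ.reg L (L.tileIn k 0)) {π : LocallyConstant L.base (Perm (Sq k L.Q))}
    (hπ : ∀ b y, Γ.proj x (L.pt b y) = L.pt b (π b y)) (p : Bool × Bool)
    (hP : ∀ b y, π b y ≠ y → Corner (L.Q / 8 + s) p y) (h5R : 5 ≤ L.Q / 8 + s) :
    x ∈ Γ.reg L (L.ball k s) := by
  have hmem := tile_mem_image L hx hπ (Corner (L.Q / 8 + s) p)
    ⟨fun m => (⟨0, by omega⟩, ⟨if p.1 then L.Q - 1 - m.val else m.val, by
        split <;> omega⟩, ⟨if p.2 then L.Q - 1 else 0, by split <;> omega⟩), by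
      intro m m' h
      have := congrArg ca h
      simp only [ca] at this
      split at this <;> ext <;> omega, fun m => by
      unfold Corner
      simp only [ca, cb]
      rcases p with ⟨_ | _, _ | _⟩ <;> simp <;> omega⟩ hP
  refine Γ.reg_shift L (L.fits_ball_wide (by omega))
    ((if p.1 then L.per₁ else 0) + (if p.2 then L.per₂ else 0)) ?_ ?_ hmem
  · rcases p with ⟨_ | _, _ | _⟩ <;> simp [Level.cast, Level.per₁, Level.per₂]
  · intro q hq
    obtain ⟨y, hy, rfl⟩ := Finset.mem_image.1 hq
    have hy' := (Finset.mem_filter.1 hy).2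
    have := ca_lt y
    have := cb_lt y
    unfold Corner at hy'
    simp only [Level.ball, mem_rectCells, Level.sqCell]
    rcases p with ⟨_ | _, _ | _⟩ <;> simp [Level.per₁, Level.per₂] at hy' ⊢ <;> omega

open scoped Classical in
/-- An element of the tile supported in a side lies in the long edge. -/
lemma side_mem_long (hk : 1 ≤ k) (L : S.Level) {r : ℕ} (hr : 1 ≤ r) (hQ : 4 * r + 16 ≤ L.Q)
    {x : Γ.H} (hx : x ∈ Γ.reg L (L.tileIn k 0)) {π : LocallyConstant L.base (Perm (Sq k L.Q))}
    (hπ : ∀ b y, Γ.proj x (L.pt b y) = L.pt b (π b y)) (i : Bool × Bool)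
    (hP : ∀ b y, π b y ≠ y → Side r i y) :
    x ∈ Γ.reg L (L.long k r i.1) := by
  have hmem := tile_mem_image L hx hπ (Side r i)
    ⟨fun m => (chart i).symm (⟨0, by omega⟩, ⟨r + m.val, by omega⟩, ⟨0, by omega⟩), by
      intro m m' h
      have := congrArg ca ((chart i).symm.injective h)
      simp only [ca] at this
      ext; omega, fun m => by
      show Bottom r (chart i ((chart i).symm _))
      rw [Equiv.apply_symm_apply]
      simp only [Bottom, ca, cb]
      omega⟩ hP
  refine Γ.reg_shift L (L.fits_long (by omega) i.1)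
    (if i.2 then Kern.across L i.1 else 0) ?_ ?_ hmem
  · rcases i with ⟨_ | _, _ | _⟩ <;> simp [Kern.across, Level.cast, Level.per₁, Level.per₂]
  · intro q hq
    obtain ⟨y, hy, rfl⟩ := Finset.mem_image.1 hq
    have hy' := (Finset.mem_filter.1 hy).2
    have := ca_lt y
    have := cb_lt y
    rw [L.mem_long]
    rcases i with ⟨_ | _, _ | _⟩ <;>
      simp [side_bottom, side_top, side_left, side_right, Kern.across, Level.per₁, Level.per₂,
        swapIf, Level.sqCell] at hy' ⊢ <;> omega

lemma regroup₈ {G : Type*} [Group G] {q u₁ u₂ u₃ u₄ eh ev c : G} (h : Commute eh (u₃ * u₄)) :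
    q * (u₁ * u₂ * u₃ * u₄) * eh * ev * c = q * (u₁ * u₂ * eh) * (u₃ * u₄ * ev) * c := by
  simp only [mul_assoc]
  congr 3
  rw [← mul_assoc u₃, ← mul_assoc (u₃ * u₄), ← h.eq]
  simp only [mul_assoc]

namespace Kern

variable {L : S.Level} {r s d : ℕ} {f eh ev c : Γ.H}

open scoped Classical in
/-- The tile part splits into long edges and balls. -/
lemma exists_edges (K : Γ.Kern L r s d f eh ev c) (hmf : S.MinimalFree)
    {π : LocallyConstant L.base (Perm (Sq k L.Q))}
    (hπ : ∀ b x, Γ.proj f (L.pt b x) = L.pt b (π b x)) (hsgn : ∀ b, Perm.sign (π b) = 1)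
    (h0 : ∀ b, flow (π b) = 0) :
    ∃ Fq EH EV : Γ.H, Fq ∈ Γ.reg L (L.ball k (s + 2 * d + 2)) ∧
      EH ∈ Γ.reg L (L.long k r false) ∧ EV ∈ Γ.reg L (L.long k r true) ∧
      f * eh * ev * c = Fq * EH * EV * c := by
  have hbig := K.big
  have hr := K.rpos
  have hk := K.kpos
  set R2 := L.Q / 8 + s + 2 * d + 2 with hR2
  let G : Perm (Sq k L.Q) → (Bool × Bool → Perm (Sq k L.Q)) × (Bool × Bool → Perm (Sq k L.Q)) :=
    fun σ => if h : ∃ uq, IsSplit r R2 σ uq then h.choose else (fun _ => 1, fun _ => 1)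
  have hG : ∀ b, IsSplit r R2 (π b) (G (π b)) := by
    intro b
    have hex : ∃ uq, IsSplit r R2 (π b) uq := by
      obtain ⟨u, q, h1, h2, h3⟩ := exists_split hk (K.banded hmf hπ b) K.room (h0 b) (hsgn b)
      exact ⟨(u, q), h1, fun p => ⟨(h2 p).1, fun x hx => by
        have := (h2 p).2 x hx
        simpa [hR2, add_assoc] using this⟩, h3⟩
    simp only [G, dif_pos hex]
    exact hex.choose_spec
  choose U hUm hUp using fun i : Bool × Bool =>
    Γ.exists_tileElt hk L (by omega) (π.map fun σ => (G σ).1 i) fun b => ((hG b).1 i).1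
  choose P hPm hPp using fun p : Bool × Bool =>
    Γ.exists_tileElt hk L (by omega) (π.map fun σ => (G σ).2 p) fun b => ((hG b).2.1 p).1
  have hf : f = P (false, false) * P (true, false) * P (false, true) * P (true, true) *
      (U (false, false) * U (false, true) * U (true, false) * U (true, true)) := by
    refine Γ.tile_ext hk L (by omega) K.parts.tile ?_ fun b z => ?_
    · simp only [Subgroup.mul_mem_cancel_right, mul_mem, hUm, hPm]
    · simp only [map_mul, Perm.mul_apply, hπ, hUp, hPp, LocallyConstant.map_apply,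
        Function.comp_apply]
      conv_lhs => rw [(hG b).2.2]
      rfl
  have hPball : ∀ p, P p ∈ Γ.reg L (L.ball k (s + 2 * d + 2)) := fun p =>
    corner_mem_ball hk L (by omega) (hPm p) (hPp p) p
      (fun b y hy => by
        have := ((hG b).2.1 p).2 y hy
        simpa [hR2, add_assoc] using this) (by omega)
  have hUlong : ∀ i, U i ∈ Γ.reg L (L.long k r i.1) := fun i =>
    side_mem_long hk L hr (by omega) (hUm i) (hUp i) i fun b y => ((hG b).1 i).2 y
  have heh : eh ∈ Γ.reg L (L.long k r false) :=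
    Γ.reg_mono L (L.fits_long (by omega) false) (fun q hq => by
      simp only [Level.edgeH, mem_rectCells] at hq
      simp only [L.mem_long, swapIf, Bool.false_eq_true, if_false]
      omega) K.parts.edgeH
  have hev : ev ∈ Γ.reg L (L.long k r true) :=
    Γ.reg_mono L (L.fits_long (by omega) true) (fun q hq => by
      simp only [Level.edgeV, mem_rectCells] at hq
      simp only [L.mem_long, swapIf, if_true]
      omega) K.parts.edgeV
  refine ⟨P (false, false) * P (true, false) * P (false, true) * P (true, true),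
    U (false, false) * U (false, true) * eh, U (true, false) * U (true, true) * ev, ?_, ?_, ?_, ?_⟩
  · exact mul_mem (mul_mem (mul_mem (hPball _) (hPball _)) (hPball _)) (hPball _)
  · exact mul_mem (mul_mem (hUlong (false, false)) (hUlong (false, true))) heh
  · exact mul_mem (mul_mem (hUlong (true, false)) (hUlong (true, true))) hev
  · rw [hf]
    exact regroup₈ (Cover.commute_long (by omega) heh
      (mul_mem (hUlong (true, false)) (hUlong (true, true))))

end Kern

end Cover

/-- A kernel element without flow is trivial. -/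
theorem vanishStatement (S : SFT) : VanishStatement S := by
  intro hmf hcy k Γ L r s d f eh ev c K π hπ h0
  have hbig := K.big
  have hr := K.rpos
  have hk := K.kpos
  obtain ⟨π', hsgn', hπ'⟩ := Γ.exists_tilePerm hk L (by omega) K.parts.tile
  have hππ : ∀ b, π b = π' b := fun b => Equiv.ext fun x =>
    (L.pt_injective ((hπ b x).symm.trans (hπ' b x))).2
  obtain ⟨Fq, EH, EV, hFq, hEH, hEV, hw⟩ :=
    K.exists_edges hmf hπ (fun b => by rw [hππ]; exact hsgn' b) h0
  set s2 := s + 2 * d + 2 with hs2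
  have hfitB := L.fits_ball_wide (k := k) (s := s2) (by omega)
  have hc : c ∈ Γ.reg L (L.ball k s2) := Γ.reg_mono L hfitB (fun q hq => by
    simp only [Level.ball, mem_rectCells] at hq ⊢
    omega) K.parts.ball
  have hX : Fq⁻¹ * c⁻¹ ∈ Γ.reg L (L.ball k s2) := mul_mem (inv_mem hFq) (inv_mem hc)
  have hone : Γ.proj Fq * Γ.proj (EH * EV) * Γ.proj c = 1 := by
    rw [← K.one, hw]
    simp only [map_mul, mul_assoc]
  have he : Γ.proj (EH * EV) = Γ.proj (Fq⁻¹ * c⁻¹) := by
    rw [map_mul Γ.proj Fq⁻¹, map_inv, map_inv, eq_mul_inv_iff_mul_eq]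
    exact eq_inv_of_mul_eq_one_right (by rw [← mul_assoc, hone])
  obtain ⟨εH, hH⟩ := Cover.ended_of_agree hmf hk hr (L := L) (s := s2) (by omega) false hEH
    (show EV ∈ Γ.reg L (L.long k r (!false)) from hEV) hX he
  obtain ⟨εV, hV⟩ := Cover.ended_of_agree hmf hk hr (L := L) (s := s2) (by omega) true hEV
    (show EH ∈ Γ.reg L (L.long k r (!true)) from hEH) hX
    (by rw [← (Cover.commute_long (by omega) hEH hEV).eq]; exact he)
  let e₁ : LocallyConstant L.base (ZMod 2) :=
    ⟨fun b => εV (L.next₁ b), εV.isLocallyConstant.comp_continuous (L.continuous_shift _ _)⟩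
  let e₂ : LocallyConstant L.base (ZMod 2) :=
    ⟨fun b => εH (L.next₂ b), εH.isLocallyConstant.comp_continuous (L.continuous_shift _ _)⟩
  have hprev₁ : ∀ b, L.prev true (L.next₁ b) = b ∧ L.next₁ (L.prev true b) = b := fun b =>
    ⟨Subtype.ext (by simp [Level.prev, Level.next₁, Level.shift, Cover.Kern.across, Amen.act_act,
        Amen.act_zero]),
      Subtype.ext (by simp [Level.prev, Level.next₁, Level.shift, Cover.Kern.across, Amen.act_act,
        Amen.act_zero])⟩
  have hprev₂ : ∀ b, L.prev false (L.next₂ b) = b ∧ L.next₂ (L.prev false b) = b := fun b =>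
    ⟨Subtype.ext (by simp [Level.prev, Level.next₂, Level.shift, Cover.Kern.across, Amen.act_act,
        Amen.act_zero]),
      Subtype.ext (by simp [Level.prev, Level.next₂, Level.shift, Cover.Kern.across, Amen.act_act,
        Amen.act_zero])⟩
  have hnn : ∀ b, L.next₁ (L.next₂ b) = L.next₂ (L.next₁ b) := fun b =>
    Subtype.ext (by
      simp only [Level.next₁, Level.next₂, Level.shift, Amen.act_act, add_comm L.per₁])
  obtain ⟨g, hg1, hg2⟩ := L.exists_primitive hcy e₁ e₂ fun b => by
    have h := Cover.corner_relation hk hr (L := L) (s := s2) (by omega) hH hV hX he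
      (L.next₁ (L.next₂ b))
    rw [(hprev₁ _).1, hnn, (hprev₂ _).1] at h
    simp only [e₁, e₂, LocallyConstant.coe_mk, hnn]
    rw [← CharTwo.add_eq_zero, ← h]
    ring
  obtain ⟨TH, TV, hTH0, hTV0, hT0⟩ := flipStatement S k hk Γ L r 0 hr (by omega) g
  have hTH := hTH0.mono (s' := s2) (Nat.zero_le _)
  have hTV := hTV0.mono (s' := s2) (Nat.zero_le _)
  have hT : TH * TV ∈ Γ.reg L (L.ball k s2) := Γ.reg_mono L hfitB (fun q hq => by
    simp only [Level.ball, mem_rectCells] at hq ⊢
    omega) hT0
  have hH0 : ∀ b, g b + g (L.prev false b) + εH b = 0 := fun b => by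
    have := hg2 (L.prev false b)
    simp only [e₂, LocallyConstant.coe_mk, (hprev₂ b).2] at this
    rw [this, CharTwo.add_self_eq_zero]
  have hV0 : ∀ b, g b + g (L.prev true b) + εV b = 0 := fun b => by
    have := hg1 (L.prev true b)
    simp only [e₁, LocallyConstant.coe_mk, (hprev₁ b).2] at this
    rw [this, CharTwo.add_self_eq_zero]
  have hH' := ((Cover.Ended.inv hTH).mul (by omega) hH).mem_ball hk hr (by omega) (by omega) hH0
  have hV' := ((Cover.Ended.inv hTV).mul (by omega) hV).mem_ball hk hr (by omega) (by omega) hV0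
  have hcomm : Commute (TH⁻¹ * EH) TV :=
    Cover.commute_long (by omega) (mul_mem (inv_mem hTH.mem) hEH) hTV.mem
  have key : EH * EV = TH * TV * ((TH⁻¹ * EH) * (TV⁻¹ * EV)) := by
    rw [mul_assoc TH TV, ← mul_assoc TV (TH⁻¹ * EH), ← hcomm.eq]
    simp [mul_assoc]
  have hmem : f * eh * ev * c ∈ Γ.reg L (L.ball k s2) := by
    rw [hw, mul_assoc Fq EH EV, key]
    exact mul_mem (mul_mem hFq (mul_mem hT (mul_mem hH' hV'))) hc
  have h5b : 5 ≤ (L.ball k s2).card := five_le_card_rectCells hk (by omega) (by omega)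
  rw [Γ.reg_eq L _ hfitB h5b] at hmem
  exact Γ.proj_injOn _ _ hmem (one_mem _) (by rw [K.one, map_one])

end Vale.Agent.P196.SFT
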