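import Vale.Agent.P196.Cover.Pieces

/-!
P196, module B: elements of a long edge that only move points near the two ends of their edge,
with the parity of their left ends; and the statements joining the last steps of the kernel bound.
-/

namespace Vale.Agent.P196.SFT

open Equiv Square

variable {S : SFT} {k : ℕ}

/-- A side without the two corner squares of side `r`, together with its mirror image. -/
noncomputable def Level.long (L : S.Level) (k r : ℕ) (tw : Bool) : Finset (Fin k × V) :=
  if tw then rectCells k (-(r : ℤ)) r r ((L.Q : ℤ) - r)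
  else rectCells k r ((L.Q : ℤ) - r) (-(r : ℤ)) r

lemma Level.mem_long (L : S.Level) (r : ℕ) (tw : Bool) (p : Fin k × V) :
    p ∈ L.long k r tw ↔ (((r : ℤ) ≤ (swapIf tw p.2).1 ∧ (swapIf tw p.2).1 < (L.Q : ℤ) - r) ∧
      (-(r : ℤ) ≤ (swapIf tw p.2).2 ∧ (swapIf tw p.2).2 < r)) := by
  cases tw
  · simp only [Level.long, swapIf, Bool.false_eq_true, if_false, mem_rectCells]
  · simp only [Level.long, swapIf, if_true, mem_rectCells]
    tauto

/-- The cells in the left half of an edge. -/
def Level.IsLeft (L : S.Level) (tw : Bool) (u : Fin k × V) : Prop :=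
  (swapIf tw u.2).1 < ((L.Q / 2 : ℕ) : ℤ)

/-- The cells at the ends of an edge, inside the ball of parameter `s`. -/
def Level.InEnd (L : S.Level) (s : ℕ) (tw : Bool) (u : Fin k × V) : Prop :=
  (swapIf tw u.2).1 < ((L.Q / 8 + s : ℕ) : ℤ) ∨
    (L.Q : ℤ) - (L.Q / 8 + s : ℕ) ≤ (swapIf tw u.2).1

/-- A parity as a sign. -/
def sgn (e : ZMod 2) : ℤˣ := if e = 0 then 1 else -1

lemma sgn_zero : sgn 0 = 1 := rfl

lemma sgn_add (a b : ZMod 2) : sgn (a + b) = sgn a * sgn b := by
  revert a b; decide

lemma sgn_injective : Function.Injective sgn := by decide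

/-- The preceding component across a side. -/
def Level.prev (L : S.Level) (tw : Bool) (b : L.base) : L.base :=
  L.shift (-(Cover.Kern.across L tw)) (by
    cases tw <;> simp [Cover.Kern.across, Level.cast, Level.per₁, Level.per₂]) b

namespace Cover

variable (Γ : S.Cover k)

/-- An element of a long edge moving only cells at the ends, each end into itself, with parity
`ε` at the left end. -/
structure Ended (L : S.Level) (r s : ℕ) (tw : Bool) (x : Γ.H) (ε : L.base → ZMod 2) : Prop where
  mem : x ∈ Γ.reg L (L.long k r tw)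
  ends : ∀ b, ∃ σ : Perm (L.long k r tw),
    (∀ u, Γ.proj x (L.cpt b u.1) = L.cpt b (σ u).1) ∧
    (∀ u, σ u ≠ u → L.InEnd s tw u.1) ∧
    ∃ h : ∀ u, L.IsLeft tw (σ u).1 ↔ L.IsLeft tw u.1,
      haveI : DecidablePred fun u : L.long k r tw => L.IsLeft tw u.1 := Classical.decPred _
      Perm.sign (σ.subtypePerm (p := fun u => L.IsLeft tw u.1) h) = sgn (ε b)

end Cover

variable (S) in
/-- Flipping all four sides of the tiles selected by `g`. -/
def FlipStatement : Prop :=
  ∀ k : ℕ, 1 ≤ k → ∀ (Γ : S.Cover k) (L : S.Level) (r s : ℕ), 1 ≤ r → 64 * (r + s + 1) ≤ L.Q →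
    ∀ g : LocallyConstant L.base (ZMod 2), ∃ TH TV : Γ.H,
      Γ.Ended L r s false TH (fun b => g b + g (L.prev false b)) ∧
      Γ.Ended L r s true TV (fun b => g b + g (L.prev true b)) ∧
      TH * TV ∈ Γ.reg L (L.ball k s)

variable (S) in
/-- A kernel element without flow is trivial. -/
def VanishStatement : Prop :=
  S.MinimalFree → S.CocyclesModTwoTrivial →
    ∀ (k : ℕ) (Γ : S.Cover k) (L : S.Level) (r s d : ℕ) (f eh ev c : Γ.H),
      Γ.Kern L r s d f eh ev c → ∀ π : LocallyConstant L.base (Perm (Sq k L.Q)),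
        (∀ b x, Γ.proj f (L.pt b x) = L.pt b (π b x)) → (∀ b, flow (π b) = 0) →
          f * eh * ev * c = 1

end Vale.Agent.P196.SFT
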