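import Vale.Agent.P196.Cover.Sort
import Vale.Agent.P196.Cover.Ends

/-!
P196, module B: step 4, the kernel of a cover is cyclic. The pairs (kernel element, flow at most
levels) form a group that projects injectively to the integers.
-/

namespace Vale.Agent.P196.SFT

open Equiv Square Filter

variable {S : SFT} {k : ℕ}

/-- Banded permutations stay banded for larger parameters. -/
lemma banded_mono {Q r R d r' R' d' : ℕ} {σ : Perm (Sq k Q)} (h : Banded r R d σ) (hr : r ≤ r')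
    (hR : R ≤ R') (hd : d ≤ d') : Banded r' R' d' σ := by
  refine ⟨fun x hx => ?_, fun x => ?_⟩
  · have := h.band x hx
    unfold Band at this ⊢
    omega
  · have := h.near x
    omega

lemma Odometer.eventually_big (O : S.Odometer) (N : ℕ) :
    ∀ᶠ n in (hyperfilter ℕ : Filter ℕ), N ≤ O.Q n :=
  Nat.hyperfilter_le_atTop (O.Q_strict.tendsto_atTop.eventually_ge_atTop N)

namespace Cover

variable (Γ : S.Cover k)

/-- The element `w` of the kernel decomposes at `L` with flow `j` on every tile. -/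
def HasFlow (L : S.Level) (r s d : ℕ) (w : Γ.H) (j : ℤ) : Prop :=
  ∃ f eh ev c, Γ.Kern L r s d f eh ev c ∧ w = f * eh * ev * c ∧
    ∃ π : LocallyConstant L.base (Perm (Sq k L.Q)),
      (∀ b x, Γ.proj f (L.pt b x) = L.pt b (π b x)) ∧ ∀ b, flow (π b) = j

/-- The relation between kernel elements and flows. -/
def Rel (O : S.Odometer) (w : Γ.H) (j : ℤ) : Prop :=
  ∃ r s d, ∀ᶠ n in (hyperfilter ℕ : Filter ℕ), Γ.HasFlow (O.level n) r s d w j

variable {Γ}

lemma HasFlow.proj_eq_one {L : S.Level} {r s d : ℕ} {w : Γ.H} {j : ℤ}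
    (h : Γ.HasFlow L r s d w j) : Γ.proj w = 1 := by
  obtain ⟨f, eh, ev, c, K, rfl, -⟩ := h
  exact K.one

lemma hasFlow_one (hk : 1 ≤ k) {L : S.Level} (hQ : 192 ≤ L.Q) :
    Γ.HasFlow L 1 0 0 1 0 := by
  refine ⟨1, 1, 1, 1, ⟨⟨one_mem _, one_mem _, one_mem _, one_mem _, ?_, ?_, ?_, ?_⟩,
    by simp, le_rfl, by omega, hk⟩, by simp, 1, fun b x => by simp, fun b => flowAt_one _⟩ <;>
    rw [map_one] <;> exact Disp.one 0

lemma HasFlow.mul {L : S.Level} {r s d r' s' d' : ℕ} {w w' : Γ.H} {j j' : ℤ}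
    (hmf : S.MinimalFree) (h : Γ.HasFlow L r s d w j) (h' : Γ.HasFlow L r' s' d' w' j')
    (hQ : 64 * (r + r' + (s + s' + 2 * d) + (5 * d + d') + 2) ≤ L.Q) :
    Γ.HasFlow L (r + r') (s + s' + 2 * d) (5 * d + d') (w * w') (j + j') := by
  obtain ⟨f, eh, ev, c, K, hw, π, hπ, hj⟩ := h
  obtain ⟨f', eh', ev', c', K', hw', π', hπ', hj'⟩ := h'
  obtain ⟨a1, a2, a3, a4, b1, b2, b3, b4⟩ := K.parts
  obtain ⟨x1, x2, x3, x4, y1, y2, y3, y4⟩ := K'.parts
  have hed : Disp (Γ.proj (eh * ev)⁻¹) (d + d) := by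
    rw [map_inv, map_mul]; exact (b2.mul b3).inv
  have hc : (eh * ev)⁻¹ * c' * ((eh * ev)⁻¹)⁻¹ ∈ Γ.reg L (L.ball k (s' + (d + d))) := by
    refine Γ.conj_mem_reg L (L.fits_ball (by omega)) hed.1 (fun p hp i u u1 u2 => ?_) x4
    simp only [Level.ball, mem_rectCells, Prod.fst_add, Prod.snd_add] at hp ⊢
    omega
  have hcomm : Commute ev' eh := by
    refine Γ.commute_reg L (fun p hp q hq _ he => ?_) x3 a2
    simp only [Level.edgeV, Level.edgeH, mem_rectCells] at hp hq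
    simp only [Level.cast, Prod.mk.injEq] at he
    have := L.eq_of_cast he.1 (by omega) (by omega)
    omega
  have hzc : w' ∈ Subgroup.center Γ.H := Γ.central (MonoidHom.mem_ker.2 (by rw [hw']; exact K'.one))
  have heq : w * w' = f * f' * (eh' * eh) * (ev' * ev) *
      ((eh * ev)⁻¹ * c' * ((eh * ev)⁻¹)⁻¹ * c) := by
    calc w * w' = f * ((eh * ev * c) * w') := by rw [hw]; group
      _ = f * (w' * (eh * ev * c)) := by rw [Subgroup.mem_center_iff.1 hzc]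
      _ = f * f' * (eh' * (ev' * eh) * ev) * ((eh * ev)⁻¹ * c' * ((eh * ev)⁻¹)⁻¹ * c) := by
        rw [hw']; group
      _ = _ := by rw [hcomm.eq]; group
  refine ⟨f * f', eh' * eh, ev' * ev, (eh * ev)⁻¹ * c' * ((eh * ev)⁻¹)⁻¹ * c,
    ⟨⟨mul_mem a1 x1, ?_, ?_, ?_, ?_, ?_, ?_, ?_⟩, ?_, by have := K.rpos; omega, hQ, K.kpos⟩, heq,
    π * π', fun b x => ?_, fun b => ?_⟩
  · refine mul_mem (Γ.reg_mono L (L.fits_edgeH (by omega)) ?_ x2)
      (Γ.reg_mono L (L.fits_edgeH (by omega)) ?_ a2) <;>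
      exact rectCells_subset le_rfl le_rfl (by omega) (by omega)
  · refine mul_mem (Γ.reg_mono L (L.fits_edgeV (by omega)) ?_ x3)
      (Γ.reg_mono L (L.fits_edgeV (by omega)) ?_ a3) <;>
      exact rectCells_subset (by omega) (by omega) le_rfl le_rfl
  · refine mul_mem (Γ.reg_mono L (L.fits_ball (by omega)) ?_ hc)
      (Γ.reg_mono L (L.fits_ball (by omega)) ?_ a4) <;>
      exact rectCells_subset (by omega) (by omega) (by omega) (by omega)
  · rw [map_mul]; exact (b1.mul y1).mono (by omega)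
  · rw [map_mul]; exact (y2.mul b2).mono (by omega)
  · rw [map_mul]; exact (y3.mul b3).mono (by omega)
  · have h := ((hed.mul y4).mul hed.inv).mul b4
    simp only [map_mul, map_inv] at h ⊢
    exact h.mono (by omega)
  · rw [← heq, map_mul, hw, hw', K.one, K'.one, one_mul]
  · rw [map_mul, Perm.mul_apply, hπ' b x, hπ b, LocallyConstant.mul_apply, Perm.mul_apply]
  · have hB := banded_mono (K.banded hmf hπ b) (show r ≤ r + r' by omega)
      (show L.Q / 8 + s ≤ L.Q / 8 + (s + s' + 2 * d) by omega) (show d ≤ 5 * d + d' by omega)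
    have hB' := banded_mono (K'.banded hmf hπ' b) (show r' ≤ r + r' by omega)
      (show L.Q / 8 + s' ≤ L.Q / 8 + (s + s' + 2 * d) by omega) (show d' ≤ 5 * d + d' by omega)
    have hroom : Room L.Q (r + r') (L.Q / 8 + (s + s' + 2 * d)) (5 * d + d') := by
      have := K.rpos
      constructor <;> omega
    rw [LocallyConstant.mul_apply, flow, flowAt_mul hB hB' hroom hroom.mid]
    exact congrArg₂ (· + ·) (hj b) (hj' b)

lemma HasFlow.inv {L : S.Level} {r s d : ℕ} {w : Γ.H} {j : ℤ} (hmf : S.MinimalFree)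
    (h : Γ.HasFlow L r s d w j) (hQ : 64 * (r + (s + 2 * d) + 5 * d + 2) ≤ L.Q) :
    Γ.HasFlow L r (s + 2 * d) (5 * d) w⁻¹ (-j) := by
  obtain ⟨f, eh, ev, c, K, hw, π, hπ, hj⟩ := h
  obtain ⟨a1, a2, a3, a4, b1, b2, b3, b4⟩ := K.parts
  have hed : Disp (Γ.proj (eh * ev)) (d + d) := by
    rw [map_mul]; exact b2.mul b3
  have hc : eh * ev * c⁻¹ * (eh * ev)⁻¹ ∈ Γ.reg L (L.ball k (s + (d + d))) := by
    refine Γ.conj_mem_reg L (L.fits_ball (by omega)) hed.1 (fun p hp i u u1 u2 => ?_) (inv_mem a4)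
    simp only [Level.ball, mem_rectCells, Prod.fst_add, Prod.snd_add] at hp ⊢
    omega
  have hzc : w⁻¹ ∈ Subgroup.center Γ.H :=
    inv_mem (Γ.central (MonoidHom.mem_ker.2 (by rw [hw]; exact K.one)))
  have heq : w⁻¹ = f⁻¹ * eh⁻¹ * ev⁻¹ * (eh * ev * c⁻¹ * (eh * ev)⁻¹) := by
    calc w⁻¹ = f⁻¹ * (f * w⁻¹) := by group
      _ = f⁻¹ * (w⁻¹ * f) := by rw [Subgroup.mem_center_iff.1 hzc]
      _ = f⁻¹ * (eh⁻¹ * ev⁻¹ * (eh * ev * c⁻¹ * (ev⁻¹ * eh⁻¹))) := by
        rw [hw, (K.commute_edges.eq : eh * ev = ev * eh)]; group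
      _ = _ := by group
  refine ⟨f⁻¹, eh⁻¹, ev⁻¹, eh * ev * c⁻¹ * (eh * ev)⁻¹,
    ⟨⟨inv_mem a1, inv_mem a2, inv_mem a3, ?_, ?_, ?_, ?_, ?_⟩, ?_, K.rpos, hQ, K.kpos⟩, heq,
    π⁻¹, fun b x => ?_, fun b => ?_⟩
  · exact Γ.reg_mono L (L.fits_ball (by omega))
      (rectCells_subset (by omega) (by omega) (by omega) (by omega)) hc
  · rw [map_inv]; exact b1.inv.mono (by omega)
  · rw [map_inv]; exact b2.inv.mono (by omega)
  · rw [map_inv]; exact b3.inv.mono (by omega)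
  · have h := (hed.mul b4.inv).mul hed.inv
    simp only [map_mul, map_inv] at h ⊢
    exact h.mono (by omega)
  · rw [← heq, map_inv, hw, K.one, inv_one]
  · rw [map_inv, LocallyConstant.inv_apply, Perm.inv_eq_iff_eq, hπ b]
    simp
  · have hB := K.banded hmf hπ b
    have := flowAt_mul hB (banded_inv hB) K.room K.room.mid
    rw [mul_inv_cancel, flowAt_one] at this
    rw [LocallyConstant.inv_apply]
    have e := hj b
    simp only [flow] at e ⊢
    omega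

lemma rel_one (O : S.Odometer) (hk : 1 ≤ k) : Γ.Rel O 1 0 :=
  ⟨1, 0, 0, (O.eventually_big 192).mono fun _ hn => hasFlow_one hk hn⟩

lemma Rel.mul {O : S.Odometer} (hmf : S.MinimalFree) {w w' : Γ.H} {j j' : ℤ}
    (h : Γ.Rel O w j) (h' : Γ.Rel O w' j') : Γ.Rel O (w * w') (j + j') := by
  obtain ⟨r, s, d, h⟩ := h
  obtain ⟨r', s', d', h'⟩ := h'
  exact ⟨r + r', s + s' + 2 * d, 5 * d + d',
    ((h.and h').and (O.eventually_big _)).mono fun _ hn => hn.1.1.mul hmf hn.1.2 hn.2⟩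

lemma Rel.inv {O : S.Odometer} (hmf : S.MinimalFree) {w : Γ.H} {j : ℤ} (h : Γ.Rel O w j) :
    Γ.Rel O w⁻¹ (-j) := by
  obtain ⟨r, s, d, h⟩ := h
  exact ⟨r, s + 2 * d, 5 * d,
    (h.and (O.eventually_big _)).mono fun _ hn => hn.1.inv hmf hn.2⟩

lemma Rel.zpow {O : S.Odometer} (hmf : S.MinimalFree) (hk : 1 ≤ k) {w : Γ.H} {j : ℤ}
    (h : Γ.Rel O w j) (n : ℤ) : Γ.Rel O (w ^ n) (n * j) := by
  induction n with
  | zero => simpa using rel_one O hk
  | succ n ih => simpa [zpow_add_one, add_mul] using ih.mul hmf h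
  | pred n ih =>
    have h2 := ih.mul hmf (h.inv hmf)
    rwa [← zpow_sub_one, show -(n : ℤ) * j + -j = (-(n : ℤ) - 1) * j by ring] at h2

lemma Rel.mem_ker {O : S.Odometer} {w : Γ.H} {j : ℤ} (h : Γ.Rel O w j) : w ∈ Γ.proj.ker := by
  obtain ⟨r, s, d, h⟩ := h
  obtain ⟨n, hn⟩ := h.exists
  exact hn.proj_eq_one

lemma exists_rel (O : S.Odometer) (hmf : S.MinimalFree) (hk : 1 ≤ k) {w : Γ.H}
    (hw : w ∈ Γ.proj.ker) : ∃ j, Γ.Rel O w j := by
  classical
  obtain ⟨r, s, d, N, hsort⟩ := sortStatement S k hk Γ w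
  set B : ℤ := ((k * (2 * d + 1) * (r + 1) : ℕ) : ℤ)
  have hev : ∀ᶠ n in (hyperfilter ℕ : Filter ℕ),
      ∃ j, (-B ≤ j ∧ j ≤ B) ∧ Γ.HasFlow (O.level n) (r + 1) s d w j := by
    refine (O.eventually_big (N + 64 * (r + 1 + s + d + 2))).mono fun n hn => ?_
    set L := O.level n
    have hQ : N + 64 * (r + 1 + s + d + 2) ≤ L.Q := hn
    obtain ⟨f, eh, ev, c, ⟨p1, p2, p3, p4, p5, p6, p7, p8⟩, he⟩ := hsort L (by omega)
    have K : Γ.Kern L (r + 1) s d f eh ev c :=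
      ⟨⟨p1, Γ.reg_mono L (L.fits_edgeH (by omega))
          (rectCells_subset le_rfl le_rfl (by omega) (by omega)) p2,
        Γ.reg_mono L (L.fits_edgeV (by omega))
          (rectCells_subset (by omega) (by omega) le_rfl le_rfl) p3, p4, p5, p6, p7, p8⟩,
        by rw [← he]; exact MonoidHom.mem_ker.1 hw, by omega, by omega, hk⟩
    obtain ⟨π, -, hπ⟩ := Γ.exists_tilePerm hk L (by omega) p1
    obtain ⟨x⟩ := hmf.nonempty
    refine ⟨flow (π (L.origin x)), ?_, f, eh, ev, c, K, he, π, hπ,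
      fun b => K.flow_const hmf hπ b _⟩
    exact abs_le.1 (abs_flow_le (K.banded hmf hπ _) K.room)
  let J : ℕ → ℤ := fun n =>
    if h : ∃ j, (-B ≤ j ∧ j ≤ B) ∧ Γ.HasFlow (O.level n) (r + 1) s d w j then h.choose else 0
  have hJ : ∀ᶠ n in (hyperfilter ℕ : Filter ℕ),
      J n ∈ Set.Icc (-B) B ∧ Γ.HasFlow (O.level n) (r + 1) s d w (J n) :=
    hev.mono fun n h => by
      simp only [J, dif_pos h]
      exact ⟨h.choose_spec.1, h.choose_spec.2⟩
  obtain ⟨j, -, hj⟩ := ((hyperfilter ℕ).map J).eq_pure_of_finite_mem (Set.finite_Icc (-B) B)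
    (hJ.mono fun _ h => h.1)
  refine ⟨j, r + 1, s, d, ?_⟩
  have hj' : ∀ᶠ n in (hyperfilter ℕ : Filter ℕ), J n = j := by
    have : ({j} : Set ℤ) ∈ (hyperfilter ℕ).map J := by rw [hj]; exact Set.mem_singleton j
    exact this
  exact (hJ.and hj').mono fun n hn => hn.2 ▸ hn.1.2

/-- The flows of the kernel. -/
def flows (O : S.Odometer) (hmf : S.MinimalFree) (hk : 1 ≤ k) : AddSubgroup ℤ where
  carrier := {j | ∃ w, Γ.Rel O w j}
  zero_mem' := ⟨1, rel_one O hk⟩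
  add_mem' := fun ⟨_, h⟩ ⟨_, h'⟩ => ⟨_, h.mul hmf h'⟩
  neg_mem' := fun ⟨_, h⟩ => ⟨_, h.inv hmf⟩

end Cover

/-- The kernel of every cover is cyclic, given the vanishing statement. -/
theorem kernelStatement_of (hV : VanishStatement S) : S.KernelStatement := by
  intro O hmf hcy k hk Γ
  obtain ⟨a, ha⟩ := Int.subgroup_cyclic (Cover.flows (Γ := Γ) O hmf hk)
  obtain ⟨z, hz⟩ : a ∈ Cover.flows (Γ := Γ) O hmf hk := by
    rw [ha]; exact AddSubgroup.subset_closure rfl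
  refine ⟨z, le_antisymm (fun w hw => ?_) ((Subgroup.zpowers_le).2 hz.mem_ker)⟩
  obtain ⟨j, hj⟩ := Cover.exists_rel O hmf hk hw
  have hj0 : j ∈ Cover.flows (Γ := Γ) O hmf hk := ⟨w, hj⟩
  rw [ha, AddSubgroup.mem_closure_singleton] at hj0
  obtain ⟨n, rfl⟩ := hj0
  rw [smul_eq_mul] at hj
  have h0 := hj.mul hmf ((hz.zpow hmf hk n).inv hmf)
  rw [add_neg_cancel] at h0
  obtain ⟨r, s, d, h⟩ := h0
  obtain ⟨m, f, eh, ev, c, K, he, π, hπ, hflow⟩ := h.exists
  have h1 := hV hmf hcy k Γ _ _ _ _ f eh ev c K π hπ hflow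
  rw [← he, mul_inv_eq_one] at h1
  exact ⟨n, h1.symm⟩

end Vale.Agent.P196.SFT
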