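import Vale.Agent.P196.Cover.Tower
import Vale.Agent.P196.Amen.Maps

/-!
P196, module B: uniqueness of the lifts of tower groups, and transport of lifts along maps carrying
one tower into another.
-/

namespace Vale.Agent.P196.SFT

open Equiv

variable {S : SFT} {k : ℕ}

instance Tower.compactSpace (T : S.Tower k) : CompactSpace T.base :=
  isCompact_iff_compactSpace.1 T.clopen.1.isCompact

/-- A function with finite range on a space, glued from its indicators, lies in a subgroup
containing all indicators. -/
lemma lc_mem_of_indicators {Y A : Type*} [TopologicalSpace Y] [CompactSpace Y] [Group A]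
    (K : Subgroup (LocallyConstant Y A))
    (hK : ∀ (U : Set Y) (hU : IsClopen U) (a : A),
      LocallyConstant.mulIndicator (LocallyConstant.const Y a) hU ∈ K)
    (f : LocallyConstant Y A) : f ∈ K := by
  classical
  suffices h : ∀ (F : Finset A) (g : LocallyConstant Y A), (∀ y, g y ≠ 1 → g y ∈ F) → g ∈ K by
    exact h f.range_finite.toFinset f fun y _ => f.range_finite.mem_toFinset.2 ⟨y, rfl⟩
  intro F
  induction F using Finset.induction_on with
  | empty =>
    intro g hg
    have : g = 1 := LocallyConstant.ext fun y => by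
      by_contra h
      exact absurd (hg y h) (Finset.notMem_empty _)
    rw [this]; exact K.one_mem
  | @insert a F haF ih =>
    intro g hg
    have hU : IsClopen (g ⁻¹' {a}) := g.isLocallyConstant.isClopen_fiber a
    set e := LocallyConstant.mulIndicator (LocallyConstant.const Y a) hU with he
    have hg' : g * e⁻¹ ∈ K := by
      refine ih _ fun y hy => ?_
      by_cases hya : g y = a
      · exfalso; apply hy
        simp [he, hya]
      · have : (g * e⁻¹) y = g y := by
          simp [he, hya]
        rw [this] at hy ⊢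
        exact (Finset.mem_insert.1 (hg y hy)).resolve_left hya
    have := K.mul_mem hg' (hK _ hU a)
    rwa [← he, inv_mul_cancel_right] at this

/-- Locally constant families in a perfect group form a perfect group. -/
lemma lc_commutator_eq_top {Y A : Type*} [TopologicalSpace Y] [CompactSpace Y] [Group A]
    (hA : commutator A = ⊤) : commutator (LocallyConstant Y A) = ⊤ := by
  classical
  refine eq_top_iff.2 fun f _ => lc_mem_of_indicators _ (fun U hU a => ?_) f
  let ι : A →* LocallyConstant Y A :=
    { toFun := fun a => LocallyConstant.mulIndicator (LocallyConstant.const Y a) hU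
      map_one' := LocallyConstant.ext fun y => by
        simp
      map_mul' := fun a b => LocallyConstant.ext fun y => by
        by_cases hy : y ∈ U <;> simp [hy] }
  have h1 : ι a ∈ (commutator A).map ι := ⟨a, by rw [hA]; trivial, rfl⟩
  have h2 : (commutator A).map ι ≤ commutator (LocallyConstant Y A) := by
    rw [commutator_def, commutator_def, Subgroup.map_commutator]
    exact Subgroup.commutator_mono le_top le_top
  exact h2 h1

lemma Tower.commutator_eq_top (T : S.Tower k) (hT : 5 ≤ T.cells.card) :
    commutator (LocallyConstant T.base (alternatingGroup T.cells)) = ⊤ :=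
  lc_commutator_eq_top (commutator_alternatingGroup_eq_top
    (by simpa [Nat.card_eq_fintype_card] using hT))

lemma Tower.perm_injective (T : S.Tower k) : Function.Injective T.perm := by
  intro σ τ h
  refine LocallyConstant.ext fun c => Equiv.ext fun s => ?_
  have := congrArg (fun g : Equiv.Perm (Fin k × S.X) => g (T.emb (c, s))) h
  simp only [T.perm_emb] at this
  exact (Prod.ext_iff.1 (T.emb.injective this)).2

lemma Tower.alt_injective (T : S.Tower k) : Function.Injective T.alt := by
  intro σ τ h
  have := T.perm_injective h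
  refine LocallyConstant.ext fun c => Subtype.ext ?_
  exact congrArg (fun f : LocallyConstant T.base (Equiv.Perm T.cells) => f c) this

lemma Tower.alt_of_notMem (T : S.Tower k)
    (σ : LocallyConstant T.base (alternatingGroup T.cells)) {p : Fin k × S.X}
    (hp : p ∉ Set.range T.emb) : T.alt σ p = p :=
  T.perm_of_notMem _ hp

namespace Cover

variable (Γ : S.Cover k)

/-- Two lifts of the same map of a perfect group agree. -/
lemma hom_ext {P : Type*} [Group P] (hP : commutator P = ⊤) {θ θ' : P →* Γ.H}
    (h : ∀ x, Γ.proj (θ x) = Γ.proj (θ' x)) : θ = θ' := by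
  have hz : ∀ x, θ x * (θ' x)⁻¹ ∈ Subgroup.center Γ.H := fun x =>
    Γ.central (by simp [MonoidHom.mem_ker, h x])
  let δ : P →* Subgroup.center Γ.H :=
    { toFun := fun x => ⟨θ x * (θ' x)⁻¹, hz x⟩
      map_one' := Subtype.ext <| show θ 1 * (θ' 1)⁻¹ = 1 by
        rw [map_one, map_one, inv_one, mul_one]
      map_mul' := fun x y => Subtype.ext <| by
        show θ (x * y) * (θ' (x * y))⁻¹ = θ x * (θ' x)⁻¹ * (θ y * (θ' y)⁻¹)
        have hy : (θ' x)⁻¹ * (θ y * (θ' y)⁻¹) = θ y * (θ' y)⁻¹ * (θ' x)⁻¹ :=
          Subgroup.mem_center_iff.1 (hz y) (θ' x)⁻¹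
        rw [map_mul, map_mul, mul_inv_rev, mul_assoc (θ x) (θ' x)⁻¹, hy]
        simp only [mul_assoc] }
  have hker : commutator P ≤ δ.ker := by
    rw [commutator_def, Subgroup.commutator_le]
    intro a _ b _
    rw [MonoidHom.mem_ker, commutatorElement_def, map_mul, map_mul, map_mul, map_inv, map_inv]
    generalize δ a = u, δ b = v
    apply Subtype.ext
    show u.1 * v.1 * u.1⁻¹ * v.1⁻¹ = 1
    rw [Subgroup.mem_center_iff.1 v.2 u.1]
    simp
  ext x
  have : δ x = 1 := MonoidHom.mem_ker.1 (hker (by rw [hP]; trivial))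
  have h1 : θ x * (θ' x)⁻¹ = 1 := congrArg Subtype.val this
  exact mul_inv_eq_one.1 h1

/-- The lifted group of a tower. -/
def grp (T : S.Tower k) (hT : 5 ≤ T.cells.card) : Subgroup Γ.H := (Γ.lift T hT).range

lemma proj_injOn (T : S.Tower k) (hT : 5 ≤ T.cells.card) {x y : Γ.H} (hx : x ∈ Γ.grp T hT)
    (hy : y ∈ Γ.grp T hT) (h : Γ.proj x = Γ.proj y) : x = y := by
  obtain ⟨σ, rfl⟩ := hx
  obtain ⟨τ, rfl⟩ := hy
  rw [Γ.proj_lift, Γ.proj_lift] at h
  rw [T.alt_injective h]

/-- An element whose image commutes with a tower group commutes with its lift. -/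
lemma commute_lift (T : S.Tower k) (hT : 5 ≤ T.cells.card) (h : Γ.H)
    (hc : ∀ σ, Commute (Γ.proj h) (T.alt σ))
    (σ : LocallyConstant T.base (alternatingGroup T.cells)) : Commute h (Γ.lift T hT σ) := by
  have := Γ.hom_ext (T.commutator_eq_top hT)
    (θ := (MulAut.conj h).toMonoidHom.comp (Γ.lift T hT)) (θ' := Γ.lift T hT) (fun x => by
      simp only [MonoidHom.comp_apply, MulEquiv.coe_toMonoidHom, MulAut.conj_apply, map_mul,
        map_inv, Γ.proj_lift]
      rw [(hc x).eq, mul_assoc, mul_inv_cancel, mul_one])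
  exact mul_inv_eq_iff_eq_mul.1 (by simpa using DFunLike.congr_fun this σ)

/-- Conjugation carries the lift of a tower to the lift of the image tower. -/
lemma conj_lift (T T' : S.Tower k) (hT : 5 ≤ T.cells.card) (hT' : 5 ≤ T'.cells.card) (h : Γ.H)
    (φ : LocallyConstant T.base (alternatingGroup T.cells) →*
      LocallyConstant T'.base (alternatingGroup T'.cells))
    (hφ : ∀ σ, Γ.proj h * T.alt σ * (Γ.proj h)⁻¹ = T'.alt (φ σ))
    (σ : LocallyConstant T.base (alternatingGroup T.cells)) :
    h * Γ.lift T hT σ * h⁻¹ = Γ.lift T' hT' (φ σ) := by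
  have := Γ.hom_ext (T.commutator_eq_top hT)
    (θ := (MulAut.conj h).toMonoidHom.comp (Γ.lift T hT))
    (θ' := (Γ.lift T' hT').comp φ) (fun x => by
      simp only [MonoidHom.comp_apply, MulEquiv.coe_toMonoidHom, MulAut.conj_apply, map_mul,
        map_inv, Γ.proj_lift]
      exact hφ x)
  simpa using DFunLike.congr_fun this σ

end Cover

/-- `g` carries the tower `T` into the tower `T'`: components go to components, translated by
`v`, and the cells of a component go into the cells of its image. -/
structure Tower.Into (g : Equiv.Perm (Fin k × S.X)) (T T' : S.Tower k) where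
  v : V
  base : ∀ c : T.base, S.act v c.1 ∈ T'.base
  cell : LocallyConstant T.base (T.cells ↪ T'.cells)
  eq : ∀ c s, g (T.emb (c, s)) = T'.emb (⟨S.act v c.1, base c⟩, cell c s)

lemma continuous_act (v : V) : Continuous fun x : S.X => S.act v x := by
  refine Continuous.subtype_mk ?_ _
  exact continuous_pi fun u => (continuous_apply (u + v)).comp continuous_subtype_val

lemma sign_viaEmbedding {α β : Type*} [Fintype α] [DecidableEq α] [Fintype β] [DecidableEq β]
    (ι : α ↪ β) (σ : Equiv.Perm α) :
    Equiv.Perm.sign (σ.viaEmbedding ι) = Equiv.Perm.sign σ := by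
  classical
  unfold Equiv.Perm.viaEmbedding
  convert Equiv.Perm.sign_extendDomain σ _

namespace Tower.Into

variable {g : Equiv.Perm (Fin k × S.X)} {T T' : S.Tower k} (m : Tower.Into g T T')

/-- The component of `T` sent to a component of `T'`. -/
def preBase : Set T'.base := {c | S.act (-m.v) c.1 ∈ T.base}

lemma isClopen_preBase : IsClopen m.preBase :=
  T.clopen.preimage ((continuous_act _).comp continuous_subtype_val)

open scoped Classical in
/-- The image of a family of permutations. -/
noncomputable def pushFun (σ : LocallyConstant T.base (Equiv.Perm T.cells))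
    (c : T'.base) : Equiv.Perm T'.cells :=
  if h : c ∈ m.preBase then (σ ⟨_, h⟩).viaEmbedding (m.cell ⟨_, h⟩) else 1

lemma isLocallyConstant_pushFun (σ : LocallyConstant T.base (Equiv.Perm T.cells)) :
    IsLocallyConstant (m.pushFun σ) := by
  classical
  have hr : IsLocallyConstant (fun c : m.preBase => m.pushFun σ c.1) := by
    have hcont : Continuous fun c : m.preBase => (⟨S.act (-m.v) c.1.1, c.2⟩ : T.base) :=
      Continuous.subtype_mk ((continuous_act _).comp
        (continuous_subtype_val.comp continuous_subtype_val)) _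
    have hp : IsLocallyConstant fun c : T.base => (σ c, m.cell c) :=
      σ.isLocallyConstant.prodMk m.cell.isLocallyConstant
    have := (hp.comp_continuous hcont).comp
      (fun q : Equiv.Perm T.cells × (T.cells ↪ T'.cells) => q.1.viaEmbedding q.2)
    refine Eq.subst (motive := IsLocallyConstant) (funext fun c => ?_) this
    simp [pushFun, c.2]
  refine (IsLocallyConstant.iff_exists_open _).2 fun c => ?_
  by_cases hc : c ∈ m.preBase
  · obtain ⟨U, hU, hcU, hUf⟩ := (IsLocallyConstant.iff_exists_open _).1 hr ⟨c, hc⟩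
    refine ⟨Subtype.val '' U, m.isClopen_preBase.2.isOpenMap_subtype_val U hU, ⟨_, hcU, rfl⟩, ?_⟩
    rintro _ ⟨y, hy, rfl⟩
    exact hUf y hy
  · exact ⟨m.preBaseᶜ, m.isClopen_preBase.compl.2, hc, fun y hy => by
      have hy' : ¬ y ∈ m.preBase := hy
      simp [pushFun, hc, hy']⟩

/-- The image of a family of permutations, as a homomorphism. -/
noncomputable def pushPerm : LocallyConstant T.base (Equiv.Perm T.cells) →*
    LocallyConstant T'.base (Equiv.Perm T'.cells) where
  toFun σ := ⟨m.pushFun σ, m.isLocallyConstant_pushFun σ⟩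
  map_one' := by
    refine LocallyConstant.ext fun c => ?_
    by_cases hc : c ∈ m.preBase <;> simp [pushFun, hc, ← Equiv.Perm.viaEmbeddingHom_apply]
  map_mul' σ τ := by
    refine LocallyConstant.ext fun c => ?_
    by_cases hc : c ∈ m.preBase <;> simp [pushFun, hc, ← Equiv.Perm.viaEmbeddingHom_apply]

lemma sign_pushPerm {σ : LocallyConstant T.base (Equiv.Perm T.cells)}
    (hσ : ∀ c, Equiv.Perm.sign (σ c) = 1) (c : T'.base) :
    Equiv.Perm.sign (m.pushPerm σ c) = 1 := by
  by_cases hc : c ∈ m.preBase
  · simp only [pushPerm, MonoidHom.coe_mk, OneHom.coe_mk, LocallyConstant.coe_mk, pushFun,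
      dif_pos hc, sign_viaEmbedding, hσ]
  · simp [pushPerm, pushFun, hc]

/-- The image of a family of even permutations. -/
noncomputable def push : LocallyConstant T.base (alternatingGroup T.cells) →*
    LocallyConstant T'.base (alternatingGroup T'.cells) where
  toFun σ := ⟨fun c => ⟨m.pushPerm (T.evenIncl σ) c, Equiv.Perm.mem_alternatingGroup.2
      (m.sign_pushPerm (fun c => Equiv.Perm.mem_alternatingGroup.1 (σ c).2) c)⟩,
    IsLocallyConstant.desc _ Subtype.val (m.pushPerm (T.evenIncl σ)).isLocallyConstant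
      Subtype.val_injective⟩
  map_one' := LocallyConstant.ext fun c => Subtype.ext <| by simp
  map_mul' σ τ := LocallyConstant.ext fun c => Subtype.ext <| by simp

lemma evenIncl_push (σ : LocallyConstant T.base (alternatingGroup T.cells)) :
    T'.evenIncl (m.push σ) = m.pushPerm (T.evenIncl σ) := rfl

lemma pushPerm_apply (σ : LocallyConstant T.base (Equiv.Perm T.cells)) (c : T.base)
    (s : T.cells) :
    m.pushPerm σ ⟨S.act m.v c.1, m.base c⟩ (m.cell c s) = m.cell c (σ c s) := by
  have hback : S.act (-m.v) (S.act m.v c.1) = c.1 := by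
    rw [Amen.act_act, neg_add_cancel, Amen.act_zero]
  have hc : (⟨S.act m.v c.1, m.base c⟩ : T'.base) ∈ m.preBase := by
    show S.act (-m.v) (S.act m.v c.1) ∈ T.base
    rw [hback]; exact c.2
  have he : (⟨S.act (-m.v) (S.act m.v c.1), hc⟩ : T.base) = c := Subtype.ext hback
  simp only [pushPerm, MonoidHom.coe_mk, OneHom.coe_mk, LocallyConstant.coe_mk, pushFun,
    dif_pos hc]
  rw [he]
  exact Equiv.Perm.viaEmbedding_apply _ _ _

include m in
lemma conj_perm (σ : LocallyConstant T.base (Equiv.Perm T.cells)) :
    g * T.perm σ * g⁻¹ = T'.perm (m.pushPerm σ) := by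
  rw [mul_inv_eq_iff_eq_mul]
  ext1 p
  simp only [Equiv.Perm.mul_apply]
  by_cases hp : p ∈ Set.range T.emb
  · obtain ⟨⟨c, s⟩, rfl⟩ := hp
    rw [T.perm_emb, m.eq, m.eq, T'.perm_emb, m.pushPerm_apply]
  · rw [T.perm_of_notMem σ hp]
    by_cases hq : g p ∈ Set.range T'.emb
    · obtain ⟨⟨c', s'⟩, hq⟩ := hq
      rw [← hq, T'.perm_emb]
      congr 2
      by_cases hc : c' ∈ m.preBase
      · have hs : s' ∉ Set.range (m.cell ⟨_, hc⟩) := by
          rintro ⟨s, rfl⟩
          refine hp ⟨(⟨_, hc⟩, s), g.injective ?_⟩
          rw [m.eq, ← hq]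
          congr 2
          refine Subtype.ext ?_
          show S.act m.v (S.act (-m.v) c'.1) = c'.1
          rw [Amen.act_act, add_neg_cancel, Amen.act_zero]
        simp only [pushPerm, MonoidHom.coe_mk, OneHom.coe_mk, LocallyConstant.coe_mk, pushFun,
          dif_pos hc]
        exact (Equiv.Perm.viaEmbedding_apply_of_notMem _ _ _ hs).symm
      · simp [pushPerm, pushFun, hc]
    · rw [T'.perm_of_notMem _ hq]

include m in
lemma conj_alt (σ : LocallyConstant T.base (alternatingGroup T.cells)) :
    g * T.alt σ * g⁻¹ = T'.alt (m.push σ) :=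
  m.conj_perm (T.evenIncl σ)

end Tower.Into

namespace Cover

variable (Γ : S.Cover k)

/-- Conjugation along a map of towers carries lifted groups into lifted groups. -/
lemma conj_mem_grp {T T' : S.Tower k} (hT : 5 ≤ T.cells.card) (hT' : 5 ≤ T'.cells.card)
    {h : Γ.H} (m : Tower.Into (Γ.proj h) T T') {x : Γ.H} (hx : x ∈ Γ.grp T hT) :
    h * x * h⁻¹ ∈ Γ.grp T' hT' := by
  obtain ⟨σ, rfl⟩ := hx
  exact ⟨m.push σ, (Γ.conj_lift T T' hT hT' h m.push m.conj_alt σ).symm⟩

/-- Inclusion of towers gives inclusion of lifted groups. -/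
lemma grp_mono {T T' : S.Tower k} (hT : 5 ≤ T.cells.card) (hT' : 5 ≤ T'.cells.card)
    (m : Tower.Into 1 T T') : Γ.grp T hT ≤ Γ.grp T' hT' := fun x hx => by
  have := Γ.conj_mem_grp hT hT' (h := 1) (by simpa using m) hx
  simpa using this

/-- Disjoint towers have commuting lifted groups. -/
lemma commute_of_disjoint {T T' : S.Tower k} (hT : 5 ≤ T.cells.card) (hT' : 5 ≤ T'.cells.card)
    (hd : Disjoint (Set.range T.emb) (Set.range T'.emb)) {x y : Γ.H}
    (hx : x ∈ Γ.grp T hT) (hy : y ∈ Γ.grp T' hT') : Commute x y := by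
  obtain ⟨τ, rfl⟩ := hy
  refine Γ.commute_lift T' hT' x (fun σ => ?_) τ
  obtain ⟨ρ, rfl⟩ := hx
  rw [Γ.proj_lift]
  refine Equiv.Perm.Disjoint.commute fun p => ?_
  by_cases hp : p ∈ Set.range T.emb
  · exact Or.inr (T'.alt_of_notMem σ (Set.disjoint_left.1 hd hp))
  · exact Or.inl (T.alt_of_notMem ρ hp)

end Cover

end Vale.Agent.P196.SFT
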