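import Vale.Agent.P196.Cover.Grid

/-!
P196, module B: functions on the base of a level. Invariant locally constant functions are
constant, and cocycles modulo 2 on the grid of a level are coboundaries.
-/

namespace Vale.Agent.P196.SFT

variable {S : SFT}

/-- A locally constant function on the subshift is local. -/
lemma isLocal_of_isLocallyConstant {β : Type} {f : S.X → β} (hf : IsLocallyConstant f) :
    S.IsLocal f := by
  obtain ⟨U, hU⟩ : ∃ U : S.X → Finset V, ∀ x y, (∀ u ∈ U x, y.1 u = x.1 u) → f y = f x := by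
    have hnb : ∀ x : S.X, ∃ U : Finset V, ∀ y, (∀ u ∈ U, y.1 u = x.1 u) → f y = f x := by
      intro x
      obtain ⟨W, hW, hWf⟩ := isOpen_induced_iff.1 (hf.isOpen_fiber (f x))
      have hx : x ∈ Subtype.val ⁻¹' W := by rw [hWf]; rfl
      obtain ⟨U, t, ht, hsub⟩ := isOpen_pi_iff.1 hW x.1 hx
      refine ⟨U, fun y hy => ?_⟩
      have : y ∈ Subtype.val ⁻¹' W := hsub fun u hu => by
        rw [hy u hu]
        exact (ht u hu).2
      rw [hWf] at this
      exact this
    choose U hU using hnb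
    exact ⟨U, hU⟩
  have hopen : ∀ x : S.X, IsOpen {y : S.X | ∀ u ∈ U x, y.1 u = x.1 u} := by
    intro x
    have : {y : S.X | ∀ u ∈ U x, y.1 u = x.1 u} =
        ⋂ u ∈ U x, (fun y : S.X => y.1 u) ⁻¹' {x.1 u} := by ext y; simp
    rw [this]
    exact isOpen_biInter_finset fun u _ =>
      (isOpen_discrete {x.1 u}).preimage ((continuous_apply u).comp continuous_subtype_val)
  obtain ⟨F, hF⟩ := isCompact_univ.elim_finite_subcover _ hopen
    fun x _ => Set.mem_iUnion.2 ⟨x, fun _ _ => rfl⟩
  refine ⟨(F.biUnion U).sup fun u => max u.1.natAbs u.2.natAbs, fun y z hyz => ?_⟩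
  obtain ⟨x, hxF, hyx⟩ := Set.mem_iUnion₂.1 (hF (Set.mem_univ y))
  rw [hU x y hyx, hU x z fun u hu => ?_]
  rw [← hyx u hu]
  refine (hyz u ?_).symm
  have h : max u.1.natAbs u.2.natAbs ≤ (F.biUnion U).sup fun u => max u.1.natAbs u.2.natAbs :=
    Finset.le_sup (f := fun u : V => max u.1.natAbs u.2.natAbs)
      (Finset.mem_biUnion.2 ⟨x, hxF, hu⟩)
  simp only [SFT.box, Finset.mem_Icc]
  refine ⟨⟨?_, ?_⟩, ?_, ?_⟩ <;> omega

lemma act_eq_act (hmf : S.MinimalFree) {v w : V} {x : S.X} (h : S.act v x = S.act w x) : v = w :=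
  sub_eq_zero.1 (hmf.free x _ (by
    rw [sub_eq_add_neg, add_comm, ← Amen.act_act, h, Amen.act_act, neg_add_cancel, Amen.act_zero]))

namespace Level

variable (L : S.Level)

instance : NeZero L.Q := ⟨L.Q_pos.ne'⟩

/-- The period in the first coordinate. -/
def per₁ : V := ((L.Q : ℤ), 0)

/-- The period in the second coordinate. -/
def per₂ : V := (0, (L.Q : ℤ))

lemma cast_per₁ : L.cast L.per₁ = 0 := by simp [cast, per₁]

lemma cast_per₂ : L.cast L.per₂ = 0 := by simp [cast, per₂]

/-- The translation of the base by a vector without residue. -/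
def shift (w : V) (hw : L.cast w = 0) (c : L.base) : L.base :=
  ⟨S.act w c.1, (L.pos_cell c w).trans hw⟩

/-- The neighbour in the first coordinate. -/
def next₁ : L.base → L.base := L.shift L.per₁ L.cast_per₁

/-- The neighbour in the second coordinate. -/
def next₂ : L.base → L.base := L.shift L.per₂ L.cast_per₂

/-- The position of a point in its tile. -/
def rep (x : S.X) : V := (((L.pos x).1.val : ℤ), ((L.pos x).2.val : ℤ))

lemma rep_nonneg (x : S.X) : 0 ≤ (L.rep x).1 ∧ 0 ≤ (L.rep x).2 :=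
  ⟨Int.natCast_nonneg _, Int.natCast_nonneg _⟩

lemma rep_lt (x : S.X) : (L.rep x).1 < L.Q ∧ (L.rep x).2 < L.Q :=
  ⟨Int.ofNat_lt.2 (ZMod.val_lt _), Int.ofNat_lt.2 (ZMod.val_lt _)⟩

lemma cast_rep (x : S.X) : L.cast (L.rep x) = L.pos x := by
  simp [cast, rep, ZMod.natCast_val, ZMod.cast_id]

/-- The corner of the tile of a point. -/
def origin (x : S.X) : L.base :=
  ⟨S.act (-L.rep x) x, by
    show L.pos _ = 0
    rw [L.pos_act', ← L.cast_rep x]
    simp [cast]⟩

lemma act_origin (x : S.X) : S.act (L.rep x) (L.origin x).1 = x := by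
  show S.act (L.rep x) (S.act (-L.rep x) x) = x
  rw [Amen.act_act, add_neg_cancel, Amen.act_zero]

lemma rep_unique {x : S.X} {c : L.base} {v : V} (h1 : 0 ≤ v.1) (h2 : v.1 < L.Q) (h3 : 0 ≤ v.2)
    (h4 : v.2 < L.Q) (hx : S.act v c.1 = x) : L.rep x = v ∧ L.origin x = c := by
  have hpos : L.cast (L.rep x) = L.cast v := by rw [L.cast_rep, ← hx, L.pos_cell]
  simp only [cast, Prod.mk.injEq] at hpos
  obtain ⟨n1, n2⟩ := L.rep_nonneg x
  obtain ⟨n3, n4⟩ := L.rep_lt x
  have hv : L.rep x = v := Prod.ext (L.eq_of_cast hpos.1 (by omega) (by omega))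
    (L.eq_of_cast hpos.2 (by omega) (by omega))
  refine ⟨hv, Subtype.ext ?_⟩
  show S.act (-L.rep x) x = c.1
  rw [hv, ← hx, Amen.act_act, neg_add_cancel, Amen.act_zero]

lemma origin_base (c : L.base) : L.rep c.1 = 0 ∧ L.origin c.1 = c := by
  have hQ := L.Q_pos
  exact L.rep_unique (v := 0) le_rfl (by simpa using hQ) le_rfl (by simpa using hQ)
    (Amen.act_zero _)

lemma isLocallyConstant_rep : IsLocallyConstant L.rep := by
  have h : IsLocallyConstant L.pos := by
    refine (IsLocallyConstant.iff_exists_open _).2 fun x =>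
      ⟨{y | L.pos y = L.pos x}, ?_, rfl, fun y hy => hy⟩
    exact (Amen.isClopen_of_isLocal (P := fun y => L.pos y = L.pos x)
      (Amen.isLocal_comp L.pos_local fun p => p = L.pos x)).2
  exact h.comp fun p => ((p.1.val : ℤ), (p.2.val : ℤ))

lemma isLocallyConstant_comp_origin {β : Type*} {f : L.base → β} (hf : IsLocallyConstant f) :
    IsLocallyConstant fun x => f (L.origin x) := by
  refine (IsLocallyConstant.iff_exists_open _).2 fun x => ?_
  have hU := L.isLocallyConstant_rep.isOpen_fiber (L.rep x)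
  obtain ⟨W, hW, hxW, hWf⟩ := (IsLocallyConstant.iff_exists_open _).1 hf (L.origin x)
  obtain ⟨W', hW', rfl⟩ := isOpen_induced_iff.1 hW
  refine ⟨{y | L.rep y = L.rep x} ∩ (fun y => S.act (-L.rep x) y) ⁻¹' W',
    hU.inter (hW'.preimage (continuous_act _)), ⟨rfl, hxW⟩, fun y hy => hWf _ ?_⟩
  show S.act (-L.rep y) y ∈ W'
  rw [show L.rep y = L.rep x from hy.1]
  exact hy.2

lemma origin_step₁ (x : S.X) :
    L.rep (S.act (1, 0) x) =
        (if (L.rep x).1 + 1 = L.Q then 0 else (L.rep x).1 + 1, (L.rep x).2) ∧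
      L.origin (S.act (1, 0) x) =
        if (L.rep x).1 + 1 = L.Q then L.next₁ (L.origin x) else L.origin x := by
  obtain ⟨n1, n2⟩ := L.rep_nonneg x
  obtain ⟨n3, n4⟩ := L.rep_lt x
  have hQ := L.Q_pos
  split_ifs with h
  · refine L.rep_unique (v := (0, (L.rep x).2)) le_rfl (by simpa using hQ) n2 n4 ?_
    show S.act _ (S.act L.per₁ (L.origin x).1) = _
    conv_rhs => rw [← L.act_origin x]
    rw [Amen.act_act, Amen.act_act]
    refine congrArg (fun v : V => S.act v (L.origin x).1) (Prod.ext ?_ ?_) <;>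
      simp [per₁]; omega
  · refine L.rep_unique (v := ((L.rep x).1 + 1, (L.rep x).2)) (by simp only; omega)
      (by simp only; omega) n2 n4 ?_
    conv_rhs => rw [← L.act_origin x]
    rw [Amen.act_act]
    refine congrArg (fun v : V => S.act v (L.origin x).1) (Prod.ext ?_ ?_) <;> simp [add_comm]

lemma origin_step₂ (x : S.X) :
    L.rep (S.act (0, 1) x) =
        ((L.rep x).1, if (L.rep x).2 + 1 = L.Q then 0 else (L.rep x).2 + 1) ∧
      L.origin (S.act (0, 1) x) =
        if (L.rep x).2 + 1 = L.Q then L.next₂ (L.origin x) else L.origin x := by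
  obtain ⟨n1, n2⟩ := L.rep_nonneg x
  obtain ⟨n3, n4⟩ := L.rep_lt x
  have hQ := L.Q_pos
  split_ifs with h
  · refine L.rep_unique (v := ((L.rep x).1, 0)) n1 n3 le_rfl (by simpa using hQ) ?_
    show S.act _ (S.act L.per₂ (L.origin x).1) = _
    conv_rhs => rw [← L.act_origin x]
    rw [Amen.act_act, Amen.act_act]
    refine congrArg (fun v : V => S.act v (L.origin x).1) (Prod.ext ?_ ?_) <;>
      simp [per₂]; omega
  · refine L.rep_unique (v := ((L.rep x).1, (L.rep x).2 + 1)) n1 n3 (by simp only; omega)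
      (by simp only; omega) ?_
    conv_rhs => rw [← L.act_origin x]
    rw [Amen.act_act]
    refine congrArg (fun v : V => S.act v (L.origin x).1) (Prod.ext ?_ ?_) <;> simp [add_comm]

/-- An invariant locally constant function on the base of a level is constant. -/
lemma const_of_invariant (hmf : S.MinimalFree) {β : Type} {f : L.base → β}
    (hf : IsLocallyConstant f) (h1 : ∀ c, f (L.next₁ c) = f c) (h2 : ∀ c, f (L.next₂ c) = f c)
    (c c' : L.base) : f c = f c' := by
  have e1 : ∀ x, f (L.origin (S.act (1, 0) x)) = f (L.origin x) := fun x => by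
    rw [(L.origin_step₁ x).2]; split_ifs <;> simp [h1]
  have e2 : ∀ x, f (L.origin (S.act (0, 1) x)) = f (L.origin x) := fun x => by
    rw [(L.origin_step₂ x).2]; split_ifs <;> simp [h2]
  have hinv : ∀ (v : V) x, f (L.origin (S.act v x)) = f (L.origin x) := by
    intro v
    obtain ⟨a, b⟩ := v
    have ha : ∀ (a : ℤ) x, f (L.origin (S.act (a, 0) x)) = f (L.origin x) := by
      intro a
      induction a with
      | zero => intro x; rw [show ((0 : ℤ), (0 : ℤ)) = (0 : V) from rfl, Amen.act_zero]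
      | succ a ih =>
        intro x
        rw [show (((a : ℤ) + 1), (0 : ℤ)) = ((1 : ℤ), (0 : ℤ)) + ((a : ℤ), (0 : ℤ)) by
          ext <;> simp [add_comm], ← Amen.act_act, e1, ih]
      | pred a ih =>
        intro x
        have := e1 (S.act ((-(a : ℤ) - 1), 0) x)
        rw [Amen.act_act, show ((1 : ℤ), (0 : ℤ)) + ((-(a : ℤ) - 1), (0 : ℤ)) =
          ((-(a : ℤ)), (0 : ℤ)) by ext <;> simp, ih] at this
        exact this.symm
    have hb : ∀ (b : ℤ) x, f (L.origin (S.act (0, b) x)) = f (L.origin x) := by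
      intro b
      induction b with
      | zero => intro x; rw [show ((0 : ℤ), (0 : ℤ)) = (0 : V) from rfl, Amen.act_zero]
      | succ a ih =>
        intro x
        rw [show ((0 : ℤ), ((a : ℤ) + 1)) = ((0 : ℤ), (1 : ℤ)) + ((0 : ℤ), (a : ℤ)) by
          ext <;> simp [add_comm], ← Amen.act_act, e2, ih]
      | pred a ih =>
        intro x
        have := e2 (S.act (0, (-(a : ℤ) - 1)) x)
        rw [Amen.act_act, show ((0 : ℤ), (1 : ℤ)) + ((0 : ℤ), (-(a : ℤ) - 1)) =
          ((0 : ℤ), (-(a : ℤ))) by ext <;> simp, ih] at this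
        exact this.symm
    intro x
    rw [show ((a, b) : V) = (a, 0) + (0, b) by simp, ← Amen.act_act, ha, hb]
  obtain ⟨r, hr⟩ := isLocal_of_isLocallyConstant (L.isLocallyConstant_comp_origin hf)
  obtain ⟨v, hv⟩ := hmf.minimal c.1 c'.1 r
  have : f (L.origin (S.act v c.1)) = f (L.origin c'.1) := hr _ _ hv
  rwa [hinv, (L.origin_base c).2, (L.origin_base c').2] at this

/-- A cocycle modulo 2 on the grid of a level is a coboundary. -/
lemma exists_primitive (hcy : S.CocyclesModTwoTrivial) (e₁ e₂ : LocallyConstant L.base (ZMod 2))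
    (h : ∀ c, e₁ (L.next₂ c) + e₁ c = e₂ (L.next₁ c) + e₂ c) :
    ∃ g : LocallyConstant L.base (ZMod 2),
      (∀ c, e₁ c = g (L.next₁ c) + g c) ∧ (∀ c, e₂ c = g (L.next₂ c) + g c) := by
  classical
  let c₁ : S.X → ZMod 2 := fun x => if (L.rep x).1 + 1 = L.Q then e₁ (L.origin x) else 0
  let c₂ : S.X → ZMod 2 := fun x => if (L.rep x).2 + 1 = L.Q then e₂ (L.origin x) else 0
  have l₁ : S.IsLocal c₁ := isLocal_of_isLocallyConstant <|
    L.isLocallyConstant_rep.comp₂ (L.isLocallyConstant_comp_origin e₁.isLocallyConstant)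
      fun v e => if v.1 + 1 = L.Q then e else 0
  have l₂ : S.IsLocal c₂ := isLocal_of_isLocallyConstant <|
    L.isLocallyConstant_rep.comp₂ (L.isLocallyConstant_comp_origin e₂.isLocallyConstant)
      fun v e => if v.2 + 1 = L.Q then e else 0
  have hcoc : ∀ x, c₁ (S.act (0, 1) x) + c₁ x = c₂ (S.act (1, 0) x) + c₂ x := by
    intro x
    simp only [c₁, c₂, (L.origin_step₁ x).1, (L.origin_step₁ x).2, (L.origin_step₂ x).1,
      (L.origin_step₂ x).2]
    by_cases ha : (L.rep x).1 + 1 = L.Q <;> by_cases hb : (L.rep x).2 + 1 = L.Q <;>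
      simp [ha, hb, h, CharTwo.add_self_eq_zero]
  obtain ⟨G, hG, hG1, hG2⟩ := hcy c₁ c₂ l₁ l₂ hcoc
  have hGlc : IsLocallyConstant G := by
    refine (IsLocallyConstant.iff_exists_open _).2 fun x => ⟨{y | G y = G x},
      (Amen.isClopen_of_isLocal (P := fun y => G y = G x) (Amen.isLocal_comp hG fun p => p = G x)).2,
      rfl, fun y hy => hy⟩
  let g : LocallyConstant L.base (ZMod 2) :=
    ⟨fun c => G c.1, hGlc.comp_continuous continuous_subtype_val⟩
  refine ⟨g, fun c => ?_, fun c => ?_⟩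
  · have step : ∀ n : ℕ, n < L.Q → G (S.act ((n : ℤ), 0) c.1) = G c.1 := by
      intro n hn
      induction n with
      | zero => rw [show ((((0 : ℕ) : ℤ)), (0 : ℤ)) = (0 : V) from rfl, Amen.act_zero]
      | succ n ih =>
        have hr := (L.rep_unique (c := c) (v := ((n : ℤ), 0)) (Int.natCast_nonneg n)
          (by simp only; omega) le_rfl (by have := L.Q_pos; simp only; omega) rfl).1
        have := hG1 (S.act ((n : ℤ), 0) c.1)
        simp only [c₁, hr] at this
        rw [if_neg (by omega), Amen.act_act, ih (by omega),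
          show ((1 : ℤ), (0 : ℤ)) + ((n : ℤ), (0 : ℤ)) = ((((n + 1 : ℕ)) : ℤ), (0 : ℤ)) by
            ext <;> simp [add_comm]] at this
        exact CharTwo.add_eq_zero.1 this.symm
    have hQ := L.Q_pos
    obtain ⟨hr, ho⟩ := L.rep_unique (c := c) (v := (((L.Q - 1 : ℕ) : ℤ), 0))
      (Int.natCast_nonneg _) (by simp only; omega) le_rfl (by simp only; omega) rfl
    have := hG1 (S.act (((L.Q - 1 : ℕ) : ℤ), 0) c.1)
    simp only [c₁, hr, ho] at this
    rw [if_pos (by omega), Amen.act_act, step _ (by omega),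
      show ((1 : ℤ), (0 : ℤ)) + (((L.Q - 1 : ℕ) : ℤ), (0 : ℤ)) = L.per₁ by
        ext <;> simp [per₁]; omega] at this
    exact this
  · have step : ∀ n : ℕ, n < L.Q → G (S.act (0, (n : ℤ)) c.1) = G c.1 := by
      intro n hn
      induction n with
      | zero => rw [show ((0 : ℤ), (((0 : ℕ) : ℤ))) = (0 : V) from rfl, Amen.act_zero]
      | succ n ih =>
        have hr := (L.rep_unique (c := c) (v := (0, (n : ℤ))) le_rfl
          (by have := L.Q_pos; simp only; omega) (Int.natCast_nonneg n) (by simp only; omega) rfl).1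
        have := hG2 (S.act (0, (n : ℤ)) c.1)
        simp only [c₂, hr] at this
        rw [if_neg (by omega), Amen.act_act, ih (by omega),
          show ((0 : ℤ), (1 : ℤ)) + ((0 : ℤ), (n : ℤ)) = ((0 : ℤ), (((n + 1 : ℕ)) : ℤ)) by
            ext <;> simp [add_comm]] at this
        exact CharTwo.add_eq_zero.1 this.symm
    have hQ := L.Q_pos
    obtain ⟨hr, ho⟩ := L.rep_unique (c := c) (v := (0, ((L.Q - 1 : ℕ) : ℤ)))
      le_rfl (by simp only; omega) (Int.natCast_nonneg _) (by simp only; omega) rfl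
    have := hG2 (S.act (0, ((L.Q - 1 : ℕ) : ℤ)) c.1)
    simp only [c₂, hr, ho] at this
    rw [if_pos (by omega), Amen.act_act, step _ (by omega),
      show ((0 : ℤ), (1 : ℤ)) + ((0 : ℤ), ((L.Q - 1 : ℕ) : ℤ)) = L.per₂ by
        ext <;> simp [per₂]; omega] at this
    exact this

end Level

end Vale.Agent.P196.SFT
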