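import Vale.Agent.P196.Cover.Square

/-!
P196, module B: a banded permutation of the square with zero flow is a product of four even
permutations of the corner squares and four even permutations of the sides.
-/

namespace Vale.Agent.P196.Square

open Equiv Finset

variable {k Q : ℕ}

/-- The bottom side without the corner squares of side `r`. -/
def Bottom (r : ℕ) (x : Sq k Q) : Prop := cb x < r ∧ r ≤ ca x ∧ ca x + r < Q

/-- The four charts carrying bottom, top, left and right side to the bottom. -/
def chart (i : Bool × Bool) : Sq k Q ≃ Sq k Q :=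
  (if i.1 then transpose else Equiv.refl _).trans (if i.2 then flipB else Equiv.refl _)

/-- The four sides. -/
def Side (r : ℕ) (i : Bool × Bool) (x : Sq k Q) : Prop := Bottom r (chart i x)

/-- The four corner squares. -/
def Corner (R : ℕ) (p : Bool × Bool) (x : Sq k Q) : Prop :=
  (if p.1 then Q ≤ ca x + R else ca x < R) ∧ (if p.2 then Q ≤ cb x + R else cb x < R)

lemma side_bottom (r : ℕ) (x : Sq k Q) :
    Side r (false, false) x ↔ cb x < r ∧ r ≤ ca x ∧ ca x + r < Q := Iff.rfl

lemma side_top (r : ℕ) (x : Sq k Q) :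
    Side r (false, true) x ↔ Q ≤ cb x + r ∧ r ≤ ca x ∧ ca x + r < Q := by
  have := cb_lt x
  simp only [Side, Bottom, chart, Bool.false_eq_true, if_false, if_true, Equiv.trans_apply,
    Equiv.refl_apply, ca_flipB, cb_flipB]
  omega

lemma side_left (r : ℕ) (x : Sq k Q) :
    Side r (true, false) x ↔ ca x < r ∧ r ≤ cb x ∧ cb x + r < Q := by
  simp only [Side, Bottom, chart, Bool.false_eq_true, if_false, if_true, Equiv.trans_apply,
    Equiv.refl_apply, ca_transpose, cb_transpose]

lemma side_right (r : ℕ) (x : Sq k Q) :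
    Side r (true, true) x ↔ Q ≤ ca x + r ∧ r ≤ cb x ∧ cb x + r < Q := by
  have := ca_lt x
  simp only [Side, Bottom, chart, if_true, Equiv.trans_apply, ca_flipB,
    cb_flipB, ca_transpose, cb_transpose]
  omega

lemma side_eq {r : ℕ} {i j : Bool × Bool} {x : Sq k Q} (hr : 2 * r ≤ Q) (hi : Side r i x)
    (hj : Side r j x) : i = j := by
  rcases i with ⟨_ | _, _ | _⟩ <;> rcases j with ⟨_ | _, _ | _⟩ <;>
    simp only [side_bottom, side_top, side_left, side_right] at hi hj <;>
    first | rfl | (exfalso; omega)

lemma corner_eq {R : ℕ} {p q : Bool × Bool} {x : Sq k Q} (hR : 2 * R ≤ Q) (hp : Corner R p x)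
    (hq : Corner R q x) : p = q := by
  rcases p with ⟨_ | _, _ | _⟩ <;> rcases q with ⟨_ | _, _ | _⟩ <;>
    simp only [Corner, Bool.false_eq_true, if_false, if_true] at hp hq <;>
    first | rfl | (exfalso; omega)

/-- Points of the sides fixed: the banded permutation only moves points between corners. -/
lemma corner_of_not_side {r R d : ℕ} {σ : Perm (Sq k Q)} (hσ : Banded r R d σ)
    (hroom : Room Q r R d) {y : Sq k Q} (hy : ∀ i, ¬ Side r i y) (hm : σ y ≠ y) :
    ∃ p, Corner (R + 2 * d + 2) p y ∧ Corner (R + 2 * d + 2) p (σ y) := by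
  have hn := hσ.near y
  have hb := hσ.band y hm
  have h0 := hy (false, false)
  have h1 := hy (false, true)
  have h2 := hy (true, false)
  have h3 := hy (true, true)
  simp only [side_bottom, side_top, side_left, side_right] at h0 h1 h2 h3
  obtain ⟨e1, e2, e3⟩ := hroom
  have hc : (ca y < R ∨ Q ≤ ca y + R) ∧ (cb y < R ∨ Q ≤ cb y + R) := by
    unfold Band at hb; omega
  refine ⟨(decide (Q ≤ ca y + R), decide (Q ≤ cb y + R)), ?_, ?_⟩ <;>
    by_cases ha : Q ≤ ca y + R <;> by_cases hb' : Q ≤ cb y + R <;>
    simp only [Corner, decide_eq_true_eq, ha, hb', if_true, if_false] <;> omega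

/-- A pair of neighbouring points at an end of the bottom side. -/
def endPt (hk : 1 ≤ k) {r R d : ℕ} (hroom : Room Q r R d) (j : Bool) (m : Fin 2) : Sq k Q :=
  (⟨0, by omega⟩,
    ⟨if j then Q - r - 1 - m.val else r + m.val, by
      obtain ⟨h1, h2, h3⟩ := hroom
      split <;> omega⟩,
    ⟨0, by obtain ⟨h1, h2, h3⟩ := hroom; omega⟩)

/-- A transposition at an end of a side. -/
def endSwap (hk : 1 ≤ k) {r R d : ℕ} (hroom : Room Q r R d) (i : Bool × Bool) (j : Bool) :
    Perm (Sq k Q) :=
  (chart i).symm.permCongr (Equiv.swap (endPt hk hroom j 0) (endPt hk hroom j 1))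

lemma endPt_ne (hk : 1 ≤ k) {r R d : ℕ} (hroom : Room Q r R d) (j : Bool) :
    endPt hk hroom j 0 ≠ endPt hk hroom j 1 := by
  intro h
  have h' : ca (endPt hk hroom j 0) = ca (endPt hk hroom j 1) := by rw [h]
  obtain ⟨h1, h2, h3⟩ := hroom
  cases j <;> simp [endPt, ca] at h'
  omega

lemma sign_endSwap (hk : 1 ≤ k) {r R d : ℕ} (hroom : Room Q r R d) (i : Bool × Bool) (j : Bool) :
    Perm.sign (endSwap hk hroom i j) = -1 := by
  rw [endSwap, Perm.sign_permCongr, Perm.sign_swap (endPt_ne hk hroom j)]

lemma endSwap_sq (hk : 1 ≤ k) {r R d : ℕ} (hroom : Room Q r R d) (i : Bool × Bool) (j : Bool) :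
    endSwap hk hroom i j * endSwap hk hroom i j = 1 := by
  ext1 x
  simp [endSwap]

/-- The corner at an end of a side. -/
def endCorner (i : Bool × Bool) (j : Bool) : Bool × Bool := if i.1 then (i.2, j) else (j, i.2)

lemma endSwap_support (hk : 1 ≤ k) {r R d : ℕ} (hroom : Room Q r R d) (i : Bool × Bool) (j : Bool)
    {x : Sq k Q} (hx : endSwap hk hroom i j x ≠ x) :
    Side r i x ∧ Corner (R + 2 * d + 2) (endCorner i j) x := by
  have h : chart i x = endPt hk hroom j 0 ∨ chart i x = endPt hk hroom j 1 := by
    by_contra h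
    push Not at h
    exact hx (by simp [endSwap, Equiv.swap_apply_of_ne_of_ne h.1 h.2])
  have hm : ∃ m, chart i x = endPt hk hroom j m := h.elim (fun h => ⟨0, h⟩) fun h => ⟨1, h⟩
  obtain ⟨m, hm⟩ := hm
  have ea : ca (chart i x) = ca (endPt hk hroom j m) := by rw [hm]
  have eb : cb (chart i x) = cb (endPt hk hroom j m) := by rw [hm]
  have hb : Bottom r (chart i x) := by
    obtain ⟨h1, h2, h3⟩ := hroom
    have := m.isLt
    cases j <;> simp [endPt, ca, cb] at ea eb <;>
      simp only [Bottom, ca, cb] <;> omega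
  refine ⟨hb, ?_⟩
  obtain ⟨h1, h2, h3⟩ := hroom
  have := m.isLt
  have := ca_lt x
  have := cb_lt x
  rcases i with ⟨_ | _, _ | _⟩ <;> cases j <;>
    simp [chart, endPt, cb_flipB] at ea eb <;>
    simp [ca, cb] at ea eb <;>
    simp only [Corner, endCorner, Bool.false_eq_true, if_false, if_true, ca, cb] <;>
    simp only [ca, cb] at * <;> omega

/-- The middle of the bottom side. -/
def InMid (r R d : ℕ) (x : Sq k Q) : Prop := Bottom r x ∧ R + d ≤ ca x ∧ ca x + R + d < Q

/-- A banded permutation keeps the middle of a side in the side. -/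
lemma inMid_bottom {r R d : ℕ} {σ : Perm (Sq k Q)} (hσ : Banded r R d σ) (hroom : Room Q r R d)
    {x : Sq k Q} (hx : InMid r R d x) : Bottom r (σ x) := by
  obtain ⟨⟨h1, h2, h3⟩, h4, h5⟩ := hx
  obtain ⟨e1, e2, e3⟩ := hroom
  rcases eq_or_ne (σ x) x with he | hne
  · rw [he]; exact ⟨h1, h2, h3⟩
  · have hn := hσ.near x
    have hb := hσ.band_image hne
    unfold Band at hb; unfold Bottom; omega

lemma card_filter_eq_sum (P : Sq k Q → Prop) [DecidablePred P] :
    ((univ.filter P).card : ℤ) = ∑ x, ind (P x) := by
  rw [Finset.card_filter]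
  push_cast
  refine Finset.sum_congr rfl fun x _ => ?_
  by_cases h : P x <;> simp [ind, h]

/-- With zero flow the middle keeps its number of points on each half. -/
lemma mid_halves {r R d : ℕ} {σ : Perm (Sq k Q)} (hσ : Banded r R d σ) (hroom : Room Q r R d)
    (hflow : flow σ = 0) :
    ∑ x, (ind (InMid r R d x ∧ Q / 2 ≤ ca (σ x)) - ind (InMid r R d x ∧ Q / 2 ≤ ca x)) = 0 := by
  rw [← hflow]
  refine Finset.sum_congr rfl fun x _ => ?_
  obtain ⟨e1, e2, e3⟩ := id hroom
  by_cases hM : InMid r R d x
  · have hlt : cb x < Q / 2 := by have := hM.1.1; omega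
    simp [ind, hM, hlt]
    congr!
  · have hz : (if cb x < Q / 2 then ind (Q / 2 ≤ ca (σ x)) - ind (Q / 2 ≤ ca x) else 0) = 0 := by
      split_ifs with hlt
      · by_cases hc : (Q / 2 ≤ ca (σ x)) ↔ Q / 2 ≤ ca x
        · rw [propext hc, sub_self]
        · exfalso
          have hn := hσ.near x
          have hne : σ x ≠ x := fun h => hc (by rw [h])
          have hb := hσ.cross hroom hroom.mid hne (by omega) (by omega)
          exact hM ⟨⟨by omega, by omega, by omega⟩, by omega, by omega⟩
      · rfl
    simp only [hz]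
    simp [ind, hM]

open scoped Classical in
/-- The left out points of each half are as many as the points not hit from the middle. -/
lemma card_rest {r R d : ℕ} {σ : Perm (Sq k Q)} (hσ : Banded r R d σ) (hroom : Room Q r R d)
    (hflow : flow σ = 0) (right : Bool) :
    Fintype.card {x : Sq k Q //
        Bottom r x ∧ ¬ InMid r R d x ∧ (Q / 2 ≤ ca x ↔ right = true)} =
      Fintype.card {y : Sq k Q //
        Bottom r y ∧ ¬ InMid r R d (σ⁻¹ y) ∧ (Q / 2 ≤ ca y ↔ right = true)} := by
  rw [Fintype.card_subtype, Fintype.card_subtype]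
  refine Int.ofNat_inj.1 ?_
  rw [card_filter_eq_sum, card_filter_eq_sum]
  have h1 : ∀ x : Sq k Q, ind (Bottom r x ∧ ¬ InMid r R d x ∧ (Q / 2 ≤ ca x ↔ right = true)) =
      ind (Bottom r x ∧ (Q / 2 ≤ ca x ↔ right = true)) -
        ind (InMid r R d x ∧ (Q / 2 ≤ ca x ↔ right = true)) := by
    intro x
    have : InMid r R d x → Bottom r x := And.left
    by_cases h : InMid r R d x <;> by_cases h' : Bottom r x <;> simp_all [ind]
  have h2 : ∀ y : Sq k Q, ind (Bottom r y ∧ ¬ InMid r R d (σ⁻¹ y) ∧ (Q / 2 ≤ ca y ↔ right = true)) =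
      ind (Bottom r y ∧ (Q / 2 ≤ ca y ↔ right = true)) -
        ind (InMid r R d (σ⁻¹ y) ∧ (Q / 2 ≤ ca y ↔ right = true)) := by
    intro y
    have : InMid r R d (σ⁻¹ y) → Bottom r y := fun h => by
      simpa using inMid_bottom hσ hroom h
    by_cases h : InMid r R d (σ⁻¹ y) <;> by_cases h' : Bottom r y <;> simp_all [ind]
  simp only [h1, h2, Finset.sum_sub_distrib]
  rw [← Equiv.sum_comp σ fun y => ind (InMid r R d (σ⁻¹ y) ∧ (Q / 2 ≤ ca y ↔ right = true))]
  simp only [Perm.coe_inv, Equiv.symm_apply_apply]
  have h3 := mid_halves hσ hroom hflow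
  rw [Finset.sum_sub_distrib, sub_eq_zero] at h3
  congr 1
  cases right
  · have e : ∀ (f : Sq k Q → Sq k Q) x,
        ind (InMid r R d x ∧ (Q / 2 ≤ ca (f x) ↔ false = true)) =
          ind (InMid r R d x) - ind (InMid r R d x ∧ Q / 2 ≤ ca (f x)) := by
      intro f x
      by_cases h : InMid r R d x <;> by_cases h' : Q / 2 ≤ ca (f x) <;> simp [ind, h, h']
    have ea := e id
    simp only [id] at ea
    simp only [ea, e σ, Finset.sum_sub_distrib, h3]
  · simp only [iff_true, h3]

open scoped Classical in
/-- A permutation of the bottom side continuing `σ` from the middle and keeping both halves. -/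
lemma exists_continue {r R d : ℕ} {σ : Perm (Sq k Q)} (hσ : Banded r R d σ)
    (hroom : Room Q r R d) (hflow : flow σ = 0) :
    ∃ u : Perm (Sq k Q), (∀ x, ¬ Bottom r x → u x = x) ∧ (∀ x, InMid r R d x → u x = σ x) ∧
      ∀ x, Bottom r x → ¬ InMid r R d x →
        (¬ InMid r R d (σ⁻¹ (u x)) ∧ (Q / 2 ≤ ca (u x) ↔ Q / 2 ≤ ca x)) := by
  let eL := Fintype.equivOfCardEq (card_rest hσ hroom hflow false)
  let eR := Fintype.equivOfCardEq (card_rest hσ hroom hflow true)
  let f : Sq k Q → Sq k Q := fun x =>
    if hM : InMid r R d x then σ x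
    else if hB : Bottom r x then
      if hr : Q / 2 ≤ ca x then (eR ⟨x, hB, hM, iff_of_true hr rfl⟩).1
      else (eL ⟨x, hB, hM, iff_of_false hr Bool.false_ne_true⟩).1
    else x
  have g0 : ∀ x, InMid r R d x → f x = σ x := fun x h => by simp [f, h]
  have g3 : ∀ x, ¬ Bottom r x → f x = x := fun x h => by
    simp [f, h, show ¬ InMid r R d x from fun h' => h h'.1]
  have g1 : ∀ x (hB : Bottom r x) (hM : ¬ InMid r R d x) (hr : Q / 2 ≤ ca x),
      f x = (eR ⟨x, hB, hM, iff_of_true hr rfl⟩).1 := fun x hB hM hr => by simp [f, hB, hM, hr]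
  have g2 : ∀ x (hB : Bottom r x) (hM : ¬ InMid r R d x) (hr : ¬ Q / 2 ≤ ca x),
      f x = (eL ⟨x, hB, hM, iff_of_false hr Bool.false_ne_true⟩).1 :=
    fun x hB hM hr => by simp [f, hB, hM, hr]
  have hrest : ∀ x, Bottom r x → ¬ InMid r R d x →
      Bottom r (f x) ∧ ¬ InMid r R d (σ⁻¹ (f x)) ∧ (Q / 2 ≤ ca (f x) ↔ Q / 2 ≤ ca x) := by
    intro x hB hM
    by_cases hr : Q / 2 ≤ ca x
    · rw [g1 x hB hM hr]
      obtain ⟨b1, b2, b3⟩ := (eR ⟨x, hB, hM, iff_of_true hr rfl⟩).2
      exact ⟨b1, b2, iff_of_true (b3.2 rfl) hr⟩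
    · rw [g2 x hB hM hr]
      obtain ⟨b1, b2, b3⟩ := (eL ⟨x, hB, hM, iff_of_false hr Bool.false_ne_true⟩).2
      exact ⟨b1, b2, iff_of_false (fun h => Bool.false_ne_true (b3.1 h)) hr⟩
  have cls : ∀ x, (InMid r R d x ↔ InMid r R d (σ⁻¹ (f x))) ∧ (Bottom r x ↔ Bottom r (f x)) := by
    intro x
    by_cases hM : InMid r R d x
    · rw [g0 x hM]
      simp [hM, hM.1, inMid_bottom hσ hroom hM]
    · by_cases hB : Bottom r x
      · obtain ⟨b1, b2, -⟩ := hrest x hB hM
        exact ⟨iff_of_false hM b2, iff_of_true hB b1⟩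
      · rw [g3 x hB]
        simp only [hM, false_iff, and_true]
        refine fun h => hB ?_
        simpa using inMid_bottom hσ hroom h
  have hinj : Function.Injective f := by
    intro x y hxy
    by_cases hM : InMid r R d x
    · have hM' : InMid r R d y := by rw [(cls y).1, ← hxy, ← (cls x).1]; exact hM
      rw [g0 x hM, g0 y hM'] at hxy
      exact σ.injective hxy
    · have hM' : ¬ InMid r R d y := by rw [(cls y).1, ← hxy, ← (cls x).1]; exact hM
      by_cases hB : Bottom r x
      · have hB' : Bottom r y := by rw [(cls y).2, ← hxy, ← (cls x).2]; exact hB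
        have hh := (hrest x hB hM).2.2
        rw [hxy, (hrest y hB' hM').2.2] at hh
        by_cases hr : Q / 2 ≤ ca x
        · rw [g1 x hB hM hr, g1 y hB' hM' (hh.2 hr)] at hxy
          simpa using eR.injective (Subtype.ext hxy)
        · rw [g2 x hB hM hr, g2 y hB' hM' fun h => hr (hh.1 h)] at hxy
          simpa using eL.injective (Subtype.ext hxy)
      · have hB' : ¬ Bottom r y := by rw [(cls y).2, ← hxy, ← (cls x).2]; exact hB
        rwa [g3 x hB, g3 y hB'] at hxy
  refine ⟨Equiv.ofBijective f (Finite.injective_iff_bijective.1 hinj), g3, g0, ?_⟩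
  exact fun x hB hM => (hrest x hB hM).2

/-- Points not hit from the middle lie near the ends. -/
lemma end_of_notMid {r R d : ℕ} {σ : Perm (Sq k Q)} (hσ : Banded r R d σ) (hroom : Room Q r R d)
    {y : Sq k Q} (hy : Bottom r y) (h : ¬ InMid r R d (σ⁻¹ y)) :
    ca y < R + 2 * d ∨ Q ≤ ca y + R + 2 * d := by
  by_contra hc
  obtain ⟨e1, e2, e3⟩ := hroom
  apply h
  obtain ⟨h1, h2, h3⟩ := hy
  set z := σ⁻¹ y with hz
  have hzy : σ z = y := by rw [hz]; simp
  have hn := hσ.near z
  rw [hzy] at hn
  rcases eq_or_ne z y with he | hne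
  · rw [he]; exact ⟨⟨h1, h2, h3⟩, by omega, by omega⟩
  · have hb := hσ.band z (by rw [hzy]; exact fun h => hne h.symm)
    unfold Band at hb
    exact ⟨⟨by omega, by omega, by omega⟩, by omega, by omega⟩

/-- The points moved by an end transposition of the bottom side. -/
lemma endSwap_bottom (hk : 1 ≤ k) {r R d : ℕ} (hroom : Room Q r R d) {y : Sq k Q}
    (hy : endSwap hk hroom (false, false) false y ≠ y) : Bottom r y ∧ ca y < R := by
  have h := endSwap_support hk hroom _ _ hy
  have hm : y = endPt hk hroom false 0 ∨ y = endPt hk hroom false 1 := by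
    by_contra hn
    push Not at hn
    exact hy (by simp [endSwap, chart, Equiv.swap_apply_of_ne_of_ne hn.1 hn.2])
  refine ⟨h.1, ?_⟩
  obtain ⟨e1, e2, e3⟩ := hroom
  rcases hm with rfl | rfl <;> simp [endPt, ca] <;> omega

open scoped Classical in
/-- The bottom side. -/
lemma exists_bottom (hk : 1 ≤ k) {r R d : ℕ} {σ : Perm (Sq k Q)} (hσ : Banded r R d σ)
    (hroom : Room Q r R d) (hflow : flow σ = 0) :
    ∃ u : Perm (Sq k Q), Perm.sign u = 1 ∧ (∀ x, u x ≠ x → Bottom r x) ∧
      ∀ y, Bottom r y → σ (u⁻¹ y) = y ∨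
        ∃ p, Corner (R + 2 * d + 2) p y ∧ Corner (R + 2 * d + 2) p (σ (u⁻¹ y)) := by
  obtain ⟨u, hu3, hu0, hu1⟩ := exists_continue hσ hroom hflow
  let s : Perm (Sq k Q) := if Perm.sign u = 1 then 1 else endSwap hk hroom (false, false) false
  have hs : ∀ y, s y ≠ y → Bottom r y ∧ ca y < R := by
    intro y hy
    simp only [s] at hy
    split_ifs at hy with h
    · simp at hy
    · exact endSwap_bottom hk hroom hy
  refine ⟨s * u, ?_, ?_, ?_⟩
  · rw [map_mul]
    simp only [s]
    split_ifs with h
    · simp [h]
    · rw [sign_endSwap]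
      rcases Int.units_eq_one_or (Perm.sign u) with h' | h'
      · exact absurd h' h
      · rw [h']; rfl
  · intro x hx
    by_contra hB
    rw [Perm.mul_apply, hu3 x hB] at hx
    exact hB (hs x hx).1
  · intro y hy
    set x := (s * u)⁻¹ y with hx
    have hyx : s (u x) = y := by rw [← Perm.mul_apply, hx]; simp
    have hxB : Bottom r x := by
      by_contra h
      rw [hu3 x h] at hyx
      rcases eq_or_ne (s x) x with h' | h'
      · exact h (by rw [← h', hyx]; exact hy)
      · exact h (hs x h').1
    by_cases hM : InMid r R d x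
    · left
      rw [hu0 x hM] at hyx
      have : s (σ x) = σ x := by
        by_contra hne
        have := (hs _ hne).2
        have := hσ.near x
        have := hM.2.1
        obtain ⟨e1, e2, e3⟩ := hroom
        omega
      rw [← hyx, this]
    · right
      obtain ⟨hnot, hh⟩ := hu1 x hxB hM
      have hB' : Bottom r (u x) := by
        by_contra h
        exact h (by rwa [u.injective (hu3 _ h)])
      have hend := end_of_notMid hσ hroom hB' hnot
      have hM' : ¬ (R + d ≤ ca x ∧ ca x + R + d < Q) := fun h => hM ⟨hxB, h⟩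
      have hxb := hxB.1
      have hcy := hy.1
      have hn := hσ.near x
      obtain ⟨e1, e2, e3⟩ := id hroom
      have hay : ca y < R + 2 * d + 2 ∧ ca (u x) < Q / 2 ∨
          Q ≤ ca y + (R + 2 * d + 2) ∧ Q / 2 ≤ ca (u x) := by
        rcases eq_or_ne (s (u x)) (u x) with h' | h'
        · rw [h'] at hyx; rw [← hyx]; omega
        · have h1 := (hs _ h').2
          have h2 : s y ≠ y := fun h => h' (by
            have := s.injective (h.trans hyx.symm)
            rw [← this, h])
          have := (hs _ h2).2
          omega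
      rcases hay with ⟨h1, h2⟩ | ⟨h1, h2⟩
      · refine ⟨(false, false), ?_, ?_⟩ <;>
          simp only [Corner, Bool.false_eq_true, if_false] <;> omega
      · refine ⟨(true, false), ?_, ?_⟩ <;>
          simp only [Corner, Bool.false_eq_true, if_false, if_true] <;> omega

lemma four_mul {G : Type*} [Group G] (a₁ a₂ a₃ a₄ b₁ b₂ b₃ b₄ : G) (h12 : Commute b₁ a₂)
    (h13 : Commute b₁ a₃) (h14 : Commute b₁ a₄) (h23 : Commute b₂ a₃) (h24 : Commute b₂ a₄)
    (h34 : Commute b₃ a₄) :
    a₁ * b₁ * (a₂ * b₂) * (a₃ * b₃) * (a₄ * b₄) = a₁ * a₂ * a₃ * a₄ * (b₁ * b₂ * b₃ * b₄) := by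
  simp only [mul_assoc]
  rw [h12.left_comm, h23.left_comm, h34.left_comm, h13.left_comm, h24.left_comm, h14.left_comm]

lemma swaps_cancel {G : Type*} [Group G] (s : Bool × Bool → Bool → G)
    (hsq : ∀ i j, s i j * s i j = 1)
    (hc : ∀ i i' j j', (i, j) ≠ (i', j') → Commute (s i j) (s i' j')) :
    s (true, false) false * s (false, false) false * (s (true, true) false * s (false, false) true) *
        (s (true, false) true * s (false, true) false) *
        (s (true, true) true * s (false, true) true) *
      (s (false, false) false * s (false, false) true *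
        (s (false, true) false * s (false, true) true) *
        (s (true, false) false * s (true, false) true) *
        (s (true, true) false * s (true, true) true)) = 1 := by
  have hcomm : ∀ x ∈ Set.range (fun p : (Bool × Bool) × Bool => s p.1 p.2),
      ∀ y ∈ Set.range (fun p : (Bool × Bool) × Bool => s p.1 p.2), x * y = y * x := by
    rintro _ ⟨⟨i, j⟩, rfl⟩ _ ⟨⟨i', j'⟩, rfl⟩
    by_cases h : (i, j) = (i', j')
    · rw [h]
    · exact hc i i' j j' h
  let M := Submonoid.closure (Set.range fun p : (Bool × Bool) × Bool => s p.1 p.2)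
  have := Submonoid.isMulCommutative_closure _ hcomm
  let t : Bool × Bool → Bool → M := fun i j => ⟨s i j, Submonoid.subset_closure ⟨(i, j), rfl⟩⟩
  open scoped IsMulCommutative in
  have key : t (true, false) false * t (false, false) false * (t (true, true) false * t (false, false) true) *
        (t (true, false) true * t (false, true) false) *
        (t (true, true) true * t (false, true) true) *
      (t (false, false) false * t (false, false) true *
        (t (false, true) false * t (false, true) true) *
        (t (true, false) false * t (true, false) true) *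
        (t (true, true) false * t (true, true) true)) =
      (t (false, false) false * t (false, false) false) *
        (t (false, false) true * t (false, false) true) *
        ((t (false, true) false * t (false, true) false) *
          (t (false, true) true * t (false, true) true)) *
        (((t (true, false) false * t (true, false) false) *
          (t (true, false) true * t (true, false) true)) *
        ((t (true, true) false * t (true, true) false) *
          (t (true, true) true * t (true, true) true))) := by ac_rfl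
  have := congrArg Subtype.val key
  simp only [t, Submonoid.coe_mul] at this
  rw [this]
  simp [hsq]

open scoped Classical in
/-- The split. -/
lemma exists_split (hk : 1 ≤ k) {r R d : ℕ} {σ : Perm (Sq k Q)} (hσ : Banded r R d σ)
    (hroom : Room Q r R d) (hflow : flow σ = 0) (hev : Perm.sign σ = 1) :
    ∃ u q : Bool × Bool → Perm (Sq k Q),
      (∀ i, Perm.sign (u i) = 1 ∧ ∀ x, u i x ≠ x → Side r i x) ∧
      (∀ p, Perm.sign (q p) = 1 ∧ ∀ x, q p x ≠ x → Corner (R + 2 * d + 2) p x) ∧
      σ = q (false, false) * q (true, false) * q (false, true) * q (true, true) *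
        (u (false, false) * u (false, true) * u (true, false) * u (true, true)) := by
  obtain ⟨e1, e2, e3⟩ := id hroom
  have hside : ∀ i, ∃ u : Perm (Sq k Q), Perm.sign u = 1 ∧ (∀ x, u x ≠ x → Side r i x) ∧
      ∀ y, Side r i y → σ (u⁻¹ y) = y ∨
        ∃ p, Corner (R + 2 * d + 2) p y ∧ Corner (R + 2 * d + 2) p (σ (u⁻¹ y)) := by
    intro i
    have hB : Banded r R d ((chart i).permCongr σ) ∧ flow ((chart i).permCongr σ) = 0 := by
      rcases i with ⟨_ | _, _ | _⟩
      · exact ⟨hσ, hflow⟩
      · exact ⟨hσ.flipB, by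
          show flow (flipB.permCongr σ) = 0
          rw [flow_flipB hσ hroom, hflow, neg_zero]⟩
      · exact ⟨hσ.transpose, by
          show flow (transpose.permCongr σ) = 0
          rw [flow_transpose hσ hroom, hflow, neg_zero]⟩
      · exact ⟨hσ.transpose.flipB, by
          show flow (flipB.permCongr (transpose.permCongr σ)) = 0
          rw [flow_flipB hσ.transpose hroom, flow_transpose hσ hroom, hflow, neg_zero, neg_zero]⟩
    obtain ⟨u, h1, h2, h3⟩ := exists_bottom hk hB.1 hroom hB.2
    refine ⟨(chart i).symm.permCongr u, by rw [Perm.sign_permCongr, h1], fun x hx => ?_,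
      fun y hy => ?_⟩
    · exact h2 _ fun h => hx (by simp [h])
    · have hinv : ((chart i).symm.permCongr u)⁻¹ y = (chart i).symm (u⁻¹ (chart i y)) := by
        rw [Perm.inv_eq_iff_eq]
        simp [Equiv.permCongr_apply]
      rw [hinv]
      rcases h3 _ hy with h | ⟨p, hp, hp'⟩
      · left
        exact (chart i).injective (by simpa [Equiv.permCongr_apply] using h)
      · right
        simp only [Equiv.permCongr_apply] at hp'
        obtain ⟨i1, i2⟩ := i
        obtain ⟨p1, p2⟩ := p
        refine ⟨if i1 then (p2 ^^ i2, p1) else (p1, p2 ^^ i2), ?_, ?_⟩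
        all_goals
          rcases i1 <;> rcases i2 <;> rcases p1 <;> rcases p2 <;>
            simp [Corner, chart, cb_flipB] at hp hp' ⊢ <;>
            omega
  choose u hu1 hu2 hu3 using hside
  set U := u (false, false) * u (false, true) * u (true, false) * u (true, true) with hU
  have hsr : 2 * r ≤ Q := by omega
  have hmaps : ∀ i x, Side r i x → Side r i (u i x) := fun i x hx => by
    by_cases h : u i x = x
    · rwa [h]
    · exact hu2 i _ fun h' => h ((u i).injective h')
  have hfix : ∀ i j x, Side r i x → j ≠ i → u j x = x := fun i j x hx hij => by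
    by_contra h; exact hij (side_eq hsr (hu2 j x h) hx)
  have hUside : ∀ i x, Side r i x → U x = u i x := by
    intro i x hx
    have := hmaps i x hx
    rcases i with ⟨_ | _, _ | _⟩ <;> simp only [hU, Perm.mul_apply] <;>
      simp [hfix _ _ _ hx, hfix _ _ _ this]
  have hUout : ∀ x, (∀ i, ¬ Side r i x) → U x = x := by
    intro x hx
    have : ∀ j, u j x = x := fun j => by
      by_contra h; exact hx j (hu2 j x h)
    simp [hU, Perm.mul_apply, this]
  set q := σ * U⁻¹ with hq
  have hR : 2 * (R + 2 * d + 2) ≤ Q := by omega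
  have hcorner : ∀ y, q y = y ∨
      ∃ p, Corner (R + 2 * d + 2) p y ∧ Corner (R + 2 * d + 2) p (q y) := by
    intro y
    by_cases hy : ∃ i, Side r i y
    · obtain ⟨i, hi⟩ := hy
      have hback : Side r i ((u i)⁻¹ y) := by
        rcases eq_or_ne ((u i)⁻¹ y) y with h | h
        · rwa [h]
        · exact hu2 i _ (by simpa using h.symm)
      have : U⁻¹ y = (u i)⁻¹ y := by
        rw [Perm.inv_eq_iff_eq, hUside i _ hback]; simp
      rw [hq, Perm.mul_apply, this]
      exact hu3 i y hi
    · push Not at hy
      have : U⁻¹ y = y := by rw [Perm.inv_eq_iff_eq, hUout y hy]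
      rw [hq, Perm.mul_apply, this]
      exact or_iff_not_imp_left.2 fun h => corner_of_not_side hσ hroom hy h
  have hpres : ∀ p x, Corner (R + 2 * d + 2) p (q x) ↔ Corner (R + 2 * d + 2) p x := by
    intro p x
    rcases hcorner x with h | ⟨p', h1, h2⟩
    · rw [h]
    · exact ⟨fun h => corner_eq hR h2 h ▸ h1, fun h => corner_eq hR h1 h ▸ h2⟩
  let qp : Bool × Bool → Perm (Sq k Q) := fun p => Perm.ofSubtype (q.subtypePerm (hpres p))
  have hqp : ∀ p x, qp p x ≠ x → Corner (R + 2 * d + 2) p x := fun p x h => by
    by_contra h'; exact h (Perm.ofSubtype_apply_of_not_mem _ h')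
  have hqprod : q = qp (false, false) * qp (true, false) * qp (false, true) * qp (true, true) := by
    ext1 x
    have hin : ∀ p, Corner (R + 2 * d + 2) p x → qp p x = q x := fun p h => by
      simp [qp, Perm.ofSubtype_apply_of_mem _ h]
    have hout : ∀ p y, ¬ Corner (R + 2 * d + 2) p y → qp p y = y := fun p y h =>
      Perm.ofSubtype_apply_of_not_mem _ h
    by_cases hx : ∃ p, Corner (R + 2 * d + 2) p x
    · obtain ⟨p, hp⟩ := hx
      have hqx := (hpres p x).2 hp
      have n1 : ∀ p', p' ≠ p → qp p' x = x := fun p' h =>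
        hout _ _ fun h' => h (corner_eq hR h' hp)
      have n2 : ∀ p', p' ≠ p → qp p' (q x) = q x := fun p' h =>
        hout _ _ fun h' => h (corner_eq hR h' hqx)
      rcases p with ⟨_ | _, _ | _⟩ <;> simp [n1, n2, hin _ hp]
    · push Not at hx
      have : q x = x := (hcorner x).resolve_right fun ⟨p, h, _⟩ => hx p h
      simp [hout _ _ (hx _), this]
  -- parity correction by end transpositions
  have hsU : Perm.sign U = 1 := by simp [hU, hu1]
  have hsq : Perm.sign (qp (false, false)) * Perm.sign (qp (true, false)) *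
      Perm.sign (qp (false, true)) * Perm.sign (qp (true, true)) = 1 := by
    rw [← map_mul, ← map_mul, ← map_mul, ← hqprod, hq, map_mul, hev, map_inv, hsU]; simp
  let P : Prop := Perm.sign (qp (false, false)) = -1
  let P' : Prop := Perm.sign (qp (true, false)) = -1
  let P'' : Prop := Perm.sign (qp (false, false)) * Perm.sign (qp (false, true)) = -1
  let fl : Bool × Bool → Prop := fun i =>
    (i = (true, false) ∧ P) ∨ (i = (true, true) ∧ P') ∨ (i = (false, true) ∧ P'')
  let sw : Bool × Bool → Bool → Perm (Sq k Q) := fun i j =>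
    if fl i then endSwap hk hroom i j else 1
  have hsw : ∀ i j x, sw i j x ≠ x → Side r i x ∧ Corner (R + 2 * d + 2) (endCorner i j) x := by
    intro i j x h
    simp only [sw] at h
    split_ifs at h with hf
    · exact endSwap_support hk hroom i j h
    · simp at h
  have hssq : ∀ i j, sw i j * sw i j = 1 := fun i j => by
    simp only [sw]; split_ifs <;> simp [endSwap_sq]
  have hsign : ∀ i j, Perm.sign (sw i j) = if fl i then -1 else 1 := fun i j => by
    simp only [sw]; split_ifs <;> simp [sign_endSwap]
  refine ⟨fun i => sw i false * sw i true * u i,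
    fun p => qp p *
      (sw (true, p.1) p.2 * sw (false, p.2) p.1), ?_, ?_, ?_⟩
  · intro i
    refine ⟨by rw [map_mul, map_mul, hsign, hsign, hu1]; split_ifs <;> rfl, fun x hx => ?_⟩
    by_contra hS
    have a1 : u i x = x := by by_contra h; exact hS (hu2 i x h)
    have a2 : ∀ j, sw i j x = x := fun j => by by_contra h; exact hS (hsw i j x h).1
    simp [Perm.mul_apply, a1, a2] at hx
  · intro p
    refine ⟨?_, fun x hx => ?_⟩
    · rw [map_mul, map_mul, hsign, hsign]
      rcases Int.units_eq_one_or (Perm.sign (qp (false, false))) with s0 | s0 <;>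
      rcases Int.units_eq_one_or (Perm.sign (qp (true, false))) with s1 | s1 <;>
      rcases Int.units_eq_one_or (Perm.sign (qp (false, true))) with s2 | s2 <;>
      rcases Int.units_eq_one_or (Perm.sign (qp (true, true))) with s3 | s3 <;>
      (rw [s0, s1, s2, s3] at hsq
       first
        | (exfalso; revert hsq; decide)
        | (rcases p with ⟨_ | _, _ | _⟩ <;> simp [fl, P, P', P'', s0, s1, s2, s3]))
    · by_contra hC
      have a1 : qp p x = x := by by_contra h; exact hC (hqp p x h)
      have a2 : sw (true, p.1) p.2 x = x := by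
        by_contra h; exact hC (by simpa [endCorner] using (hsw _ _ x h).2)
      have a3 : sw (false, p.2) p.1 x = x := by
        by_contra h; exact hC (by simpa [endCorner] using (hsw _ _ x h).2)
      simp [Perm.mul_apply, a1, a2, a3] at hx
  · -- the swaps cancel
    have hdis : ∀ (f g : Perm (Sq k Q)) (A B : Sq k Q → Prop), (∀ x, f x ≠ x → A x) →
        (∀ x, g x ≠ x → B x) → (∀ x, A x → B x → False) → Commute f g := by
      intro f g A B hf hg hAB
      refine Perm.Disjoint.commute fun x => ?_
      by_contra h; push Not at h; exact hAB x (hf x h.1) (hg x h.2)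
    have hsS : ∀ (i i' : Bool × Bool) (j : Bool), i ≠ i' → Commute (sw i' j) (u i) := fun i i' j h =>
      hdis _ _ _ _ (fun x hx => (hsw _ _ x hx).1) (hu2 i) fun x h1 h2 => h (side_eq hsr h2 h1)
    have hsQ : ∀ (i : Bool × Bool) (j : Bool) (p : Bool × Bool), endCorner i j ≠ p →
        Commute (sw i j) (qp p) := fun i j p h =>
      hdis _ _ _ _ (fun x hx => (hsw _ _ x hx).2) (hqp p) fun x h1 h2 => h (corner_eq hR h1 h2)
    have hss : ∀ (i i' : Bool × Bool) (j j' : Bool), (i, j) ≠ (i', j') →
        Commute (sw i j) (sw i' j') := by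
      intro i i' j j' h
      refine hdis _ _ _ _ (fun x hx => hsw _ _ x hx) (fun x hx => hsw _ _ x hx) fun x h1 h2 => h ?_
      obtain rfl := side_eq hsr h1.1 h2.1
      have := corner_eq hR h1.2 h2.2
      rcases i with ⟨_ | _, _⟩ <;> simp [endCorner] at this <;> simp [this]
    have hσq : σ = q * U := by simp [hq]
    have cqq : ∀ p p' : Bool × Bool, p ≠ p' →
        Commute (sw (true, p.1) p.2 * sw (false, p.2) p.1) (qp p') := fun p p' h =>
      (hsQ _ _ _ (by simpa [endCorner] using h)).mul_left (hsQ _ _ _ (by simpa [endCorner] using h))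
    have cuu : ∀ i i' : Bool × Bool, i ≠ i' →
        Commute (sw i false * sw i true) (u i') := fun i i' h =>
      (hsS i' i false (Ne.symm h)).mul_left (hsS i' i true (Ne.symm h))
    rw [hσq, hqprod, hU]
    simp only
    rw [four_mul (qp (false, false)) (qp (true, false)) (qp (false, true)) (qp (true, true))
        _ _ _ _ (cqq (false, false) _ (by decide)) (cqq (false, false) _ (by decide))
        (cqq (false, false) _ (by decide)) (cqq (true, false) _ (by decide))
        (cqq (true, false) _ (by decide)) (cqq (false, true) _ (by decide)),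
      four_mul (sw (false, false) false * sw (false, false) true)
        (sw (false, true) false * sw (false, true) true)
        (sw (true, false) false * sw (true, false) true)
        (sw (true, true) false * sw (true, true) true) _ _ _ _
        (cuu _ _ (by decide)).symm (cuu _ _ (by decide)).symm (cuu _ _ (by decide)).symm
        (cuu _ _ (by decide)).symm (cuu _ _ (by decide)).symm (cuu _ _ (by decide)).symm]
    have hcancel := swaps_cancel sw hssq hss
    simp only
    symm
    rw [mul_assoc, ← mul_assoc _ _ (u (false, false) * _ * _ * _), hcancel, one_mul]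

end Vale.Agent.P196.Square
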