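import Mathlib

/-!
P196, module B: permutations of a coloured square that move points only inside a boundary band and
the four corner squares. The net flow across the middle of the bottom side is additive, agrees up
to sign on the four sides, and when it vanishes the permutation splits into four even side
permutations and four even corner permutations.
-/

namespace Vale.Agent.P196.Square

open Equiv Finset

variable {k Q : ℕ}

/-- The points of a coloured `Q × Q` square. -/
abbrev Sq (k Q : ℕ) := Fin k × Fin Q × Fin Q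

/-- First coordinate. -/
def ca (x : Sq k Q) : ℕ := x.2.1

/-- Second coordinate. -/
def cb (x : Sq k Q) : ℕ := x.2.2

lemma ca_lt (x : Sq k Q) : ca x < Q := x.2.1.2

lemma cb_lt (x : Sq k Q) : cb x < Q := x.2.2.2

/-- The band of width `r` together with the corner squares of side `R`. -/
def Band (r R : ℕ) (x : Sq k Q) : Prop :=
  (cb x < r ∨ Q ≤ cb x + r ∨ ca x < r ∨ Q ≤ ca x + r) ∨
    ((ca x < R ∨ Q ≤ ca x + R) ∧ (cb x < R ∨ Q ≤ cb x + R))

/-- `σ` moves only points of the band, and by at most `d`. -/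
structure Banded (r R d : ℕ) (σ : Perm (Sq k Q)) : Prop where
  band : ∀ x, σ x ≠ x → Band r R x
  near : ∀ x, ca (σ x) ≤ ca x + d ∧ ca x ≤ ca (σ x) + d ∧ cb (σ x) ≤ cb x + d ∧ cb x ≤ cb (σ x) + d

/-- The square is large. -/
structure Room (Q r R d : ℕ) : Prop where
  rpos : 1 ≤ r
  band : r + 2 * d + 2 ≤ R
  big : 4 * (R + 2 * d + 2) ≤ Q

/-- A cut far from the corners. -/
def Mid (Q R d t : ℕ) : Prop := R + d < t ∧ t + R + d < Q

/-- The indicator as an integer. -/
noncomputable def ind (P : Prop) : ℤ := by classical exact if P then 1 else 0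

/-- The net flow across the cut `t` of the bottom half. -/
noncomputable def flowAt (t : ℕ) (σ : Perm (Sq k Q)) : ℤ :=
  ∑ x, if cb x < Q / 2 then ind (t ≤ ca (σ x)) - ind (t ≤ ca x) else 0

/-- The net flow across the middle of the bottom side. -/
noncomputable def flow (σ : Perm (Sq k Q)) : ℤ := flowAt (Q / 2) σ

lemma Room.mid {r R d : ℕ} (h : Room Q r R d) : Mid Q R d (Q / 2) := by
  obtain ⟨h1, h2, h3⟩ := h
  constructor <;> omega

lemma Room.mid_succ {r R d : ℕ} (h : Room Q r R d) : Mid Q R d (Q / 2 + 1) := by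
  obtain ⟨h1, h2, h3⟩ := h
  constructor <;> omega

lemma Banded.band_image {r R d : ℕ} {σ : Perm (Sq k Q)} (hσ : Banded r R d σ) {x : Sq k Q}
    (h : σ x ≠ x) : Band r R (σ x) :=
  hσ.band _ fun h' => h (σ.injective h')

lemma Banded.cross {r R d t : ℕ} {σ : Perm (Sq k Q)} (hσ : Banded r R d σ) (hroom : Room Q r R d)
    (ht : Mid Q R d t) {x : Sq k Q} (hm : σ x ≠ x)
    (ha : t ≤ ca x + d) (ha' : ca x ≤ t + d) :
    cb x < r ∨ Q ≤ cb x + r := by
  obtain ⟨h1, h2, h3⟩ := hroom
  obtain ⟨ht1, ht2⟩ := ht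
  rcases hσ.band x hm with (h | h | h | h) | ⟨h, -⟩ <;> omega

lemma flowAt_one (t : ℕ) : flowAt t (1 : Perm (Sq k Q)) = 0 := by
  simp [flowAt]

lemma flowAt_mul {r R d t : ℕ} {σ τ : Perm (Sq k Q)} (hσ : Banded r R d σ)
    (hτ : Banded r R d τ) (hroom : Room Q r R d) (ht : Mid Q R d t) :
    flowAt t (σ * τ) = flowAt t σ + flowAt t τ := by
  have key : ∀ x, (if cb x < Q / 2 then ind (t ≤ ca (σ (τ x))) - ind (t ≤ ca x) else 0) =
      (if cb (τ x) < Q / 2 then ind (t ≤ ca (σ (τ x))) - ind (t ≤ ca (τ x)) else 0) +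
      (if cb x < Q / 2 then ind (t ≤ ca (τ x)) - ind (t ≤ ca x) else 0) := by
    intro x
    have hn := hσ.near (τ x)
    have hn' := hτ.near x
    rcases eq_or_ne (σ (τ x)) (τ x) with he | hne
    · rw [he]; split_ifs <;> ring
    · by_cases hc : (t ≤ ca (σ (τ x))) ↔ t ≤ ca (τ x)
      · have : ind (t ≤ ca (σ (τ x))) = ind (t ≤ ca (τ x)) := by rw [propext hc]
        rw [this]; split_ifs <;> ring
      · have hb := hσ.cross hroom ht hne (by omega) (by omega)
        obtain ⟨h1, h2, h3⟩ := hroom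
        have hiff : cb x < Q / 2 ↔ cb (τ x) < Q / 2 := by omega
        simp only [hiff]
        split_ifs <;> ring
  simp only [flowAt, Perm.mul_apply]
  rw [Finset.sum_congr rfl fun x _ => key x, Finset.sum_add_distrib,
    Equiv.sum_comp τ fun y => if cb y < Q / 2 then ind (t ≤ ca (σ y)) - ind (t ≤ ca y) else 0]

/-- The cut may be moved by one step. -/
lemma flowAt_succ {r R d t : ℕ} {σ : Perm (Sq k Q)} (hσ : Banded r R d σ) (hroom : Room Q r R d)
    (ht : Mid Q R d t) : flowAt (t + 1) σ = flowAt t σ := by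
  have key : ∀ x, (if cb x < Q / 2 then ind (t ≤ ca (σ x)) - ind (t ≤ ca x) else 0) -
      (if cb x < Q / 2 then ind (t + 1 ≤ ca (σ x)) - ind (t + 1 ≤ ca x) else 0) =
      ind (cb (σ x) < Q / 2 ∧ ca (σ x) = t) - ind (cb x < Q / 2 ∧ ca x = t) := by
    intro x
    rcases eq_or_ne (σ x) x with he | hne
    · rw [he]; split_ifs <;> ring
    · have hn := hσ.near x
      by_cases hc : ca (σ x) = t ∨ ca x = t
      · have hb := hσ.cross hroom ht hne (by omega) (by omega)
        obtain ⟨h1, h2, h3⟩ := hroom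
        simp only [ind]
        split_ifs <;> omega
      · simp only [ind]
        split_ifs <;> omega
  have h2 : ∑ x : Sq k Q, (ind (cb (σ x) < Q / 2 ∧ ca (σ x) = t) -
      ind (cb x < Q / 2 ∧ ca x = t)) = 0 := by
    rw [Finset.sum_sub_distrib,
      Equiv.sum_comp σ fun y => ind (cb y < Q / 2 ∧ ca y = t), sub_self]
  rw [← Finset.sum_congr rfl fun x _ => key x, Finset.sum_sub_distrib] at h2
  simp only [flowAt]
  linarith

/-- Exchange of the two coordinates. -/
def transpose : Sq k Q ≃ Sq k Q := Equiv.prodCongr (Equiv.refl _) (Equiv.prodComm _ _)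

/-- Reflection of the second coordinate. -/
def flipB : Sq k Q ≃ Sq k Q :=
  Equiv.prodCongr (Equiv.refl _) (Equiv.prodCongr (Equiv.refl _) Fin.revPerm)

@[simp] lemma ca_transpose (x : Sq k Q) : ca (transpose x) = cb x := rfl

@[simp] lemma cb_transpose (x : Sq k Q) : cb (transpose x) = ca x := rfl

@[simp] lemma transpose_symm : (transpose : Sq k Q ≃ Sq k Q).symm = transpose := rfl

@[simp] lemma ca_flipB (x : Sq k Q) : ca (flipB x) = ca x := rfl

lemma cb_flipB (x : Sq k Q) : cb (flipB x) = Q - (cb x + 1) := Fin.val_rev _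

@[simp] lemma flipB_symm : (flipB : Sq k Q ≃ Sq k Q).symm = flipB := rfl

@[simp] lemma transpose_transpose (x : Sq k Q) : transpose (transpose x) = x := rfl

@[simp] lemma flipB_flipB (x : Sq k Q) : flipB (flipB x) = x := by
  refine Prod.ext rfl (Prod.ext rfl ?_)
  exact Fin.rev_rev _

lemma Banded.transpose {r R d : ℕ} {σ : Perm (Sq k Q)} (hσ : Banded r R d σ) :
    Banded r R d (Square.transpose.permCongr σ) := by
  constructor
  · intro x hx
    have := hσ.band (Square.transpose x) fun h => hx (by simp [h])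
    simp only [Band, ca_transpose, cb_transpose] at this
    unfold Band
    omega
  · intro x
    have := hσ.near (Square.transpose x)
    simp only [Equiv.permCongr_apply, transpose_symm, ca_transpose, cb_transpose] at this ⊢
    omega

lemma Banded.flipB {r R d : ℕ} {σ : Perm (Sq k Q)} (hσ : Banded r R d σ) :
    Banded r R d (Square.flipB.permCongr σ) := by
  constructor
  · intro x hx
    have := hσ.band (Square.flipB x) fun h => hx (by simp [h])
    have := cb_lt x
    simp only [Band, ca_flipB, cb_flipB] at *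
    omega
  · intro x
    have := hσ.near (Square.flipB x)
    have := cb_lt x
    have := cb_lt (σ (Square.flipB x))
    simp only [Equiv.permCongr_apply, flipB_symm, ca_flipB, cb_flipB] at *
    omega

/-- The flow on the left side is opposite to that on the bottom side. -/
lemma flow_transpose {r R d : ℕ} {σ : Perm (Sq k Q)} (hσ : Banded r R d σ)
    (hroom : Room Q r R d) : flow (transpose.permCongr σ) = - flow σ := by
  have e : flow (transpose.permCongr σ) =
      ∑ x, if ca x < Q / 2 then ind (Q / 2 ≤ cb (σ x)) - ind (Q / 2 ≤ cb x) else 0 := by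
    rw [flow, flowAt, ← Equiv.sum_comp transpose]
    refine Finset.sum_congr rfl fun x _ => ?_
    simp
    congr!
  have key : ∀ x, (if cb x < Q / 2 then ind (Q / 2 ≤ ca (σ x)) - ind (Q / 2 ≤ ca x) else 0) +
      (if ca x < Q / 2 then ind (Q / 2 ≤ cb (σ x)) - ind (Q / 2 ≤ cb x) else 0) =
      ind (cb x < Q / 2 ∧ ca x < Q / 2) - ind (cb (σ x) < Q / 2 ∧ ca (σ x) < Q / 2) := by
    intro x
    rcases eq_or_ne (σ x) x with he | hne
    · rw [he]; split_ifs <;> ring
    · have hn := hσ.near x
      have hb := hσ.band x hne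
      obtain ⟨h1, h2, h3⟩ := hroom
      unfold Band at hb
      simp only [ind]
      split_ifs <;> omega
  have h2 : ∑ x : Sq k Q, (ind (cb x < Q / 2 ∧ ca x < Q / 2) -
      ind (cb (σ x) < Q / 2 ∧ ca (σ x) < Q / 2)) = 0 := by
    rw [Finset.sum_sub_distrib,
      Equiv.sum_comp σ fun y => ind (cb y < Q / 2 ∧ ca y < Q / 2), sub_self]
  rw [← Finset.sum_congr rfl fun x _ => key x, Finset.sum_add_distrib] at h2
  rw [e]
  simp only [flow, flowAt]
  linarith

/-- The flow on the top side is opposite to that on the bottom side. -/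
lemma flow_flipB {r R d : ℕ} {σ : Perm (Sq k Q)} (hσ : Banded r R d σ)
    (hroom : Room Q r R d) : flow (flipB.permCongr σ) = - flow σ := by
  have e : flow (flipB.permCongr σ) =
      ∑ x, if cb (flipB x) < Q / 2 then ind (Q / 2 ≤ ca (σ x)) - ind (Q / 2 ≤ ca x) else 0 := by
    rw [flow, flowAt, ← Equiv.sum_comp flipB]
    simp
  have key : ∀ x, (if cb x < Q / 2 then ind (Q / 2 ≤ ca (σ x)) - ind (Q / 2 ≤ ca x) else 0) +
      (if cb (flipB x) < Q / 2 then ind (Q / 2 ≤ ca (σ x)) - ind (Q / 2 ≤ ca x) else 0) =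
      ind (Q / 2 ≤ ca (σ x)) - ind (Q / 2 ≤ ca x) := by
    intro x
    have := cb_lt x
    rcases eq_or_ne (σ x) x with he | hne
    · rw [he]; split_ifs <;> ring
    · have hn := hσ.near x
      by_cases hc : (Q / 2 ≤ ca (σ x)) ↔ Q / 2 ≤ ca x
      · rw [propext hc]; split_ifs <;> ring
      · have hb := hσ.cross hroom hroom.mid hne (by omega) (by omega)
        obtain ⟨h1, h2, h3⟩ := hroom
        simp only [cb_flipB]
        split_ifs <;> omega
  have h2 : ∑ x : Sq k Q, (ind (Q / 2 ≤ ca (σ x)) - ind (Q / 2 ≤ ca x)) = 0 := by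
    rw [Finset.sum_sub_distrib, Equiv.sum_comp σ fun y => ind (Q / 2 ≤ ca y), sub_self]
  rw [← Finset.sum_congr rfl fun x _ => key x, Finset.sum_add_distrib] at h2
  rw [e]
  simp only [flow, flowAt]
  linarith

/-- The flow is bounded independently of the side of the square. -/
lemma abs_flow_le {r R d : ℕ} {σ : Perm (Sq k Q)} (hσ : Banded r R d σ) (hroom : Room Q r R d) :
    |flow σ| ≤ (k * (2 * d + 1) * r : ℕ) := by
  have hle : |flow σ| ≤ ∑ x : Sq k Q,
      ind (cb x < r ∧ Q / 2 ≤ ca x + d ∧ ca x ≤ Q / 2 + d) := by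
    refine (Finset.abs_sum_le_sum_abs _ _).trans (Finset.sum_le_sum fun x _ => ?_)
    have hn := hσ.near x
    by_cases hne : σ x = x
    · rw [hne]; simp only [ind]; split_ifs <;> simp
    · by_cases hc : (Q / 2 ≤ ca (σ x)) ↔ Q / 2 ≤ ca x
      · rw [propext hc]; simp only [ind]; split_ifs <;> simp
      · have hb := hσ.cross hroom hroom.mid hne (by omega) (by omega)
        obtain ⟨h1, h2, h3⟩ := hroom
        simp only [ind]; split_ifs <;> simp <;> omega
  refine hle.trans ?_
  have e0 : ∑ x : Sq k Q, ind (cb x < r ∧ Q / 2 ≤ ca x + d ∧ ca x ≤ Q / 2 + d) =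
      ((univ.filter fun x : Sq k Q =>
        cb x < r ∧ Q / 2 ≤ ca x + d ∧ ca x ≤ Q / 2 + d).card : ℤ) := by
    rw [Finset.card_filter]
    push_cast
    refine Finset.sum_congr rfl fun x _ => ?_
    by_cases h : cb x < r ∧ Q / 2 ≤ ca x + d ∧ ca x ≤ Q / 2 + d <;> simp [ind, h]
  rw [e0]
  have : (univ.filter fun x : Sq k Q =>
      cb x < r ∧ Q / 2 ≤ ca x + d ∧ ca x ≤ Q / 2 + d).card ≤
      ((univ : Finset (Fin k)) ×ˢ (Finset.Icc (Q / 2 - d) (Q / 2 + d) ×ˢ Finset.range r)).card := by
    refine Finset.card_le_card_of_injOn (fun x => (x.1, ca x, cb x)) (fun x hx => ?_) ?_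
    · simp only [Finset.coe_filter, Set.mem_ofPred_eq, mem_univ, true_and] at hx
      simp only [Finset.coe_product, Set.mem_prod, Finset.coe_univ, Set.mem_univ,
        Finset.coe_Icc, Set.mem_Icc, Finset.coe_range, Set.mem_Iio, true_and]
      omega
    · intro x _ y _ h
      simp only [Prod.mk.injEq] at h
      exact Prod.ext h.1 (Prod.ext (Fin.ext h.2.1) (Fin.ext h.2.2))
  simp only [Finset.card_product, Finset.card_univ, Fintype.card_fin, Nat.card_Icc,
    Finset.card_range] at this
  obtain ⟨h1, h2, h3⟩ := hroom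
  have e : Q / 2 + d + 1 - (Q / 2 - d) = 2 * d + 1 := by omega
  rw [e, ← mul_assoc] at this
  exact_mod_cast this

end Vale.Agent.P196.Square
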