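import Vale.Agent.P196.Cover.Parts
import Vale.Agent.P196.Cover.Level
import Vale.Agent.P196.Cover.Square
import Vale.Agent.P196.Cover.Split

/-!
P196, module B: the flow of a kernel element at one level. It is banded on every tile, and its
flow is the same on all tiles.
-/

namespace Vale.Agent.P196.SFT

open Equiv Square

variable {S : SFT} {k : ℕ}

/-- The cell of a point of the square. -/
def Level.sqCell (L : S.Level) (x : Sq k L.Q) : Fin k × V := (x.1, ((ca x : ℤ), (cb x : ℤ)))

/-- The point at a cell over a base point. -/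
def Level.cpt (L : S.Level) (c : L.base) (u : Fin k × V) : Fin k × S.X := (u.1, S.act u.2 c.1)

/-- The point at a position of a tile. -/
def Level.pt (L : S.Level) (c : L.base) (x : Sq k L.Q) : Fin k × S.X := L.cpt c (L.sqCell x)

lemma Level.pt_fst (L : S.Level) (c : L.base) (x : Sq k L.Q) : (L.pt c x).1 = x.1 := rfl

lemma Level.rep_pt (L : S.Level) (c : L.base) (x : Sq k L.Q) :
    L.rep (L.pt c x).2 = (L.sqCell x).2 ∧ L.origin (L.pt c x).2 = c :=
  L.rep_unique (Int.natCast_nonneg _) (Int.ofNat_lt.2 (ca_lt x)) (Int.natCast_nonneg _)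
    (Int.ofNat_lt.2 (cb_lt x)) rfl

lemma Level.sqCell_injective (L : S.Level) : Function.Injective (L.sqCell (k := k)) := by
  intro x y h
  simp only [Level.sqCell, Prod.mk.injEq, Int.natCast_inj] at h
  exact Prod.ext h.1 (Prod.ext (Fin.ext h.2.1) (Fin.ext h.2.2))

lemma Level.pt_injective (L : S.Level) {c c' : L.base} {x x' : Sq k L.Q}
    (h : L.pt c x = L.pt c' x') : c = c' ∧ x = x' := by
  obtain ⟨a1, a2⟩ := L.rep_pt c x
  obtain ⟨b1, b2⟩ := L.rep_pt c' x'
  rw [h] at a1 a2
  refine ⟨a2.symm.trans b2, L.sqCell_injective (Prod.ext ?_ (a1.symm.trans b1))⟩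
  have := congrArg Prod.fst h
  rwa [L.pt_fst, L.pt_fst] at this

lemma Level.exists_pt (L : S.Level) (p : Fin k × S.X) : ∃ c x, L.pt c x = p := by
  obtain ⟨n1, n2⟩ := L.rep_nonneg p.2
  obtain ⟨n3, n4⟩ := L.rep_lt p.2
  refine ⟨L.origin p.2,
    (p.1, ⟨(L.rep p.2).1.toNat, by omega⟩, ⟨(L.rep p.2).2.toNat, by omega⟩), Prod.ext rfl ?_⟩
  show S.act _ _ = p.2
  conv_rhs => rw [← L.act_origin p.2]
  refine congrArg (fun v : V => S.act v (L.origin p.2).1) (Prod.ext ?_ ?_) <;>
    simp [Level.sqCell, ca, cb] <;> omega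

lemma Level.cast_eq_cases (L : S.Level) {a u : ℤ} (h : (a : ZMod L.Q) = (u : ZMod L.Q))
    (ha : 0 ≤ a) (ha' : a < L.Q) (hu : -(L.Q : ℤ) ≤ u) (hu' : u < L.Q) :
    (0 ≤ u ∧ a = u) ∨ (u < 0 ∧ a = u + L.Q) := by
  rcases le_or_gt 0 u with h0 | h0
  · exact Or.inl ⟨h0, L.eq_of_cast h (by omega) (by omega)⟩
  · refine Or.inr ⟨h0, L.eq_of_cast (by rw [h]; simp) (by omega) (by omega)⟩

lemma Level.fits_tile (L : S.Level) : L.Fits (L.tileIn k 0) :=
  L.fits_rectCells (by simp) (by simp)

lemma Level.mem_tile (L : S.Level) (x : Sq k L.Q) : L.sqCell x ∈ L.tileIn k 0 := by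
  have := ca_lt x
  have := cb_lt x
  simp only [Level.tileIn, mem_rectCells, Level.sqCell]
  omega

/-- The tile cells as a square. -/
noncomputable def Level.sqEquiv (L : S.Level) : Sq k L.Q ≃ L.tileIn k 0 :=
  Equiv.ofBijective (fun x => ⟨L.sqCell x, L.mem_tile x⟩) (by
    refine ⟨fun x y h => L.sqCell_injective (congrArg Subtype.val h), fun ⟨p, hp⟩ => ?_⟩
    simp only [Level.tileIn, mem_rectCells] at hp
    refine ⟨(p.1, ⟨p.2.1.toNat, by omega⟩, ⟨p.2.2.toNat, by omega⟩), Subtype.ext ?_⟩
    refine Prod.ext rfl (Prod.ext ?_ ?_) <;> simp [Level.sqCell, ca, cb] <;> omega)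

namespace Cover

variable (Γ : S.Cover k)

/-- An element of a region moves only points of the region. -/
lemma reg_moved (L : S.Level) {F : Finset (Fin k × V)} {x : Γ.H} (hx : x ∈ Γ.reg L F)
    {p : Fin k × S.X} (hp : Γ.proj x p ≠ p) :
    ∃ c : L.base, ∃ u ∈ F, p = L.cpt c u := by
  by_cases h : L.Fits F ∧ 5 ≤ F.card
  · rw [Γ.reg_eq L F h.1 h.2] at hx
    obtain ⟨σ, rfl⟩ := hx
    erw [Γ.proj_lift] at hp
    by_contra hc
    refine hp ((L.tower F h.1).alt_of_notMem σ ?_)
    rintro ⟨⟨c, s⟩, rfl⟩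
    exact hc ⟨c, s.1, s.2, rfl⟩
  · simp only [Cover.reg, dif_neg h, Subgroup.mem_bot] at hx
    simp [hx] at hp

/-- An element of a region permutes the cells over each base point. -/
lemma reg_rep (L : S.Level) {F : Finset (Fin k × V)} (hF : L.Fits F) (h5 : 5 ≤ F.card) {x : Γ.H}
    (hx : x ∈ Γ.reg L F) :
    ∃ σ : LocallyConstant L.base (alternatingGroup F), ∀ (c : L.base) (u : F),
      Γ.proj x (L.cpt c u.1) = L.cpt c ((σ c).1 u).1 := by
  rw [Γ.reg_eq L F hF h5] at hx
  obtain ⟨σ, rfl⟩ := hx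
  refine ⟨σ, fun c u => ?_⟩
  erw [Γ.proj_lift]
  exact (L.tower F hF).alt_emb σ c u

/-- The family of square permutations of an element of the tile. -/
lemma exists_tilePerm (hk : 1 ≤ k) (L : S.Level) (hQ : 5 ≤ L.Q) {f : Γ.H}
    (hf : f ∈ Γ.reg L (L.tileIn k 0)) :
    ∃ π : LocallyConstant L.base (Perm (Sq k L.Q)), (∀ c, Perm.sign (π c) = 1) ∧
      ∀ c x, Γ.proj f (L.pt c x) = L.pt c (π c x) := by
  have h5 : 5 ≤ (L.tileIn k 0).card :=
    five_le_card_rectCells hk (by simp; omega) (by simp; omega)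
  obtain ⟨σ, hσ⟩ := Γ.reg_rep L L.fits_tile h5 hf
  refine ⟨σ.map fun g => (L.sqEquiv (k := k)).symm.permCongr g.1, fun c => ?_, fun c x => ?_⟩
  · simp only [LocallyConstant.map_apply, Function.comp_apply]
    rw [Perm.sign_permCongr]
    exact Perm.mem_alternatingGroup.1 (σ c).2
  · refine (hσ c (L.sqEquiv x)).trans ?_
    have e : L.sqCell (((L.sqEquiv (k := k)).symm.permCongr (σ c).1) x) =
        ((σ c).1 (L.sqEquiv x)).1 := by
      rw [Equiv.permCongr_apply, Equiv.symm_symm]
      exact congrArg Subtype.val ((L.sqEquiv (k := k)).apply_symm_apply ((σ c).1 (L.sqEquiv x)))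
    rw [← e]
    rfl

end Cover

/-- The coordinates along and across a side. -/
def swapIf (tw : Bool) (v : V) : V := if tw then (v.2, v.1) else v

/-- A horizontal or a vertical edge. -/
noncomputable def Level.edge (L : S.Level) (k r : ℕ) (tw : Bool) : Finset (Fin k × V) :=
  if tw then L.edgeV k r else L.edgeH k r

lemma Level.mem_edge (L : S.Level) (r : ℕ) (tw : Bool) (p : Fin k × V) :
    p ∈ L.edge k r tw ↔ ((((L.Q / 16 : ℕ) : ℤ) ≤ (swapIf tw p.2).1 ∧
      (swapIf tw p.2).1 < (L.Q : ℤ) - (L.Q / 16 : ℕ)) ∧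
      (-(r : ℤ) ≤ (swapIf tw p.2).2 ∧ (swapIf tw p.2).2 < r)) := by
  cases tw
  · simp only [Level.edge, Level.edgeH, swapIf, Bool.false_eq_true, if_false, mem_rectCells]
  · simp only [Level.edge, Level.edgeV, swapIf, if_true, mem_rectCells]
    tauto

lemma Level.fits_edge (L : S.Level) {r : ℕ} (hr : 2 * r ≤ L.Q) (tw : Bool) :
    L.Fits (L.edge k r tw) := by
  have : L.Q / 16 ≤ L.Q := Nat.div_le_self _ _
  cases tw <;> simp only [Level.edge, Level.edgeH, Level.edgeV, Bool.false_eq_true, if_false,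
    if_true] <;> exact L.fits_rectCells (by omega) (by omega)

lemma Level.five_le_edge (hk : 1 ≤ k) (L : S.Level) {r : ℕ} (hr : 1 ≤ r) (hQ : 64 ≤ L.Q)
    (tw : Bool) : 5 ≤ (L.edge k r tw).card := by
  cases tw <;> simp only [Level.edge, Level.edgeH, Level.edgeV, Bool.false_eq_true, if_false,
    if_true]
  · exact five_le_card_rectCells hk (by omega) (by omega)
  · rw [card_rectCells]
    have h1 : 5 ≤ ((L.Q : ℤ) - (L.Q / 16 : ℕ) - ((L.Q / 16 : ℕ) : ℤ)).toNat := by omega
    have h2 : 1 ≤ ((r : ℤ) - -(r : ℤ)).toNat := by omega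
    nlinarith [Nat.mul_le_mul h2 h1]

/-- A kernel element, decomposed at a level that is large for the parameters. -/
structure Cover.Kern (Γ : S.Cover k) (L : S.Level) (r s d : ℕ) (f eh ev c : Γ.H) : Prop where
  parts : Γ.Parts L r s d f eh ev c
  one : Γ.proj (f * eh * ev * c) = 1
  rpos : 1 ≤ r
  big : 64 * (r + s + d + 2) ≤ L.Q
  kpos : 1 ≤ k

namespace Cover.Kern

variable {Γ : S.Cover k} {L : S.Level} {r s d : ℕ} {f eh ev c : Γ.H}
  (K : Γ.Kern L r s d f eh ev c)

include K

lemma room : Room L.Q r (L.Q / 8 + s) d := by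
  have := K.big
  have := K.rpos
  constructor <;> omega

lemma commute_edges : Commute eh ev := by
  refine Γ.commute_reg L ?_ K.parts.edgeH K.parts.edgeV
  intro p hp q hq _ he
  have hb := K.big
  simp only [Level.edgeH, Level.edgeV, mem_rectCells] at hp hq
  simp only [Level.cast, Prod.mk.injEq] at he
  have h1 := L.cast_eq_cases (a := p.2.1) (u := q.2.1) he.1 (by omega) (by omega) (by omega)
    (by omega)
  omega

/-- A point moved by the tile part is moved by one of the other parts. -/
lemma moved_cases {p : Fin k × S.X} (hp : Γ.proj f p ≠ p) :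
    Γ.proj eh p ≠ p ∨ Γ.proj ev p ≠ p ∨ Γ.proj c p ≠ p := by
  by_contra h
  push Not at h
  obtain ⟨h1, h2, h3⟩ := h
  apply hp
  have := congrArg (fun g : Perm (Fin k × S.X) => g p) K.one
  simpa [h1, h2, h3] using this

lemma band {π : LocallyConstant L.base (Perm (Sq k L.Q))}
    (hπ : ∀ b x, Γ.proj f (L.pt b x) = L.pt b (π b x)) (b : L.base) (x : Sq k L.Q)
    (hx : π b x ≠ x) : Band r (L.Q / 8 + s) x := by
  have hp : Γ.proj f (L.pt b x) ≠ L.pt b x := fun h => hx (L.pt_injective ((hπ b x).symm.trans h)).2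
  have := K.big
  have hca := ca_lt x
  have hcb := cb_lt x
  have key : ∀ F : Finset (Fin k × V), ∀ y ∈ Γ.reg L F, Γ.proj y (L.pt b x) ≠ L.pt b x →
      ∃ u ∈ F, ((ca x : ℤ) : ZMod L.Q) = (u.2.1 : ZMod L.Q) ∧
        ((cb x : ℤ) : ZMod L.Q) = (u.2.2 : ZMod L.Q) := by
    intro F y hy hm
    obtain ⟨b', u, hu, he⟩ := Γ.reg_moved L hy hm
    have := congrArg (fun q : Fin k × S.X => L.pos q.2) he
    simp only [Level.pt, Level.cpt] at this
    rw [L.pos_cell, L.pos_cell] at this
    simp only [Level.cast, Prod.mk.injEq] at this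
    exact ⟨u, hu, this⟩
  rcases K.moved_cases hp with hm | hm | hm
  · obtain ⟨u, hu, h1, h2⟩ := key _ _ K.parts.edgeH hm
    simp only [Level.edgeH, mem_rectCells] at hu
    have := L.cast_eq_cases h2 (by omega) (by omega) (by omega) (by omega)
    unfold Band; omega
  · obtain ⟨u, hu, h1, h2⟩ := key _ _ K.parts.edgeV hm
    simp only [Level.edgeV, mem_rectCells] at hu
    have := L.cast_eq_cases h1 (by omega) (by omega) (by omega) (by omega)
    unfold Band; omega
  · obtain ⟨u, hu, h1, h2⟩ := key _ _ K.parts.ball hm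
    simp only [Level.ball, mem_rectCells] at hu
    have := L.cast_eq_cases h1 (by omega) (by omega) (by omega) (by omega)
    have := L.cast_eq_cases h2 (by omega) (by omega) (by omega) (by omega)
    unfold Band; omega

/-- The tile permutations are banded. -/
lemma banded (hmf : S.MinimalFree) {π : LocallyConstant L.base (Perm (Sq k L.Q))}
    (hπ : ∀ b x, Γ.proj f (L.pt b x) = L.pt b (π b x)) (b : L.base) :
    Banded r (L.Q / 8 + s) d (π b) := by
  refine ⟨K.band hπ b, fun x => ?_⟩
  obtain ⟨col, dd, -, -, h3⟩ := K.parts.disp_tile.1 x.1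
  obtain ⟨e1, e2, e3⟩ := h3 (S.act (L.sqCell x).2 b.1)
  have h := (hπ b x).symm.trans e3
  simp only [Level.pt, Level.cpt, Prod.mk.injEq, Amen.act_act] at h
  have hv := act_eq_act hmf h.2
  have g1 := congrArg Prod.fst hv
  have g2 := congrArg Prod.snd hv
  simp only [Level.sqCell, Prod.fst_add, Prod.snd_add] at g1 g2 e1 e2
  omega

end Cover.Kern

/-- The inverse of a banded permutation is banded. -/
lemma banded_inv {Q r R d : ℕ} {σ : Perm (Sq k Q)} (hσ : Banded r R d σ) : Banded r R d σ⁻¹ := by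
  refine ⟨fun x hx => hσ.band x fun h => hx (by rw [Perm.inv_eq_iff_eq, h]), fun x => ?_⟩
  have := hσ.near (σ⁻¹ x)
  simp only [Perm.coe_inv, Equiv.apply_symm_apply] at this ⊢
  omega

/-- The flow in the four charts. -/
lemma flow_chart {Q r R d : ℕ} {σ : Perm (Sq k Q)} (hσ : Banded r R d σ) (hroom : Room Q r R d)
    (i : Bool × Bool) : flow ((chart i).permCongr σ) = if i.1 = i.2 then flow σ else -flow σ := by
  obtain ⟨_ | _, _ | _⟩ := i
  · rfl
  · exact flow_flipB hσ hroom
  · exact flow_transpose hσ hroom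
  · show flow (Square.flipB.permCongr (Square.transpose.permCongr σ)) = flow σ
    rw [flow_flipB hσ.transpose hroom, flow_transpose hσ hroom, neg_neg]

namespace Cover.Kern

variable {Γ : S.Cover k} {L : S.Level} {r s d : ℕ} {f eh ev c : Γ.H}

/-- The period across a side. -/
def across (L : S.Level) (tw : Bool) : V := if tw then L.per₁ else L.per₂

lemma cast_across (L : S.Level) (tw : Bool) : L.cast (across L tw) = 0 := by
  cases tw <;> simp [across, L.cast_per₁, L.cast_per₂]

/-- The flows of two tiles through a common side cancel. -/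
lemma side_relation (K : Γ.Kern L r s d f eh ev c) (hmf : S.MinimalFree)
    {π : LocallyConstant L.base (Perm (Sq k L.Q))}
    (hπ : ∀ b x, Γ.proj f (L.pt b x) = L.pt b (π b x)) (tw : Bool) (b : L.base) :
    flow ((chart (tw, false)).permCongr (π (L.shift (across L tw) (cast_across L tw) b))⁻¹) +
      flow ((chart (tw, true)).permCongr (π b)⁻¹) = 0 := by
  classical
  obtain ⟨X, Y, hX, hY, hdX, hXY⟩ : ∃ X Y : Γ.H, X ∈ Γ.reg L (L.edge k r tw) ∧
      Y ∈ Γ.reg L (L.edge k r (!tw)) ∧ Disp (Γ.proj X) d ∧ Γ.proj (f * X * Y * c) = 1 := by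
    cases tw
    · exact ⟨eh, ev, K.parts.edgeH, K.parts.edgeV, K.parts.disp_edgeH, K.one⟩
    · refine ⟨ev, eh, K.parts.edgeV, K.parts.edgeH, K.parts.disp_edgeV, ?_⟩
      rw [mul_assoc f ev eh, ← K.commute_edges.eq, ← mul_assoc]
      exact K.one
  set b' := L.shift (across L tw) (cast_across L tw) b with hb'
  have hbig := K.big
  have hr := K.rpos
  have hfit := L.fits_edge (k := k) (r := r) (by omega) tw
  obtain ⟨σ, hσ⟩ := Γ.reg_rep L hfit (L.five_le_edge K.kpos hr (by omega) tw) hX
  let τ : Perm (L.edge k r tw) := (σ b').1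
  -- the edge part agrees with the inverse of the tile part in the middle of the side
  have hmid : ∀ (u : L.edge k r tw) (b₀ : L.base) (x : Sq k L.Q),
      L.cpt b' u.1 = L.pt b₀ x →
      (L.Q / 4 : ℕ) ≤ (swapIf tw u.1.2).1 → (swapIf tw u.1.2).1 ≤ (3 * (L.Q / 4) : ℕ) →
      L.cpt b' (τ u).1 = L.pt b₀ ((π b₀)⁻¹ x) := by
    intro u b₀ x hp h1 h2
    have hu := (L.mem_edge r tw u.1).1 u.2
    have hfix : ∀ (F : Finset (Fin k × V)) (y : Γ.H), y ∈ Γ.reg L F →
        (∀ v ∈ F, L.cast v.2 ≠ L.cast u.1.2) → Γ.proj y (L.cpt b' u.1) = L.cpt b' u.1 := by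
      intro F y hy hne
      by_contra hm
      obtain ⟨b₁, v, hv, he⟩ := Γ.reg_moved L hy hm
      have := congrArg (fun q : Fin k × S.X => L.pos q.2) he
      simp only [Level.cpt] at this
      rw [L.pos_cell, L.pos_cell] at this
      exact hne v hv this.symm
    have hc : Γ.proj c (L.cpt b' u.1) = L.cpt b' u.1 := hfix _ _ K.parts.ball (by
      intro v hv he
      simp only [Level.ball, mem_rectCells] at hv
      simp only [Level.cast, Prod.mk.injEq] at he
      have h0 : ((swapIf tw u.1.2).1 : ZMod L.Q) = ((swapIf tw v.2).1 : ZMod L.Q) := by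
        cases tw <;> simp [swapIf, he]
      have hv1 : -((L.Q / 8 + s : ℕ) : ℤ) ≤ (swapIf tw v.2).1 ∧
          (swapIf tw v.2).1 < (L.Q / 8 + s : ℕ) := by
        cases tw <;> simp only [swapIf, Bool.false_eq_true, if_false, if_true] <;> omega
      have := L.cast_eq_cases h0 (by omega) (by omega) (by omega) (by omega)
      omega)
    have hy : Γ.proj Y (L.cpt b' u.1) = L.cpt b' u.1 := hfix _ _ hY (by
      intro v hv he
      rw [L.mem_edge] at hv
      simp only [Level.cast, Prod.mk.injEq] at he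
      have h0 : ((swapIf tw u.1.2).1 : ZMod L.Q) = ((swapIf tw v.2).1 : ZMod L.Q) := by
        cases tw <;> simp [swapIf, he]
      have hv1 : -(r : ℤ) ≤ (swapIf tw v.2).1 ∧ (swapIf tw v.2).1 < r := by
        cases tw <;> simp only [swapIf, Bool.not_false, Bool.not_true, Bool.false_eq_true,
          if_false, if_true] at hv ⊢ <;> omega
      have := L.cast_eq_cases h0 (by omega) (by omega) (by omega) (by omega)
      omega)
    have hone := congrArg (fun g : Perm (Fin k × S.X) => g (L.cpt b' u.1)) hXY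
    simp only [map_mul, Perm.mul_apply, hc, hy, Perm.one_apply, hσ] at hone
    obtain ⟨b₂, z, hz⟩ := L.exists_pt (L.cpt b' (τ u).1)
    have h3 : Γ.proj f (L.pt b₂ z) = L.pt b₀ x := by rw [hz, ← hp]; exact hone
    rw [hπ] at h3
    obtain ⟨rfl, hzx⟩ := L.pt_injective h3
    rw [← hz, ← hzx]
    simp
  -- the move of the edge part along the side
  have hnear : ∀ u : L.edge k r tw, |(swapIf tw (τ u).1.2).1 - (swapIf tw u.1.2).1| ≤ d := by
    intro u
    obtain ⟨col, dd, -, -, h3⟩ := hdX.1 u.1.1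
    obtain ⟨e1, e2, e3⟩ := h3 (S.act u.1.2 b'.1)
    have h := (hσ b' u).symm.trans e3
    simp only [Level.cpt, Prod.mk.injEq, Amen.act_act] at h
    have hv : (τ u).1.2 = dd (S.act u.1.2 b'.1) + u.1.2 := act_eq_act hmf h.2
    rw [abs_le, hv]
    cases tw <;> simp only [swapIf, Bool.false_eq_true, if_false, if_true, Prod.fst_add,
      Prod.snd_add] <;> omega
  set h : ℕ := L.Q / 2 with hh
  let χ : V → ℤ := fun v => ind ((h : ℤ) ≤ (swapIf tw v).1)
  have hsum : ∑ u : L.edge k r tw, (χ (τ u).1.2 - χ u.1.2) = 0 := by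
    rw [Finset.sum_sub_distrib, Equiv.sum_comp τ fun u => χ u.1.2, sub_self]
  have hmove : ∀ u : L.edge k r tw, χ (τ u).1.2 - χ u.1.2 ≠ 0 →
      ((h : ℤ) - d ≤ (swapIf tw u.1.2).1 ∧ (swapIf tw u.1.2).1 ≤ (h : ℤ) + d) := by
    intro u hu
    have hd := abs_le.1 (hnear u)
    by_contra hc
    apply hu
    simp only [χ, ind]
    split_ifs <;> omega
  rw [← Finset.sum_filter_add_sum_filter_not Finset.univ
    (fun u : L.edge k r tw => 0 ≤ (swapIf tw u.1.2).2)] at hsum
  -- the two halves of the side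
  have half : ∀ (up : Bool) (b₀ : L.base),
      (up = false → b₀ = b') → (up = true → b' = L.shift (across L tw) (cast_across L tw) b₀) →
      (∑ u ∈ Finset.univ.filter (fun u : L.edge k r tw =>
          (0 ≤ (swapIf tw u.1.2).2 ↔ up = false)), (χ (τ u).1.2 - χ u.1.2)) =
        flow ((chart (tw, up)).permCongr (π b₀)⁻¹) := by
    intro up b₀ hf0 ht0
    have hpt : ∀ (u : L.edge k r tw), (0 ≤ (swapIf tw u.1.2).2 ↔ up = false) →
        ∀ x : Sq k L.Q, x.1 = u.1.1 → (ca (chart (tw, false) x) : ℤ) = (swapIf tw u.1.2).1 →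
        (cb (chart (tw, false) x) : ℤ) = (swapIf tw u.1.2).2 + (if up then (L.Q : ℤ) else 0) →
        L.cpt b' u.1 = L.pt b₀ x := by
      intro u hup x h1 h2 h3
      refine Prod.ext h1.symm ?_
      show S.act u.1.2 b'.1 = S.act (L.sqCell x).2 b₀.1
      have hcell : (L.sqCell x).2 = u.1.2 + (if up then across L tw else 0) := by
        cases tw <;> cases up <;>
          simp [Level.sqCell, chart, swapIf, across, Level.per₁, Level.per₂,
            Prod.ext_iff] at h2 h3 ⊢ <;> omega
      cases up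
      · rw [hcell, hf0 rfl]; simp
      · rw [hcell, ht0 rfl]
        show S.act u.1.2 (S.act (across L tw) b₀.1) = _
        rw [Amen.act_act]; simp
    let F : Sq k L.Q → ℤ := fun x =>
      if cb x < L.Q / 2 then
        ind (L.Q / 2 ≤ ca ((chart (tw, up)).permCongr (π b₀)⁻¹ x)) - ind (L.Q / 2 ≤ ca x)
      else 0
    show _ = ∑ x, F x
    have hbanded : Banded r (L.Q / 8 + s) d ((chart (tw, up)).permCongr (π b₀)⁻¹) := by
      have hb0 : Banded r (L.Q / 8 + s) d (π b₀)⁻¹ := banded_inv (K.banded hmf hπ b₀)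
      cases tw <;> cases up
      · exact hb0
      · exact hb0.flipB
      · exact hb0.transpose
      · exact hb0.transpose.flipB
    have mk : ∀ (u : L.edge k r tw), (0 ≤ (swapIf tw u.1.2).2 ↔ up = false) →
        ∃ z : Sq k L.Q, z.1 = u.1.1 ∧ (ca z : ℤ) = (swapIf tw u.1.2).1 ∧
          (cb (chart (tw, false) ((chart (tw, up)).symm z)) : ℤ) =
            (swapIf tw u.1.2).2 + (if up then (L.Q : ℤ) else 0) ∧ cb z < r := by
      intro u hup
      have hu := (L.mem_edge r tw u.1).1 u.2
      refine ⟨(u.1.1, ⟨(swapIf tw u.1.2).1.toNat, by omega⟩,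
        ⟨(if up then (-(swapIf tw u.1.2).2 - 1).toNat else (swapIf tw u.1.2).2.toNat), by
          split_ifs <;> omega⟩), rfl, ?_, ?_, ?_⟩
      · simp only [ca]; omega
      · cases tw <;> cases up <;>
          simp [chart, cb, flipB, Square.transpose] at hup ⊢ <;> omega
      · cases up <;> simp [cb] at hup ⊢ <;> omega
    choose z hz1 hz2 hz3 hz4 using mk
    have hval : ∀ (u : L.edge k r tw) (hup : 0 ≤ (swapIf tw u.1.2).2 ↔ up = false),
        ((h : ℤ) - d ≤ (swapIf tw u.1.2).1 ∧ (swapIf tw u.1.2).1 ≤ (h : ℤ) + d) →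
        χ (τ u).1.2 - χ u.1.2 = F (z u hup) := by
      intro u hup hnearh
      set y := z u hup with hy
      have hca : (ca (chart (tw, false) ((chart (tw, up)).symm y)) : ℤ) = (swapIf tw u.1.2).1 := by
        rw [← hz2 u hup, ← hy]
        cases tw <;> cases up <;> simp [chart]
      have hp := hpt u hup ((chart (tw, up)).symm y) (by
        rw [← hz1 u hup, ← hy]; cases tw <;> cases up <;> rfl) hca (hz3 u hup)
      have hq := hmid u b₀ _ hp (by omega) (by omega)
      set y' := (π b₀)⁻¹ ((chart (tw, up)).symm y) with hy'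
      have hres : (swapIf tw (τ u).1.2).1 = ((ca (chart (tw, up) y') : ℕ) : ℤ) := by
        simp only [Level.cpt, Level.pt, Prod.mk.injEq] at hq
        have hq2 := hq.2
        rcases up with _ | _
        · rw [hf0 rfl] at hq2
          have := act_eq_act hmf hq2
          rw [this]
          cases tw <;> simp [Level.sqCell, chart, swapIf]
        · rw [ht0 rfl] at hq2
          change S.act (τ u).1.2 (S.act (across L tw) b₀.1) = _ at hq2
          rw [Amen.act_act] at hq2
          have := act_eq_act hmf hq2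
          have e1 := congrArg Prod.fst this
          have e2 := congrArg Prod.snd this
          cases tw <;>
            simp [Level.sqCell, across, Level.per₁, Level.per₂, chart, swapIf] at e1 e2 ⊢ <;>
            omega
      have hcy : cb y < r := hz4 u hup
      have := K.room.band
      have := K.room.big
      simp only [F, if_pos (show cb y < L.Q / 2 by omega), χ, Equiv.permCongr_apply, hres,
        ← hy', ← hz2 u hup, ← hy]
      simp only [ind, Nat.cast_le, h]
      congr!
    refine Finset.sum_bij_ne_zero (fun u hu _ => z u (Finset.mem_filter.1 hu).2)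
      (fun _ _ _ => Finset.mem_univ _) ?_ ?_ ?_
    · intro u₁ hu₁ _ u₂ hu₂ _ he
      have p1 := (Finset.mem_filter.1 hu₁).2
      have p2 := (Finset.mem_filter.1 hu₂).2
      have e1 : (u₁.1.1 : Fin k) = u₂.1.1 := by rw [← hz1 u₁ p1, ← hz1 u₂ p2, he]
      have e2 : (swapIf tw u₁.1.2).1 = (swapIf tw u₂.1.2).1 := by
        rw [← hz2 u₁ p1, ← hz2 u₂ p2, he]
      have e3 : (swapIf tw u₁.1.2).2 + (if up then (L.Q : ℤ) else 0) =
          (swapIf tw u₂.1.2).2 + (if up then (L.Q : ℤ) else 0) := by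
        rw [← hz3 u₁ p1, ← hz3 u₂ p2, he]
      refine Subtype.ext (Prod.ext e1 ?_)
      have e4 : (swapIf tw u₁.1.2).2 = (swapIf tw u₂.1.2).2 := by omega
      cases tw <;> simp [swapIf] at e2 e4 <;> exact Prod.ext (by assumption) (by assumption)
    · intro x _ hx
      simp only [F] at hx
      split_ifs at hx with hlt
      swap
      · exact absurd rfl hx
      have hmoved : (chart (tw, up)).permCongr (π b₀)⁻¹ x ≠ x := fun h' => hx (by rw [h', sub_self])
      have hn := hbanded.near x
      have hcut : L.Q / 2 ≤ ca x + d ∧ ca x ≤ L.Q / 2 + d := by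
        by_contra hc
        apply hx
        simp only [ind]
        split_ifs <;> omega
      have hside := hbanded.cross K.room K.room.mid hmoved hcut.1 hcut.2
      have := K.room.band
      have := K.room.big
      have hxl := cb_lt x
      let u0 : Fin k × V := (x.1, swapIf tw ((ca x : ℤ),
        if up then -(cb x : ℤ) - 1 else (cb x : ℤ)))
      have hu0 : u0 ∈ L.edge k r tw := by
        rw [L.mem_edge]
        cases tw <;> cases up <;> simp [u0, swapIf] <;> omega
      have hup : 0 ≤ (swapIf tw u0.2).2 ↔ up = false := by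
        cases tw <;> cases up <;> simp [u0, swapIf] <;> omega
      have hnearh : (h : ℤ) - d ≤ (swapIf tw u0.2).1 ∧ (swapIf tw u0.2).1 ≤ (h : ℤ) + d := by
        cases tw <;> simp [u0, swapIf, h] <;> omega
      have hzx : z ⟨u0, hu0⟩ hup = x := by
        have a2 := hz2 ⟨u0, hu0⟩ hup
        have a3 := hz3 ⟨u0, hu0⟩ hup
        have a1 := hz1 ⟨u0, hu0⟩ hup
        generalize z ⟨u0, hu0⟩ hup = zz at a1 a2 a3 ⊢
        have hzl := cb_lt zz
        refine Prod.ext a1 (Prod.ext (Fin.ext ?_) (Fin.ext ?_))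
        · have : (ca zz : ℤ) = (ca x : ℤ) := by
            rw [a2]; cases tw <;> simp [u0, swapIf]
          exact_mod_cast this
        · show cb zz = cb x
          cases tw <;> cases up <;>
            simp [u0, swapIf, chart, cb_flipB] at a3 <;> omega
      refine ⟨⟨u0, hu0⟩, Finset.mem_filter.2 ⟨Finset.mem_univ _, hup⟩, ?_, hzx⟩
      rw [hval ⟨u0, hu0⟩ hup hnearh, hzx]
      simp only [F, if_pos hlt]
      exact hx
    · intro u hu hne
      exact hval u (Finset.mem_filter.1 hu).2 (hmove u hne)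
  have h1 := half false b' (fun _ => rfl) (fun h' => Bool.noConfusion h')
  have h2 := half true b (fun h' => Bool.noConfusion h') (fun _ => hb')
  rw [← h1, ← h2]
  simpa using hsum

/-- The flow is the same on all tiles. -/
lemma flow_const (K : Γ.Kern L r s d f eh ev c) (hmf : S.MinimalFree)
    {π : LocallyConstant L.base (Perm (Sq k L.Q))}
    (hπ : ∀ b x, Γ.proj f (L.pt b x) = L.pt b (π b x)) (b b' : L.base) :
    flow (π b) = flow (π b') := by
  have hinv : ∀ b, flow (π b)⁻¹ = - flow (π b) := fun b => by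
    have h := flowAt_mul (K.banded hmf hπ b) (banded_inv (K.banded hmf hπ b)) K.room K.room.mid
    rw [mul_inv_cancel, flowAt_one] at h
    simp only [flow]
    linarith
  have step : ∀ (tw : Bool) (b : L.base),
      flow (π (L.shift (across L tw) (cast_across L tw) b)) = flow (π b) := by
    intro tw b
    have h := K.side_relation hmf hπ tw b
    rw [flow_chart (banded_inv (K.banded hmf hπ _)) K.room,
      flow_chart (banded_inv (K.banded hmf hπ _)) K.room, hinv, hinv] at h
    cases tw <;> simp at h <;> linarith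
  exact L.const_of_invariant hmf (f := fun b => flow (π b))
    (π.isLocallyConstant.comp flow) (step true) (step false) b b'

end Cover.Kern

end Vale.Agent.P196.SFT
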