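import Vale.Agent.P196.Cover.Lift

/-!
P196, module B: the regions of one level of the odometer, and permutations with bounded
displacement.
-/

namespace Vale.Agent.P196.SFT

open Equiv

variable (S : SFT) {k : ℕ}

/-- One periodic factor. -/
structure Level where
  Q : ℕ
  Q_pos : 0 < Q
  pos : S.X → ZMod Q × ZMod Q
  pos_local : S.IsLocal pos
  pos_act : ∀ (v : V) x, pos (S.act v x) = pos x + ((v.1 : ZMod Q), (v.2 : ZMod Q))

variable {S}

/-- The levels of an odometer. -/
def Odometer.level (O : S.Odometer) (n : ℕ) : S.Level where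
  Q := O.Q n
  Q_pos := O.Q_pos n
  pos := O.pos n
  pos_local := O.pos_local n
  pos_act := O.pos_act n

/-- The residue of a vector. -/
def Level.cast (L : S.Level) (v : V) : ZMod L.Q × ZMod L.Q := ((v.1 : ZMod L.Q), (v.2 : ZMod L.Q))

lemma Level.pos_act' (L : S.Level) (v : V) (x : S.X) : L.pos (S.act v x) = L.pos x + L.cast v :=
  L.pos_act v x

/-- The base of a level. -/
def Level.base (L : S.Level) : Set S.X := {x | L.pos x = 0}

lemma Level.base_clopen (L : S.Level) : IsClopen L.base :=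
  Amen.isClopen_of_isLocal (P := fun x => L.pos x = 0) (Amen.isLocal_comp L.pos_local fun p => p = 0)

lemma Level.pos_cell (L : S.Level) (c : L.base) (v : V) : L.pos (S.act v c.1) = L.cast v := by
  rw [L.pos_act', c.2, zero_add]

/-- Cells of one colour have different residues. -/
def Level.Fits (L : S.Level) (F : Finset (Fin k × V)) : Prop :=
  ∀ p ∈ F, ∀ q ∈ F, p.1 = q.1 → L.cast p.2 = L.cast q.2 → p.2 = q.2

/-- The tower of a fitting region over the base of a level. -/
def Level.tower (L : S.Level) (F : Finset (Fin k × V)) (h : L.Fits F) : S.Tower k where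
  base := L.base
  clopen := L.base_clopen
  cells := F
  inj := by
    rintro ⟨c, s⟩ ⟨c', s'⟩ he
    simp only [place, Prod.mk.injEq] at he
    have hp := congrArg L.pos he.2
    rw [L.pos_cell, L.pos_cell] at hp
    have hv : s.1.2 = s'.1.2 := h _ s.2 _ s'.2 he.1 hp
    obtain rfl : s = s' := Subtype.ext (Prod.ext he.1 hv)
    exact Prod.ext (Subtype.ext ((S.act s.1.2).injective he.2)) rfl

/-- A coloured rectangle of cells. -/
noncomputable def rectCells (k : ℕ) (a₁ a₂ b₁ b₂ : ℤ) : Finset (Fin k × V) :=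
  (Finset.univ : Finset (Fin k)) ×ˢ (Finset.Ico a₁ a₂ ×ˢ Finset.Ico b₁ b₂)

lemma mem_rectCells {a₁ a₂ b₁ b₂ : ℤ} {p : Fin k × V} :
    p ∈ rectCells k a₁ a₂ b₁ b₂ ↔
      (a₁ ≤ p.2.1 ∧ p.2.1 < a₂) ∧ (b₁ ≤ p.2.2 ∧ p.2.2 < b₂) := by
  simp [rectCells]

lemma card_rectCells (a₁ a₂ b₁ b₂ : ℤ) :
    (rectCells k a₁ a₂ b₁ b₂).card = k * ((a₂ - a₁).toNat * (b₂ - b₁).toNat) := by
  simp [rectCells]

lemma five_le_card_rectCells (hk : 1 ≤ k) {a₁ a₂ b₁ b₂ : ℤ} (ha : a₁ + 5 ≤ a₂) (hb : b₁ < b₂) :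
    5 ≤ (rectCells k a₁ a₂ b₁ b₂).card := by
  rw [card_rectCells]
  have h1 : 5 ≤ (a₂ - a₁).toNat := by omega
  have h2 : 1 ≤ (b₂ - b₁).toNat := by omega
  nlinarith [Nat.mul_le_mul h1 h2]

lemma Level.eq_of_cast {L : S.Level} {a b : ℤ} (h : (a : ZMod L.Q) = (b : ZMod L.Q))
    (h1 : a < b + L.Q) (h2 : b < a + L.Q) : a = b := by
  have hd := (ZMod.intCast_eq_intCast_iff_dvd_sub a b L.Q).1 h
  have := Int.eq_zero_of_abs_lt_dvd hd (abs_lt.2 ⟨by omega, by omega⟩)
  omega

lemma Level.fits_rectCells (L : S.Level) {a₁ a₂ b₁ b₂ : ℤ} (ha : a₂ ≤ a₁ + L.Q)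
    (hb : b₂ ≤ b₁ + L.Q) : L.Fits (rectCells k a₁ a₂ b₁ b₂) := by
  intro p hp q hq _ he
  rw [mem_rectCells] at hp hq
  simp only [Level.cast, Prod.mk.injEq] at he
  exact Prod.ext (L.eq_of_cast he.1 (by omega) (by omega))
    (L.eq_of_cast he.2 (by omega) (by omega))

variable (k) in
/-- The tile, with a margin. -/
noncomputable def Level.tileIn (L : S.Level) (m : ℕ) : Finset (Fin k × V) :=
  rectCells k m (L.Q - m) m (L.Q - m)

variable (k) in
/-- The horizontal edge. -/
noncomputable def Level.edgeH (L : S.Level) (r : ℕ) : Finset (Fin k × V) :=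
  rectCells k ((L.Q / 16 : ℕ) : ℤ) ((L.Q : ℤ) - (L.Q / 16 : ℕ)) (-(r : ℤ)) r

variable (k) in
/-- The vertical edge. -/
noncomputable def Level.edgeV (L : S.Level) (r : ℕ) : Finset (Fin k × V) :=
  rectCells k (-(r : ℤ)) r ((L.Q / 16 : ℕ) : ℤ) ((L.Q : ℤ) - (L.Q / 16 : ℕ))

variable (k) in
/-- The ball. -/
noncomputable def Level.ball (L : S.Level) (s : ℕ) : Finset (Fin k × V) :=
  rectCells k (-((L.Q / 8 + s : ℕ) : ℤ)) (L.Q / 8 + s : ℕ) (-((L.Q / 8 + s : ℕ) : ℤ))
    (L.Q / 8 + s : ℕ)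

namespace Cover

variable (Γ : S.Cover k)

open scoped Classical in
/-- The lifted group of a region of a level. -/
noncomputable def reg (L : S.Level) (F : Finset (Fin k × V)) : Subgroup Γ.H :=
  if h : L.Fits F ∧ 5 ≤ F.card then Γ.grp (L.tower F h.1) h.2 else ⊥

lemma reg_eq (L : S.Level) (F : Finset (Fin k × V)) (h : L.Fits F) (h5 : 5 ≤ F.card) :
    Γ.reg L F = Γ.grp (L.tower F h) h5 := by
  simp [reg, h, h5]

end Cover

/-- An inclusion of regions, as a map of towers. -/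
def Level.intoOfSubset (L : S.Level) {F F' : Finset (Fin k × V)} (h : L.Fits F) (h' : L.Fits F')
    (hsub : F ⊆ F') : Tower.Into (1 : Perm (Fin k × S.X)) (L.tower F h) (L.tower F' h') where
  v := 0
  base c := by
    show S.act 0 c.1 ∈ L.base
    rw [Amen.act_zero]; exact c.2
  cell := LocallyConstant.const _
    ⟨fun s => ⟨s.1, hsub s.2⟩, fun _ _ e => Subtype.ext (Subtype.mk.injEq _ _ _ _ ▸ e)⟩
  eq c s := Prod.ext rfl (by
    show S.act s.1.2 c.1 = S.act s.1.2 (S.act 0 c.1)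
    rw [Amen.act_zero])

lemma Cover.reg_mono (Γ : S.Cover k) (L : S.Level) {F F' : Finset (Fin k × V)} (h' : L.Fits F')
    (hsub : F ⊆ F') : Γ.reg L F ≤ Γ.reg L F' := by
  by_cases h : L.Fits F ∧ 5 ≤ F.card
  · have h5 : 5 ≤ F'.card := h.2.trans (Finset.card_le_card hsub)
    rw [Γ.reg_eq L F h.1 h.2, Γ.reg_eq L F' h' h5]
    exact Γ.grp_mono _ _ (L.intoOfSubset h.1 h' hsub)
  · simp [Cover.reg, h]

/-- A translation of a region by a period, as a map of towers. -/
def Level.intoOfShift (L : S.Level) {F F' : Finset (Fin k × V)} (h : L.Fits F) (h' : L.Fits F')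
    (w : V) (hw : L.cast w = 0) (hsub : ∀ p ∈ F, (p.1, p.2 - w) ∈ F') :
    Tower.Into (1 : Perm (Fin k × S.X)) (L.tower F h) (L.tower F' h') where
  v := w
  base c := by
    show L.pos (S.act w c.1) = 0
    exact (L.pos_cell ⟨c.1, c.2⟩ w).trans hw
  cell := LocallyConstant.const _
    ⟨fun s => ⟨_, hsub s.1 s.2⟩, fun s s' e => Subtype.ext (by
      have := congrArg Subtype.val e
      simp only [Prod.ext_iff, sub_left_inj] at this ⊢
      exact this)⟩
  eq c s := Prod.ext rfl (by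
    show S.act s.1.2 c.1 = S.act (s.1.2 - w) (S.act w c.1)
    rw [Amen.act_act, sub_add_cancel])

lemma Cover.reg_shift (Γ : S.Cover k) (L : S.Level) {F F' : Finset (Fin k × V)} (h' : L.Fits F')
    (w : V) (hw : L.cast w = 0) (hsub : ∀ p ∈ F, (p.1, p.2 - w) ∈ F') :
    Γ.reg L F ≤ Γ.reg L F' := by
  by_cases h : L.Fits F ∧ 5 ≤ F.card
  · have h5 : 5 ≤ F'.card := h.2.trans (Finset.card_le_card_of_injOn (fun p => (p.1, p.2 - w))
      hsub fun p _ q _ e => by simpa [Prod.ext_iff] using e)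
    rw [Γ.reg_eq L F h.1 h.2, Γ.reg_eq L F' h' h5]
    exact Γ.grp_mono _ _ (L.intoOfShift h.1 h' w hw hsub)
  · simp [Cover.reg, h]

/-- Regions without common residues have commuting lifted groups. -/
lemma Cover.commute_reg (Γ : S.Cover k) (L : S.Level) {F F' : Finset (Fin k × V)}
    (hd : ∀ p ∈ F, ∀ q ∈ F', p.1 = q.1 → L.cast p.2 ≠ L.cast q.2) {x y : Γ.H}
    (hx : x ∈ Γ.reg L F) (hy : y ∈ Γ.reg L F') : Commute x y := by
  by_cases h : L.Fits F ∧ 5 ≤ F.card
  swap
  · simp only [Cover.reg, dif_neg h, Subgroup.mem_bot] at hx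
    exact hx ▸ Commute.one_left y
  by_cases h' : L.Fits F' ∧ 5 ≤ F'.card
  swap
  · simp only [Cover.reg, dif_neg h', Subgroup.mem_bot] at hy
    exact hy ▸ Commute.one_right x
  rw [Γ.reg_eq L F h.1 h.2] at hx
  rw [Γ.reg_eq L F' h'.1 h'.2] at hy
  refine Γ.commute_of_disjoint h.2 h'.2 ?_ hx hy
  rw [Set.disjoint_left]
  rintro _ ⟨⟨c, s⟩, rfl⟩ ⟨⟨c', s'⟩, he⟩
  simp only [Tower.emb_apply, Prod.mk.injEq] at he
  have hp : L.cast s'.1.2 = L.cast s.1.2 :=
    ((L.pos_cell ⟨c'.1, c'.2⟩ _).symm.trans (congrArg L.pos he.2)).trans (L.pos_cell ⟨c.1, c.2⟩ _)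
  exact hd _ s.2 _ s'.2 he.1.symm hp.symm

/-! ### Bounded displacement -/

lemma isLocallyConstant_act_var {β : Type*} {d : S.X → V} (hd : IsLocallyConstant d)
    {f : S.X → β} (hf : IsLocallyConstant f) :
    IsLocallyConstant fun x => f (S.act (d x) x) := by
  refine (IsLocallyConstant.iff_exists_open _).2 fun x => ?_
  obtain ⟨U, hU, hxU, hUd⟩ := (IsLocallyConstant.iff_exists_open _).1 hd x
  obtain ⟨W, hW, hxW, hWf⟩ := (IsLocallyConstant.iff_exists_open _).1 hf (S.act (d x) x)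
  refine ⟨U ∩ (fun y => S.act (d x) y) ⁻¹' W, hU.inter (hW.preimage (continuous_act _)),
    ⟨hxU, hxW⟩, fun y hy => ?_⟩
  show f (S.act (d y) y) = f (S.act (d x) x)
  rw [hUd y hy.1]
  exact hWf _ hy.2

/-- Every point is translated locally constantly, by at most `d`. -/
def Moves (g : Perm (Fin k × S.X)) (d : ℕ) : Prop :=
  ∀ i : Fin k, ∃ (col : S.X → Fin k) (dd : S.X → V),
    IsLocallyConstant col ∧ IsLocallyConstant dd ∧
      ∀ x, (dd x).1.natAbs ≤ d ∧ (dd x).2.natAbs ≤ d ∧ g (i, x) = (col x, S.act (dd x) x)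

/-- The permutation and its inverse have displacement at most `d`. -/
def Disp (g : Perm (Fin k × S.X)) (d : ℕ) : Prop := Moves g d ∧ Moves g⁻¹ d

lemma Moves.one (d : ℕ) : Moves (1 : Perm (Fin k × S.X)) d := fun i =>
  ⟨fun _ => i, fun _ => 0, IsLocallyConstant.const _, IsLocallyConstant.const _, fun x =>
    ⟨by simp, by simp, by simp [Amen.act_zero]⟩⟩

lemma Moves.mono {g : Perm (Fin k × S.X)} {d d' : ℕ} (h : Moves g d) (hd : d ≤ d') :
    Moves g d' := fun i => by
  obtain ⟨col, dd, h1, h2, h3⟩ := h i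
  exact ⟨col, dd, h1, h2, fun x => ⟨(h3 x).1.trans hd, (h3 x).2.1.trans hd, (h3 x).2.2⟩⟩

lemma Moves.mul {g g' : Perm (Fin k × S.X)} {d d' : ℕ} (h : Moves g d) (h' : Moves g' d') :
    Moves (g * g') (d + d') := fun i => by
  obtain ⟨col', dd', h1, h2, h3⟩ := h' i
  choose col dd e1 e2 e3 using h
  refine ⟨fun x => col (col' x) (S.act (dd' x) x), fun x => dd (col' x) (S.act (dd' x) x) + dd' x,
    ?_, ?_, fun x => ?_⟩
  · have : IsLocallyConstant fun x => fun j => col j (S.act (dd' x) x) :=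
      isLocallyConstant_act_var h2 (f := fun y j => col j y)
        ((IsLocallyConstant.iff_exists_open _).2 fun y =>
          ⟨⋂ j, {z | col j z = col j y}, isOpen_iInter_of_finite fun j => (e1 j).isOpen_fiber _,
            Set.mem_iInter.2 fun j => rfl, fun z hz => funext fun j => Set.mem_iInter.1 hz j⟩)
    exact h1.comp₂ this fun j f => f j
  · have : IsLocallyConstant fun x => fun j => dd j (S.act (dd' x) x) :=
      isLocallyConstant_act_var h2 (f := fun y j => dd j y)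
        ((IsLocallyConstant.iff_exists_open _).2 fun y =>
          ⟨⋂ j, {z | dd j z = dd j y}, isOpen_iInter_of_finite fun j => (e2 j).isOpen_fiber _,
            Set.mem_iInter.2 fun j => rfl, fun z hz => funext fun j => Set.mem_iInter.1 hz j⟩)
    exact (h1.comp₂ this fun j f => f j).comp₂ h2 (· + ·)
  · obtain ⟨a1, a2, a3⟩ := h3 x
    obtain ⟨b1, b2, b3⟩ := e3 (col' x) (S.act (dd' x) x)
    simp only [Prod.fst_add, Prod.snd_add]
    refine ⟨(Int.natAbs_add_le _ _).trans (Nat.add_le_add b1 a1),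
      (Int.natAbs_add_le _ _).trans (Nat.add_le_add b2 a2), ?_⟩
    rw [Perm.mul_apply, a3, b3, Amen.act_act]

lemma Disp.one (d : ℕ) : Disp (1 : Perm (Fin k × S.X)) d :=
  ⟨Moves.one d, by rw [inv_one]; exact Moves.one d⟩

lemma Disp.inv {g : Perm (Fin k × S.X)} {d : ℕ} (h : Disp g d) : Disp g⁻¹ d :=
  ⟨h.2, by rw [inv_inv]; exact h.1⟩

lemma Disp.mono {g : Perm (Fin k × S.X)} {d d' : ℕ} (h : Disp g d) (hd : d ≤ d') : Disp g d' :=
  ⟨h.1.mono hd, h.2.mono hd⟩

lemma Disp.mul {g g' : Perm (Fin k × S.X)} {d d' : ℕ} (h : Disp g d) (h' : Disp g' d') :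
    Disp (g * g') (d + d') :=
  ⟨h.1.mul h'.1, by rw [mul_inv_rev, add_comm]; exact h'.2.mul h.2⟩

/-- The displacement of a tower element is bounded by the size of its cells. -/
lemma Tower.moves_alt (T : S.Tower k) {d : ℕ}
    (hd : ∀ s ∈ T.cells, ∀ s' ∈ T.cells, (s'.2 - s.2).1.natAbs ≤ d ∧ (s'.2 - s.2).2.natAbs ≤ d)
    (σ : LocallyConstant T.base (alternatingGroup T.cells)) : Moves (T.alt σ) d := by
  classical
  intro i
  let Src : T.cells → S.X → Prop := fun s x => s.1.1 = i ∧ S.act (-s.1.2) x ∈ T.base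
  have huniq : ∀ x s s', Src s x → Src s' x → s = s' := by
    intro x s s' h h'
    have := T.inj (a₁ := (⟨_, h.2⟩, s)) (a₂ := (⟨_, h'.2⟩, s')) (by
      simp [place, h.1, h'.1, Amen.act_act, Amen.act_zero])
    exact (Prod.ext_iff.1 this).2
  let pick : S.X → Fin k × V := fun x =>
    if h : ∃ s, Src s x then
      (((σ ⟨_, h.choose_spec.2⟩).1 h.choose).1.1,
        ((σ ⟨_, h.choose_spec.2⟩).1 h.choose).1.2 - h.choose.1.2)
    else (i, 0)
  have hpick : ∀ x s (h : Src s x), pick x = (((σ ⟨_, h.2⟩).1 s).1.1, ((σ ⟨_, h.2⟩).1 s).1.2 - s.1.2) := by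
    intro x s h
    have hex : ∃ s, Src s x := ⟨s, h⟩
    obtain rfl := huniq x s _ h hex.choose_spec
    simp only [pick, dif_pos hex]
  have hopen : ∀ s, IsClopen {x | Src s x} := by
    intro s
    by_cases hi : s.1.1 = i
    · simp only [Src, hi, true_and]
      exact T.clopen.preimage (continuous_act (-s.1.2))
    · simp [Src, hi, isClopen_empty]
  have hlc : IsLocallyConstant pick := by
    refine (IsLocallyConstant.iff_exists_open _).2 fun x => ?_
    by_cases hx : ∃ s, Src s x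
    · obtain ⟨s, hs⟩ := hx
      have hcont : Continuous fun y : {y | Src s y} =>
          (⟨S.act (-s.1.2) y.1, y.2.2⟩ : T.base) :=
        Continuous.subtype_mk ((continuous_act _).comp continuous_subtype_val) _
      obtain ⟨U, hU, hxU, hUf⟩ := (IsLocallyConstant.iff_exists_open _).1
        (σ.isLocallyConstant.comp_continuous hcont) ⟨x, hs⟩
      refine ⟨Subtype.val '' U, (hopen s).2.isOpenMap_subtype_val U hU, ⟨_, hxU, rfl⟩, ?_⟩
      rintro _ ⟨⟨y, hy⟩, hyU, rfl⟩
      have hσ : σ ⟨_, hy.2⟩ = σ ⟨_, hs.2⟩ := hUf _ hyU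
      rw [hpick y s hy, hpick x s hs, hσ]
    · push Not at hx
      refine ⟨⋂ s, {y | Src s y}ᶜ, isOpen_iInter_of_finite fun s => (hopen s).compl.2,
        Set.mem_iInter.2 hx, fun y hy => ?_⟩
      have hy' : ¬ ∃ s, Src s y := fun ⟨s, hs⟩ => Set.mem_iInter.1 hy s hs
      have hx' : ¬ ∃ s, Src s x := fun ⟨s, hs⟩ => hx s hs
      show pick y = pick x
      simp only [pick]
      rw [dif_neg hx', dif_neg hy']
  refine ⟨fun x => (pick x).1, fun x => (pick x).2, hlc.comp Prod.fst, hlc.comp Prod.snd,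
    fun x => ?_⟩
  by_cases hx : ∃ s, Src s x
  · obtain ⟨s, hs⟩ := hx
    simp only
    rw [hpick x s hs]
    obtain ⟨b1, b2⟩ := hd _ s.2 _ ((σ ⟨_, hs.2⟩).1 s).2
    refine ⟨b1, b2, ?_⟩
    have he : T.emb (⟨_, hs.2⟩, s) = (i, x) := by
      simp [Tower.emb_apply, hs.1, Amen.act_act, Amen.act_zero]
    have := T.alt_emb σ ⟨_, hs.2⟩ s
    rw [he] at this
    rw [this, Tower.emb_apply, Amen.act_act, sub_eq_add_neg]
  · have hp : (i, x) ∉ Set.range T.emb := by
      rintro ⟨⟨c, s⟩, he⟩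
      simp only [Tower.emb_apply, Prod.mk.injEq] at he
      exact hx ⟨s, he.1, by rw [← he.2, Amen.act_act, neg_add_cancel, Amen.act_zero]; exact c.2⟩
    have h0 : pick x = (i, 0) := by simp only [pick]; rw [dif_neg hx]
    simp [h0, T.alt_of_notMem σ hp, Amen.act_zero]

lemma Tower.disp_alt (T : S.Tower k) {d : ℕ}
    (hd : ∀ s ∈ T.cells, ∀ s' ∈ T.cells, (s'.2 - s.2).1.natAbs ≤ d ∧ (s'.2 - s.2).2.natAbs ≤ d)
    (σ : LocallyConstant T.base (alternatingGroup T.cells)) : Disp (T.alt σ) d :=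
  ⟨T.moves_alt hd σ, by rw [← map_inv]; exact T.moves_alt hd σ⁻¹⟩

open scoped Classical in
/-- Conjugation by a map of displacement at most `d` moves a region into every fitting region
containing its `d`-neighbourhood. -/
lemma Cover.conj_mem_reg (Γ : S.Cover k) (L : S.Level) {F F' : Finset (Fin k × V)}
    (h' : L.Fits F') {d : ℕ} {h : Γ.H} (hh : Moves (Γ.proj h) d)
    (hsub : ∀ p ∈ F, ∀ (j : Fin k) (u : V), u.1.natAbs ≤ d → u.2.natAbs ≤ d → (j, p.2 + u) ∈ F')
    {x : Γ.H} (hx : x ∈ Γ.reg L F) : h * x * h⁻¹ ∈ Γ.reg L F' := by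
  by_cases hF : L.Fits F ∧ 5 ≤ F.card
  swap
  · simp only [Cover.reg, dif_neg hF, Subgroup.mem_bot] at hx
    simp [hx, one_mem]
  choose col dd hc hd he using hh
  let f : L.base → F → F' := fun c s =>
    ⟨(col s.1.1 (S.act s.1.2 c.1), s.1.2 + dd s.1.1 (S.act s.1.2 c.1)),
      hsub _ s.2 _ _ (he _ _).1 (he _ _).2.1⟩
  have heq : ∀ c s, Γ.proj h ((L.tower F hF.1).emb (c, s)) = (L.tower F' h').emb (c, f c s) := by
    intro c s
    refine (he _ _).2.2.trans (Prod.ext rfl ?_)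
    show S.act (dd _ (S.act s.1.2 c.1)) (S.act s.1.2 c.1) =
      S.act (s.1.2 + dd _ (S.act s.1.2 c.1)) c.1
    rw [Amen.act_act, add_comm]
  have hinj : ∀ c, Function.Injective (f c) := by
    intro c s s' e
    have := (Γ.proj h).injective ((heq c s).trans ((congrArg (fun t => (L.tower F' h').emb (c, t)) e).trans
      (heq c s').symm))
    exact (Prod.ext_iff.1 ((L.tower F hF.1).emb.injective this)).2
  have hlc : IsLocallyConstant fun c : L.base => (⟨f c, hinj c⟩ : F ↪ F') := by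
    refine IsLocallyConstant.desc _ (fun e : F ↪ F' => (e : F → F')) ?_ DFunLike.coe_injective
    refine (IsLocallyConstant.iff_exists_open _).2 fun c =>
      ⟨⋂ s : F, {c' | f c' s = f c s}, isOpen_iInter_of_finite fun s => ?_,
        Set.mem_iInter.2 fun s => rfl, fun c' hc' => funext fun s => Set.mem_iInter.1 hc' s⟩
    have h1 : IsLocallyConstant fun c : L.base => f c s := by
      refine IsLocallyConstant.desc _ (fun t : F' => t.1) ?_ Subtype.val_injective
      exact (((hc _).comp_continuous ((continuous_act _).comp continuous_subtype_val)).prodMk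
        (((hd _).comp_continuous ((continuous_act _).comp continuous_subtype_val)).comp
          (s.1.2 + ·)))
    exact h1.isOpen_fiber _
  have h5 : 5 ≤ F'.card := by
    rcases isEmpty_or_nonempty L.base with he' | ⟨⟨c⟩⟩
    · by_contra hlt
      obtain ⟨j, u⟩ := (Finset.card_pos.1 (by omega : 0 < F.card))
      have hinj' : Set.InjOn (fun p : Fin k × V => (p.1, p.2 + (0 : V))) F := fun p _ q _ e => by
        simpa using e
      exact hlt (hF.2.trans (Finset.card_le_card_of_injOn _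
        (fun p hp => hsub p hp p.1 0 (by simp) (by simp)) hinj'))
    · have := Fintype.card_le_of_injective _ (hinj c)
      simp only [Fintype.card_coe] at this
      omega
  rw [Γ.reg_eq L F hF.1 hF.2] at hx
  rw [Γ.reg_eq L F' h' h5]
  refine Γ.conj_mem_grp hF.2 h5 (h := h) (T := L.tower F hF.1) (T' := L.tower F' h')
    { v := 0
      base := fun c => by
        show S.act 0 c.1 ∈ L.base
        rw [Amen.act_zero]; exact c.2
      cell := ⟨fun c => ⟨f c, hinj c⟩, hlc⟩
      eq := fun c s => by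
        refine (heq c s).trans ?_
        refine congrArg (fun t => (L.tower F' h').emb t) (Prod.ext (Subtype.ext ?_) rfl)
        exact (Amen.act_zero _).symm } hx

end Vale.Agent.P196.SFT
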