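import Vale.Agent.P196.Cover.Grid

/-!
P196, module B: decompositions of elements of a cover at one level, and what sorting provides.
-/

namespace Vale.Agent.P196.SFT

variable {S : SFT} {k : ℕ}

/-- A tile part, two edge parts and a ball part, with displacement at most `d`. -/
structure Cover.Parts (Γ : S.Cover k) (L : S.Level) (r s d : ℕ) (f eh ev c : Γ.H) : Prop where
  tile : f ∈ Γ.reg L (L.tileIn k 0)
  edgeH : eh ∈ Γ.reg L (L.edgeH k r)
  edgeV : ev ∈ Γ.reg L (L.edgeV k r)
  ball : c ∈ Γ.reg L (L.ball k s)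
  disp_tile : Disp (Γ.proj f) d
  disp_edgeH : Disp (Γ.proj eh) d
  disp_edgeV : Disp (Γ.proj ev) d
  disp_ball : Disp (Γ.proj c) d

/-- Sorting: every element is, at every large level, a product of the four kinds of parts with
parameters independent of the level. -/
def SortStatement (S : SFT) : Prop :=
  ∀ k : ℕ, 1 ≤ k → ∀ (Γ : S.Cover k) (x : Γ.H), ∃ r s d K : ℕ, ∀ L : S.Level, K ≤ L.Q →
    ∃ f eh ev c, Γ.Parts L r s d f eh ev c ∧ x = f * eh * ev * c

end Vale.Agent.P196.SFT
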