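import Vale.Agent.P196.Cover.Flow

/-!
P196, module B: elements of a cover given by families of permutations of cells, and their
restriction to subregions.
-/

namespace Vale.Agent.P196.SFT

open Equiv Square

variable {S : SFT} {k : ℕ}

lemma Level.cpt_injective (L : S.Level) {F : Finset (Fin k × V)} (hF : L.Fits F) {b b' : L.base}
    {u u' : F} (h : L.cpt b u.1 = L.cpt b' u'.1) : b = b' ∧ u = u' := by
  have := (L.tower F hF).inj (a₁ := (b, u)) (a₂ := (b', u')) h
  exact Prod.ext_iff.1 this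

lemma Level.cpt_shift (L : S.Level) (w : V) (hw : L.cast w = 0) (b : L.base) (u : Fin k × V) :
    L.cpt (L.shift w hw b) (u.1, u.2 - w) = L.cpt b u := by
  refine Prod.ext rfl ?_
  show S.act (u.2 - w) (S.act w b.1) = _
  rw [Amen.act_act, sub_add_cancel]
  rfl

/-- A translation of the base is a homeomorphism. -/
lemma Level.continuous_shift (L : S.Level) (w : V) (hw : L.cast w = 0) :
    Continuous (L.shift w hw) :=
  Continuous.subtype_mk ((continuous_act w).comp continuous_subtype_val) _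

namespace Cover

variable (Γ : S.Cover k)

/-- Every family of even permutations of a region is realised. -/
lemma exists_reg (L : S.Level) {F : Finset (Fin k × V)} (hF : L.Fits F) (h5 : 5 ≤ F.card)
    (σ : LocallyConstant L.base (Perm F)) (hσ : ∀ b, Perm.sign (σ b) = 1) :
    ∃ x ∈ Γ.reg L F, ∀ (b : L.base) (u : F), Γ.proj x (L.cpt b u.1) = L.cpt b (σ b u).1 := by
  let σ' : LocallyConstant L.base (alternatingGroup F) :=
    ⟨fun b => ⟨σ b, Perm.mem_alternatingGroup.2 (hσ b)⟩,
      IsLocallyConstant.desc _ Subtype.val σ.isLocallyConstant Subtype.val_injective⟩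
  refine ⟨Γ.lift (L.tower F hF) h5 σ', ?_, fun b u => ?_⟩
  · rw [Γ.reg_eq L F hF h5]
    exact ⟨σ', rfl⟩
  · erw [Γ.proj_lift]
    exact (L.tower F hF).alt_emb σ' b u

/-- Every family of even permutations of the square is realised in the tile. -/
lemma exists_tileElt (hk : 1 ≤ k) (L : S.Level) (hQ : 5 ≤ L.Q)
    (π : LocallyConstant L.base (Perm (Sq k L.Q))) (hπ : ∀ b, Perm.sign (π b) = 1) :
    ∃ x ∈ Γ.reg L (L.tileIn k 0), ∀ b y, Γ.proj x (L.pt b y) = L.pt b (π b y) := by
  have h5 : 5 ≤ (L.tileIn k 0).card :=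
    five_le_card_rectCells hk (by simp; omega) (by simp; omega)
  obtain ⟨x, hx, h⟩ := Γ.exists_reg L L.fits_tile h5
    (π.map fun g => (L.sqEquiv (k := k)).permCongr g) (fun b => by
      simp only [LocallyConstant.map_apply, Function.comp_apply]
      rw [Perm.sign_permCongr, hπ])
  refine ⟨x, hx, fun b y => ?_⟩
  have h' := h b (L.sqEquiv y)
  simp only [LocallyConstant.map_apply, Function.comp_apply, Equiv.permCongr_apply,
    Equiv.symm_apply_apply] at h'
  exact h'

/-- Two elements of the tile agreeing on all positions are equal. -/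
lemma tile_ext (hk : 1 ≤ k) (L : S.Level) (hQ : 5 ≤ L.Q) {x y : Γ.H}
    (hx : x ∈ Γ.reg L (L.tileIn k 0)) (hy : y ∈ Γ.reg L (L.tileIn k 0))
    (h : ∀ b z, Γ.proj x (L.pt b z) = Γ.proj y (L.pt b z)) : x = y := by
  have h5 : 5 ≤ (L.tileIn k 0).card :=
    five_le_card_rectCells hk (by simp; omega) (by simp; omega)
  rw [Γ.reg_eq L _ L.fits_tile h5] at hx hy
  refine Γ.proj_injOn _ _ hx hy (Equiv.ext fun p => ?_)
  obtain ⟨b, z, rfl⟩ := L.exists_pt p
  exact h b z

/-- An element supported in a subregion lies in the group of the subregion. -/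
lemma mem_of_supp (L : S.Level) {F F0 : Finset (Fin k × V)} (hF0 : L.Fits F0) (hsub : F ⊆ F0)
    (h5 : 5 ≤ F.card) {x : Γ.H} (hx : x ∈ Γ.reg L F0)
    (hsupp : ∀ (b : L.base), ∀ u ∈ F0, Γ.proj x (L.cpt b u) ≠ L.cpt b u → u ∈ F) :
    x ∈ Γ.reg L F := by
  classical
  have hF : L.Fits F := fun p hp q hq => hF0 p (hsub hp) q (hsub hq)
  have h50 : 5 ≤ F0.card := h5.trans (Finset.card_le_card hsub)
  obtain ⟨σ, hσ⟩ := Γ.reg_rep L hF0 h50 hx
  let ι : F ↪ F0 := ⟨fun u => ⟨u.1, hsub u.2⟩, fun u v e => Subtype.ext (by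
    simpa using congrArg Subtype.val e)⟩
  have hout : ∀ b (u : F0), (σ b).1 u ≠ u → u.1 ∈ F := fun b u hu =>
    hsupp b u.1 u.2 fun h => hu (L.cpt_injective hF0 (((hσ b u).symm.trans h))).2
  have hex : ∀ b, ∃ τ : Perm F, τ.viaEmbedding ι = (σ b).1 := by
    intro b
    have hin : ∀ u : F0, u.1 ∈ F → ((σ b).1 u).1 ∈ F := by
      intro u hu
      by_cases h : (σ b).1 u = u
      · rw [h]; exact hu
      · exact hout b _ fun h' => h ((σ b).1.injective h')
    have hin' : ∀ u : F0, ((σ b).1 u).1 ∈ F → u.1 ∈ F := by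
      intro u hu
      by_cases h : (σ b).1 u = u
      · rwa [h] at hu
      · exact hout b _ h
    refine ⟨{ toFun := fun u => ⟨((σ b).1 (ι u)).1, hin _ u.2⟩
              invFun := fun u => ⟨((σ b).1.symm (ι u)).1, hin' _ (by rw [Equiv.apply_symm_apply]; exact u.2)⟩
              left_inv := fun u => by
                apply Subtype.ext
                have h := congrArg Subtype.val ((σ b).1.symm_apply_apply (ι u))
                exact h
              right_inv := fun u => by
                apply Subtype.ext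
                have h := congrArg Subtype.val ((σ b).1.apply_symm_apply (ι u))
                exact h }, Equiv.ext fun v => ?_⟩
    by_cases hv : v.1 ∈ F
    · show Perm.viaEmbedding _ ι (ι ⟨v.1, hv⟩) = _
      rw [Perm.viaEmbedding_apply]
      rfl
    · rw [Perm.viaEmbedding_apply_of_notMem _ _ _ (by rintro ⟨u, rfl⟩; exact hv u.2)]
      by_contra h
      exact hv (hout b v fun h' => h h'.symm)
  choose τ hτ using hex
  have hlc : IsLocallyConstant τ :=
    IsLocallyConstant.desc _ (Perm.viaEmbeddingHom ι) (by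
      have e : Perm.viaEmbeddingHom ι ∘ τ = Subtype.val ∘ σ := funext hτ
      rw [e]
      exact σ.isLocallyConstant.comp _) (Perm.viaEmbeddingHom_injective ι)
  obtain ⟨y, hy, hy'⟩ := Γ.exists_reg L hF h5 ⟨τ, hlc⟩ fun b => by
    have := sign_viaEmbedding ι (τ b)
    rw [hτ, Perm.mem_alternatingGroup.1 (σ b).2] at this
    exact this.symm
  have hy0 := Γ.reg_mono L hF0 hsub hy
  suffices x = y by rw [this]; exact hy
  rw [Γ.reg_eq L F0 hF0 h50] at hx hy0
  refine Γ.proj_injOn _ _ hx hy0 (Equiv.ext fun p => ?_)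
  by_cases hp : p ∈ Set.range (L.tower F0 hF0).emb
  · obtain ⟨⟨b, u⟩, rfl⟩ := hp
    show Γ.proj x (L.cpt b u.1) = Γ.proj y (L.cpt b u.1)
    by_cases hu : u.1 ∈ F
    · refine (hσ b u).trans (Eq.trans ?_ (hy' b ⟨u.1, hu⟩).symm)
      refine congrArg (L.cpt b) ?_
      show ((σ b).1 (ι ⟨u.1, hu⟩)).1 = _
      rw [← hτ b, Perm.viaEmbedding_apply]
      rfl
    · have h1 : Γ.proj x (L.cpt b u.1) = L.cpt b u.1 := by
        by_contra h; exact hu (hsupp b u.1 u.2 h)
      rw [h1]
      by_contra h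
      rw [← Γ.reg_eq L F0 hF0 h50] at hy0
      obtain ⟨b', v, hv, he⟩ := Γ.reg_moved L hy (Ne.symm h)
      have := (L.cpt_injective hF0 (u := u) (u' := ⟨v, hsub hv⟩) he).2
      exact hu (by rw [this]; exact hv)
  · obtain ⟨σ1, rfl⟩ := hx
    obtain ⟨σ2, rfl⟩ := hy0
    erw [Γ.proj_lift, Γ.proj_lift, Tower.alt_of_notMem _ _ hp, Tower.alt_of_notMem _ _ hp]

end Cover

end Vale.Agent.P196.SFT
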