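import Vale.Agent.P196.Cover.Level
import Vale.Agent.P196.Cover.Parts

/-!
P196, module B: sorting. Every element of a cover is, at every large level, a product of a part
in the tile, two parts along the edges and a part in a ball around the corner, with parameters
independent of the level.
-/

namespace Vale.Agent.P196.SFT

open Equiv

variable {S : SFT} {k : ℕ}

/-! ### Restricting a family to positions -/

open scoped Classical in
/-- The family restricted to the base points whose position satisfies `P`. -/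
noncomputable def Tower.restrAt (T : S.Tower k) (L : S.Level) (P : V → Prop)
    (σ : LocallyConstant T.base (alternatingGroup T.cells)) :
    LocallyConstant T.base (alternatingGroup T.cells) where
  toFun c := if P (L.rep c.1) then σ c else 1
  isLocallyConstant := IsLocallyConstant.comp₂
    (L.isLocallyConstant_rep.comp_continuous continuous_subtype_val) σ.isLocallyConstant
    fun v a => if P v then a else 1

/-- The subtower over the base points at position `p`. -/
@[reducible] def Tower.piece (T : S.Tower k) (L : S.Level) (p : V) : S.Tower k where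
  base := T.base ∩ {x | L.rep x = p}
  clopen := T.clopen.inter (L.isLocallyConstant_rep.isClopen_fiber p)
  cells := T.cells
  inj := by
    rintro ⟨c, s⟩ ⟨c', s'⟩ h
    have := T.inj (a₁ := (⟨c.1, c.2.1⟩, s)) (a₂ := (⟨c'.1, c'.2.1⟩, s')) h
    simp only [Prod.mk.injEq, Subtype.mk.injEq] at this
    exact Prod.ext (Subtype.ext this.1) this.2

/-- A family on a subtower. -/
def Tower.toPiece (T : S.Tower k) (L : S.Level) (p : V)
    (σ : LocallyConstant T.base (alternatingGroup T.cells)) :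
    LocallyConstant (T.piece L p).base (alternatingGroup (T.piece L p).cells) :=
  ⟨fun c => σ ⟨c.1, c.2.1⟩, σ.isLocallyConstant.comp_continuous
    (Continuous.subtype_mk continuous_subtype_val _)⟩

/-- The inclusion of a subtower. -/
def Tower.pieceInto (T : S.Tower k) (L : S.Level) (p : V) :
    Tower.Into (1 : Perm (Fin k × S.X)) (T.piece L p) T where
  v := 0
  base c := by rw [Amen.act_zero]; exact c.2.1
  cell := LocallyConstant.const _ (Function.Embedding.refl _)
  eq c s := Prod.ext rfl (by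
    show S.act s.1.2 c.1 = S.act s.1.2 (S.act 0 c.1)
    rw [Amen.act_zero])

namespace Cover

variable (Γ : S.Cover k)

lemma lift_restrAt_mem_piece (T : S.Tower k) (hT : 5 ≤ T.cells.card) (L : S.Level) (p : V)
    (σ : LocallyConstant T.base (alternatingGroup T.cells)) :
    Γ.lift T hT (T.restrAt L (fun v => v = p) σ) ∈ Γ.grp (T.piece L p) hT := by
  set τ := T.toPiece L p σ with hτ
  have hmem : Γ.lift (T.piece L p) hT τ ∈ Γ.grp T hT :=
    Γ.grp_mono (T := T.piece L p) (T' := T) hT hT (T.pieceInto L p) ⟨τ, rfl⟩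
  refine ⟨τ, Γ.proj_injOn T hT hmem ⟨_, rfl⟩ ?_⟩
  rw [Γ.proj_lift, Γ.proj_lift]
  refine Equiv.ext fun q => ?_
  by_cases hq : q ∈ Set.range T.emb
  · obtain ⟨⟨c, s⟩, rfl⟩ := hq
    rw [T.alt_emb]
    by_cases hc : L.rep c.1 = p
    · have := (T.piece L p).alt_emb τ ⟨c.1, c.2, hc⟩ s
      refine this.trans ?_
      simp [Tower.restrAt, hc, τ, Tower.toPiece]
      rfl
    · rw [(T.piece L p).alt_of_notMem]
      · simp [Tower.restrAt, hc]
      · rintro ⟨⟨c', s'⟩, he⟩
        have := T.inj (a₁ := (⟨c'.1, c'.2.1⟩, s')) (a₂ := (c, s)) he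
        simp only [Prod.mk.injEq] at this
        exact hc (by rw [← this.1]; exact c'.2.2)
  · rw [T.alt_of_notMem _ hq, (T.piece L p).alt_of_notMem]
    rintro ⟨⟨c', s'⟩, rfl⟩
    exact hq ⟨(⟨c'.1, c'.2.1⟩, s'), rfl⟩

/-- A lift supported at positions that shift into a region lies in the group of the region. -/
lemma lift_restrAt_mem (T : S.Tower k) (hT : 5 ≤ T.cells.card) (L : S.Level) (P : V → Prop)
    (g : V → V) {F : Finset (Fin k × V)} (hF : L.Fits F)
    (hg : ∀ p : V, 0 ≤ p.1 → p.1 < L.Q → 0 ≤ p.2 → p.2 < L.Q → P p → L.cast (g p) = L.cast p)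
    (hmem : ∀ p : V, 0 ≤ p.1 → p.1 < L.Q → 0 ≤ p.2 → p.2 < L.Q → P p →
      ∀ s ∈ T.cells, (s.1, s.2 + g p) ∈ F)
    (σ : LocallyConstant T.base (alternatingGroup T.cells)) :
    Γ.lift T hT (T.restrAt L P σ) ∈ Γ.reg L F := by
  classical
  set box := Finset.Ico 0 (L.Q : ℤ) ×ˢ Finset.Ico 0 (L.Q : ℤ) with hbox
  have one : ∀ p, P p → p ∈ box →
      Γ.lift T hT (T.restrAt L (fun v => v = p) σ) ∈ Γ.reg L F := by
    intro p hp hpb
    simp only [hbox, Finset.mem_product, Finset.mem_Ico] at hpb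
    obtain ⟨⟨r1, r2⟩, r3, r4⟩ := hpb
    have hmem := hmem p r1 r2 r3 r4 hp
    have hg := hg p r1 r2 r3 r4 hp
    have h5 : 5 ≤ F.card := hT.trans (Finset.card_le_card_of_injOn (fun s => (s.1, s.2 + g p)) hmem
      fun s _ t _ e => by simpa [Prod.ext_iff] using e)
    rw [Γ.reg_eq L F hF h5]
    let m : Tower.Into (1 : Perm (Fin k × S.X)) (T.piece L p) (L.tower F hF) :=
      { v := -g p
        base := fun c => by
          show L.pos (S.act (-g p) c.1) = 0
          have hc : L.rep c.1 = p := c.2.2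
          rw [L.pos_act', ← L.cast_rep c.1, hc, ← hg]
          simp [Level.cast]
        cell := LocallyConstant.const _
          ⟨fun s => ⟨(s.1.1, s.1.2 + g p), hmem _ s.2⟩, fun s t e => by
            have := congrArg Subtype.val e
            simp only [Prod.ext_iff, add_left_inj] at this
            exact Subtype.ext (Prod.ext this.1 (Prod.ext this.2.1 this.2.2))⟩
        eq := fun c s => Prod.ext rfl (by
          show S.act s.1.2 c.1 = S.act (s.1.2 + g p) (S.act (-g p) c.1)
          rw [Amen.act_act, add_neg_cancel_right]) }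
    exact Γ.grp_mono _ _ m (Γ.lift_restrAt_mem_piece T hT L p σ)
  have key : ∀ A : Finset V, A ⊆ box →
      Γ.lift T hT (T.restrAt L (fun v => P v ∧ v ∈ A) σ) ∈ Γ.reg L F := by
    intro A
    induction A using Finset.induction_on with
    | empty =>
      intro _
      have : T.restrAt L (fun v => P v ∧ v ∈ (∅ : Finset V)) σ = 1 :=
        LocallyConstant.ext fun c => by simp [Tower.restrAt]
      rw [this, map_one]; exact one_mem _
    | @insert p A hp ih =>
      intro hsub
      have ih := ih ((Finset.subset_insert p A).trans hsub)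
      by_cases hP : P p
      · have : T.restrAt L (fun v => P v ∧ v ∈ insert p A) σ =
            T.restrAt L (fun v => v = p) σ * T.restrAt L (fun v => P v ∧ v ∈ A) σ := by
          refine LocallyConstant.ext fun c => ?_
          by_cases hc : L.rep c.1 = p
          · simp [Tower.restrAt, hc, hP, hp]
          · simp [Tower.restrAt, hc]
        rw [this, map_mul]
        exact mul_mem (one p hP (hsub (Finset.mem_insert_self p A))) ih
      · have : T.restrAt L (fun v => P v ∧ v ∈ insert p A) σ =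
            T.restrAt L (fun v => P v ∧ v ∈ A) σ := by
          refine LocallyConstant.ext fun c => ?_
          by_cases hc : L.rep c.1 = p
          · simp [Tower.restrAt, hc, hP]
          · simp [Tower.restrAt, hc]
        rw [this]; exact ih
  have := key box subset_rfl
  convert this using 2
  refine LocallyConstant.ext fun c => ?_
  have hin : L.rep c.1 ∈ Finset.Ico 0 (L.Q : ℤ) ×ˢ Finset.Ico 0 (L.Q : ℤ) := by
    simp only [Finset.mem_product, Finset.mem_Ico]
    exact ⟨⟨(L.rep_nonneg _).1, (L.rep_lt _).1⟩, (L.rep_nonneg _).2, (L.rep_lt _).2⟩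
  simp only [hbox, Tower.restrAt, LocallyConstant.coe_mk, hin, and_true]

end Cover

/-! ### The four classes of positions -/

/-- The centred representative. -/
def Level.cen (L : S.Level) (a : ℤ) : ℤ := if 2 * a ≤ L.Q then a else a - L.Q

/-- The centred representative is small. -/
def Level.Small (L : S.Level) (M : ℕ) (a : ℤ) : Prop := (L.cen a).natAbs ≤ M

/-- Positions near the corner. -/
def Level.InBall (L : S.Level) (p : V) : Prop := L.Small (L.Q / 8) p.1 ∧ L.Small (L.Q / 8) p.2

/-- Positions near the horizontal edge. -/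
def Level.InH (L : S.Level) (M : ℕ) (p : V) : Prop := ¬L.InBall p ∧ L.Small M p.2

/-- Positions near the vertical edge. -/
def Level.InV (L : S.Level) (M : ℕ) (p : V) : Prop :=
  ¬L.InBall p ∧ ¬L.Small M p.2 ∧ L.Small M p.1

/-- Positions inside the tile. -/
def Level.InTile (L : S.Level) (M : ℕ) (p : V) : Prop :=
  ¬L.InBall p ∧ ¬L.Small M p.2 ∧ ¬L.Small M p.1

lemma Level.cast_cen₁ (L : S.Level) (a b : ℤ) : L.cast (L.cen a, b) = L.cast (a, b) := by
  unfold Level.cen; split_ifs <;> simp [Level.cast]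

lemma Level.cast_cen₂ (L : S.Level) (a b : ℤ) : L.cast (a, L.cen b) = L.cast (a, b) := by
  unfold Level.cen; split_ifs <;> simp [Level.cast]

/-- A bound for the vectors of the cells. -/
def Tower.radius (T : S.Tower k) : ℕ := T.cells.sup fun s => max s.2.1.natAbs s.2.2.natAbs

lemma Tower.le_radius (T : S.Tower k) {s : Fin k × V} (hs : s ∈ T.cells) :
    s.2.1.natAbs ≤ T.radius ∧ s.2.2.natAbs ≤ T.radius := by
  have h : max s.2.1.natAbs s.2.2.natAbs ≤ T.radius :=
    Finset.le_sup (f := fun s : Fin k × V => max s.2.1.natAbs s.2.2.natAbs) hs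
  omega

lemma Tower.disp_alt' (T : S.Tower k) (σ : LocallyConstant T.base (alternatingGroup T.cells))
    {d : ℕ} (hd : 2 * T.radius ≤ d) : Disp (T.alt σ) d :=
  T.disp_alt (fun s hs s' hs' => by
    have := T.le_radius hs
    have := T.le_radius hs'
    simp only [Prod.fst_sub, Prod.snd_sub]
    omega) σ

/-! ### Parts with margins -/

/-- Parts at a level with margin parameter `M` and slack `C`. -/
structure Cover.Sorted (Γ : S.Cover k) (L : S.Level) (M C : ℕ) (f eh ev c : Γ.H) : Prop where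
  tile : f ∈ Γ.reg L (L.tileIn k (M - C))
  edgeH : eh ∈ Γ.reg L (L.edgeH k (M + C))
  edgeV : ev ∈ Γ.reg L (L.edgeV k (M + C))
  ball : c ∈ Γ.reg L (L.ball k C)
  disp_tile : Disp (Γ.proj f) C
  disp_edgeH : Disp (Γ.proj eh) C
  disp_edgeV : Disp (Γ.proj ev) C
  disp_ball : Disp (Γ.proj c) C

/-- `x` can be sorted with slack `C`. -/
def Cover.CanSort (Γ : S.Cover k) (x : Γ.H) (C : ℕ) : Prop :=
  ∀ M, C ≤ M → ∀ L : S.Level, 64 * (M + C + 8) ≤ L.Q →
    ∃ f eh ev c, Γ.Sorted L M C f eh ev c ∧ x = f * eh * ev * c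

lemma Level.fits_tileIn (L : S.Level) (m : ℕ) : L.Fits (L.tileIn k m) :=
  L.fits_rectCells (by omega) (by omega)

lemma Level.fits_edgeH (L : S.Level) {r : ℕ} (h : 2 * r ≤ L.Q) : L.Fits (L.edgeH k r) :=
  L.fits_rectCells (by omega) (by omega)

lemma Level.fits_edgeV (L : S.Level) {r : ℕ} (h : 2 * r ≤ L.Q) : L.Fits (L.edgeV k r) :=
  L.fits_rectCells (by omega) (by omega)

lemma Level.fits_ball (L : S.Level) {s : ℕ} (h : 4 * s ≤ L.Q) : L.Fits (L.ball k s) :=
  L.fits_rectCells (by omega) (by omega)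

lemma rectCells_subset {a₁ a₂ b₁ b₂ a₁' a₂' b₁' b₂' : ℤ} (h1 : a₁' ≤ a₁) (h2 : a₂ ≤ a₂')
    (h3 : b₁' ≤ b₁) (h4 : b₂ ≤ b₂') :
    rectCells k a₁ a₂ b₁ b₂ ⊆ rectCells k a₁' a₂' b₁' b₂' := by
  intro p hp
  rw [mem_rectCells] at hp ⊢
  omega

namespace Cover

variable (Γ : S.Cover k)

/-- One generator can be sorted. -/
lemma canSort_lift (T : S.Tower k) (hT : 5 ≤ T.cells.card)
    (σ : LocallyConstant T.base (alternatingGroup T.cells)) :
    Γ.CanSort (Γ.lift T hT σ) (2 * T.radius + 1) := by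
  intro M hM L hQ
  have hdisp : ∀ τ, Disp (Γ.proj (Γ.lift T hT τ)) (2 * T.radius + 1) := fun τ => by
    rw [Γ.proj_lift]; exact T.disp_alt' τ (by omega)
  refine ⟨Γ.lift T hT (T.restrAt L (L.InTile M) σ), Γ.lift T hT (T.restrAt L (L.InH M) σ),
    Γ.lift T hT (T.restrAt L (L.InV M) σ), Γ.lift T hT (T.restrAt L L.InBall σ),
    ⟨?_, ?_, ?_, ?_, hdisp _, hdisp _, hdisp _, hdisp _⟩, ?_⟩
  · refine Γ.lift_restrAt_mem T hT L _ id (L.fits_tileIn _) (fun _ _ _ _ _ _ => rfl) ?_ σ
    rintro p r1 r2 r3 r4 ⟨-, h2, h1⟩ s hs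
    have := T.le_radius hs
    simp only [Level.Small, Level.cen] at h1 h2
    simp only [Level.tileIn, mem_rectCells, id, Prod.fst_add, Prod.snd_add]
    split_ifs at h1 h2 <;> omega
  · refine Γ.lift_restrAt_mem T hT L _ (fun p => (p.1, L.cen p.2)) (L.fits_edgeH (by omega))
      (fun p _ _ _ _ _ => L.cast_cen₂ _ _) ?_ σ
    rintro p r1 r2 r3 r4 ⟨hb, h2⟩ s hs
    have := T.le_radius hs
    simp only [Level.InBall, Level.Small, Level.cen, not_and_or] at hb h2
    simp only [Level.edgeH, mem_rectCells, Level.cen, Prod.fst_add, Prod.snd_add]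
    split_ifs at hb h2 ⊢ <;> omega
  · refine Γ.lift_restrAt_mem T hT L _ (fun p => (L.cen p.1, p.2)) (L.fits_edgeV (by omega))
      (fun p _ _ _ _ _ => L.cast_cen₁ _ _) ?_ σ
    rintro p r1 r2 r3 r4 ⟨hb, -, h1⟩ s hs
    have := T.le_radius hs
    simp only [Level.InBall, Level.Small, Level.cen, not_and_or] at hb h1
    simp only [Level.edgeV, mem_rectCells, Level.cen, Prod.fst_add, Prod.snd_add]
    split_ifs at hb h1 ⊢ <;> omega
  · refine Γ.lift_restrAt_mem T hT L _ (fun p => (L.cen p.1, L.cen p.2)) (L.fits_ball (by omega))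
      (fun p _ _ _ _ _ => by rw [L.cast_cen₁, L.cast_cen₂]) ?_ σ
    rintro p r1 r2 r3 r4 ⟨h1, h2⟩ s hs
    have := T.le_radius hs
    simp only [Level.Small] at h1 h2
    simp only [Level.ball, mem_rectCells, Prod.fst_add, Prod.snd_add]
    omega
  · rw [← map_mul, ← map_mul, ← map_mul]
    congr 1
    refine LocallyConstant.ext fun c => ?_
    simp only [LocallyConstant.mul_apply, Tower.restrAt, LocallyConstant.coe_mk, Level.InTile,
      Level.InH, Level.InV]
    by_cases hb : L.InBall (L.rep c.1) <;> by_cases h2 : L.Small M (L.rep c.1).2 <;>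
      by_cases h1 : L.Small M (L.rep c.1).1 <;> simp [hb, h1, h2]

/-- Composition keeps the sorting. -/
lemma canSort_mul {a x : Γ.H} {A C : ℕ} (ha : Γ.CanSort a A) (hx : Γ.CanSort x C) :
    Γ.CanSort (a * x) (6 * C + 8 * A + 1) := by
  intro M hM L hQ
  obtain ⟨aI, ah, av, aC, hA, rfl⟩ := ha M (by omega) L (by omega)
  obtain ⟨f, eh, ev, c, hX, rfl⟩ := hx M (by omega) L (by omega)
  obtain ⟨a1, a2, a3, a4, b1, b2, b3, b4⟩ := hA
  obtain ⟨x1, x2, x3, x4, y1, y2, y3, y4⟩ := hX
  set g := ah * av * aC with hg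
  have hgd : Disp (Γ.proj g) (A + A + A) := by
    rw [hg, map_mul, map_mul]; exact (b2.mul b3).mul b4
  have hed : Disp (Γ.proj (eh * ev)⁻¹) (C + C) := by
    rw [map_inv, map_mul]; exact (y2.mul y3).inv
  have hf : g * f * g⁻¹ ∈ Γ.reg L (L.tileIn k (M - C - (A + A + A))) := by
    refine Γ.conj_mem_reg L (L.fits_tileIn _) hgd.1 (fun p hp j u u1 u2 => ?_) x1
    simp only [Level.tileIn, mem_rectCells, Prod.fst_add, Prod.snd_add] at hp ⊢
    omega
  have hc : (eh * ev)⁻¹ * aC * ((eh * ev)⁻¹)⁻¹ ∈ Γ.reg L (L.ball k (A + (C + C))) := by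
    refine Γ.conj_mem_reg L (L.fits_ball (by omega)) hed.1 (fun p hp j u u1 u2 => ?_) a4
    simp only [Level.ball, mem_rectCells, Prod.fst_add, Prod.snd_add] at hp ⊢
    omega
  have hcomm : Commute av eh := by
    refine Γ.commute_reg L (fun p hp q hq _ he => ?_) a3 x2
    simp only [Level.edgeV, Level.edgeH, mem_rectCells] at hp hq
    simp only [Level.cast, Prod.mk.injEq] at he
    have := L.eq_of_cast he.1 (by omega) (by omega)
    omega
  refine ⟨aI * (g * f * g⁻¹), ah * eh, av * ev,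
    (eh * ev)⁻¹ * aC * ((eh * ev)⁻¹)⁻¹ * c, ⟨?_, ?_, ?_, ?_, ?_, ?_, ?_, ?_⟩, ?_⟩
  · refine mul_mem ?_ (Γ.reg_mono L (L.fits_tileIn _) ?_ hf) <;>
      [refine Γ.reg_mono L (L.fits_tileIn _) ?_ a1; skip] <;>
      exact rectCells_subset (by omega) (by omega) (by omega) (by omega)
  · refine mul_mem (Γ.reg_mono L (L.fits_edgeH (by omega)) ?_ a2)
      (Γ.reg_mono L (L.fits_edgeH (by omega)) ?_ x2) <;>
      exact rectCells_subset le_rfl le_rfl (by omega) (by omega)
  · refine mul_mem (Γ.reg_mono L (L.fits_edgeV (by omega)) ?_ a3)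
      (Γ.reg_mono L (L.fits_edgeV (by omega)) ?_ x3) <;>
      exact rectCells_subset (by omega) (by omega) le_rfl le_rfl
  · refine mul_mem (Γ.reg_mono L (L.fits_ball (by omega)) ?_ hc)
      (Γ.reg_mono L (L.fits_ball (by omega)) ?_ x4) <;>
      exact rectCells_subset (by omega) (by omega) (by omega) (by omega)
  · simp only [map_mul, map_inv]
    exact (b1.mul ((hgd.mul y1).mul hgd.inv)).mono (by omega)
  · simp only [map_mul]; exact (b2.mul y2).mono (by omega)
  · simp only [map_mul]; exact (b3.mul y3).mono (by omega)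
  · have h := ((hed.mul b4).mul hed.inv).mul y4
    simp only [map_mul, map_inv] at h ⊢
    exact h.mono (by omega)
  · calc aI * ah * av * aC * (f * eh * ev * c)
        = aI * (g * f * g⁻¹) * (ah * av * eh * ev) * ((eh * ev)⁻¹ * aC * ((eh * ev)⁻¹)⁻¹ * c) := by
          rw [hg]; group
      _ = aI * (g * f * g⁻¹) * (ah * eh) * (av * ev) *
            ((eh * ev)⁻¹ * aC * ((eh * ev)⁻¹)⁻¹ * c) := by
          rw [show ah * av * eh * ev = ah * eh * (av * ev) by
            rw [mul_assoc ah av eh, hcomm.eq]; group]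
          group

/-- Every element can be sorted. -/
lemma exists_canSort (x : Γ.H) : ∃ C, Γ.CanSort x C := by
  have hx : x ∈ Subgroup.closure
      {h | ∃ (T : S.Tower k) (hT : 5 ≤ T.cells.card), h ∈ Set.range (Γ.lift T hT)} := by
    rw [Γ.generated]; trivial
  induction hx using Subgroup.closure_induction_left with
  | one =>
    refine ⟨0, fun M _ L _ => ⟨1, 1, 1, 1, ⟨one_mem _, one_mem _, one_mem _, one_mem _,
      ?_, ?_, ?_, ?_⟩, by simp⟩⟩ <;> rw [map_one] <;> exact Disp.one 0
  | mul_left a ha x _ ih =>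
    obtain ⟨T, hT, σ, rfl⟩ := ha
    obtain ⟨C, hC⟩ := ih
    exact ⟨_, Γ.canSort_mul (Γ.canSort_lift T hT σ) hC⟩
  | inv_mul_cancel a ha x _ ih =>
    obtain ⟨T, hT, σ, rfl⟩ := ha
    obtain ⟨C, hC⟩ := ih
    rw [← map_inv]
    exact ⟨_, Γ.canSort_mul (Γ.canSort_lift T hT σ⁻¹) hC⟩

end Cover

/-- Sorting holds in every subshift. -/
theorem sortStatement (S : SFT) : SortStatement S := by
  intro k _ Γ x
  obtain ⟨C, hC⟩ := Γ.exists_canSort x
  refine ⟨C + C, C, C, 64 * (C + C + 8), fun L hL => ?_⟩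
  obtain ⟨f, eh, ev, c, ⟨h1, h2, h3, h4, h5, h6, h7, h8⟩, hx⟩ := hC C le_rfl L hL
  refine ⟨f, eh, ev, c, ⟨?_, h2, h3, h4, h5, h6, h7, h8⟩, hx⟩
  simpa using h1

end Vale.Agent.P196.SFT
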