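import Mathlib
import Vale.Agent.P196.Defs

/-!
P196, module B: towers, their permutation groups, and the interface of a cover.

A tower is a clopen base together with finitely many cells `(i, v)` whose translates
`(i, act v c)`, `c` in the base, are pairwise distinct. A cover is a central extension of a group
of permutations in which the alternating group of every tower with at least five cells lifts.
-/

namespace Vale.Agent.P196.SFT

variable (S : SFT) {k : ℕ}

/-- The point of `Fin k × X` given by a base point and a cell. -/
def place (U : Set S.X) (F : Finset (Fin k × V)) (p : U × F) : Fin k × S.X :=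
  (p.2.1.1, S.act p.2.1.2 p.1.1)

/-- A clopen base with finitely many disjointly placed cells. -/
structure Tower (k : ℕ) where
  base : Set S.X
  clopen : IsClopen base
  cells : Finset (Fin k × V)
  inj : Function.Injective (S.place base cells)

variable {S}

/-- The placing map of a tower, as an embedding. -/
def Tower.emb (T : S.Tower k) : T.base × T.cells ↪ Fin k × S.X := ⟨S.place T.base T.cells, T.inj⟩

lemma Tower.emb_apply (T : S.Tower k) (c : T.base) (s : T.cells) :
    T.emb (c, s) = (s.1.1, S.act s.1.2 c.1) := rfl

/-- A locally constant family of permutations of the cells, acting on the tower. -/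
noncomputable def Tower.perm (T : S.Tower k) :
    LocallyConstant T.base (Equiv.Perm T.cells) →* Equiv.Perm (Fin k × S.X) :=
  (Equiv.Perm.viaEmbeddingHom T.emb).comp
    { toFun := fun σ => Equiv.prodShear (Equiv.refl T.base) (fun c => σ c)
      map_one' := by ext p <;> rfl
      map_mul' := by intro a b; ext p <;> rfl }

lemma Tower.perm_emb (T : S.Tower k) (σ : LocallyConstant T.base (Equiv.Perm T.cells))
    (c : T.base) (s : T.cells) : T.perm σ (T.emb (c, s)) = T.emb (c, σ c s) :=
  Equiv.Perm.viaEmbedding_apply _ _ _

lemma Tower.perm_of_notMem (T : S.Tower k) (σ : LocallyConstant T.base (Equiv.Perm T.cells))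
    {p : Fin k × S.X} (hp : p ∉ Set.range T.emb) : T.perm σ p = p :=
  Equiv.Perm.viaEmbedding_apply_of_notMem _ _ _ hp

/-- The inclusion of the families of even permutations. -/
def Tower.evenIncl (T : S.Tower k) :
    LocallyConstant T.base (alternatingGroup T.cells) →*
      LocallyConstant T.base (Equiv.Perm T.cells) where
  toFun σ := σ.map Subtype.val
  map_one' := rfl
  map_mul' _ _ := rfl

/-- A locally constant family of even permutations of the cells, acting on the tower. -/
noncomputable def Tower.alt (T : S.Tower k) :
    LocallyConstant T.base (alternatingGroup T.cells) →* Equiv.Perm (Fin k × S.X) :=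
  T.perm.comp T.evenIncl

lemma Tower.alt_emb (T : S.Tower k) (σ : LocallyConstant T.base (alternatingGroup T.cells))
    (c : T.base) (s : T.cells) : T.alt σ (T.emb (c, s)) = T.emb (c, (σ c).1 s) :=
  T.perm_emb _ c s

variable (S) in
/-- A central extension of a group of permutations generated by lifts of the alternating groups
of towers. -/
structure Cover (k : ℕ) where
  H : Type
  [group : Group H]
  proj : H →* Equiv.Perm (Fin k × S.X)
  central : proj.ker ≤ Subgroup.center H
  lift : ∀ T : S.Tower k, 5 ≤ T.cells.card →
    LocallyConstant T.base (alternatingGroup T.cells) →* H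
  proj_lift : ∀ (T : S.Tower k) (hT : 5 ≤ T.cells.card)
    (σ : LocallyConstant T.base (alternatingGroup T.cells)), proj (lift T hT σ) = T.alt σ
  generated : Subgroup.closure
    {h | ∃ (T : S.Tower k) (hT : 5 ≤ T.cells.card), h ∈ Set.range (lift T hT)} = ⊤

attribute [instance] Cover.group

variable (S) in
/-- What the kernel bound provides: with an odometer and trivial first cohomology mod 2, the
kernel of every cover is cyclic. -/
def KernelStatement : Prop :=
  ∀ (_ : S.Odometer), S.MinimalFree → S.CocyclesModTwoTrivial →
    ∀ k : ℕ, 1 ≤ k → ∀ Γ : S.Cover k, ∃ z : Γ.H, Γ.proj.ker = Subgroup.zpowers z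

/-- The quotient of a finitely presented cover by a cyclic kernel is finitely presented. -/
lemma Cover.finitelyPresented_range (Γ : S.Cover k) [Group.IsFinitelyPresented Γ.H]
    (hz : ∃ z : Γ.H, Γ.proj.ker = Subgroup.zpowers z) :
    Group.IsFinitelyPresented Γ.proj.range := by
  obtain ⟨z, hz⟩ := hz
  apply Group.IsFinitelyPresented.of_surjective Γ.proj.rangeRestrict
    Γ.proj.rangeRestrict_surjective
  rw [MonoidHom.ker_rangeRestrict, hz]
  refine ⟨{z}, by simp, le_antisymm ?_ ?_⟩
  · have : (Subgroup.zpowers z).Normal := hz ▸ Γ.proj.normal_ker
    exact Subgroup.normalClosure_le_normal (by simp)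
  · rw [Subgroup.zpowers_eq_closure]
    exact Subgroup.closure_le_normalClosure

end Vale.Agent.P196.SFT
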