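import Vale.Agent.P196.Cover.Ends

/-!
P196, module B: a kernel element without flow is trivial.
-/

namespace Vale.Agent.P196.SFT

open Equiv Square

variable {S : SFT} {k : ℕ}

/-- The period along a side. -/
def Level.along (L : S.Level) (tw : Bool) : V := Cover.Kern.across L (!tw)

lemma Level.cast_along (L : S.Level) (tw : Bool) : L.cast (L.along tw) = 0 :=
  Cover.Kern.cast_across L (!tw)

lemma Level.swapIf_along (L : S.Level) (tw : Bool) : swapIf tw (L.along tw) = ((L.Q : ℤ), 0) := by
  cases tw <;> simp [swapIf, Level.along, Cover.Kern.across, Level.per₁, Level.per₂]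

lemma swapIf_sub (tw : Bool) (u v : V) : swapIf tw (u - v) = swapIf tw u - swapIf tw v := by
  cases tw <;> simp [swapIf]

lemma swapIf_add (tw : Bool) (u v : V) : swapIf tw (u + v) = swapIf tw u + swapIf tw v := by
  cases tw <;> simp [swapIf]

lemma Level.fits_long (L : S.Level) {r : ℕ} (hr : 2 * r ≤ L.Q) (tw : Bool) :
    L.Fits (L.long k r tw) := by
  cases tw <;> simp only [Level.long, Bool.false_eq_true, if_false, if_true] <;>
    exact L.fits_rectCells (by omega) (by omega)

lemma Level.five_le_long (hk : 1 ≤ k) (L : S.Level) {r : ℕ} (hr : 1 ≤ r) (hQ : 2 * r + 5 ≤ L.Q)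
    (tw : Bool) : 5 ≤ (L.long k r tw).card := by
  cases tw <;> simp only [Level.long, Bool.false_eq_true, if_false, if_true]
  · exact five_le_card_rectCells hk (by omega) (by omega)
  · rw [card_rectCells]
    have h1 : 5 ≤ ((L.Q : ℤ) - r - r).toNat := by omega
    have h2 : 1 ≤ ((r : ℤ) - -(r : ℤ)).toNat := by omega
    nlinarith [Nat.mul_le_mul h2 h1]

lemma Level.fits_ball_wide (L : S.Level) {s : ℕ} (h : 2 * (L.Q / 8 + s) ≤ L.Q) :
    L.Fits (L.ball k s) :=
  L.fits_rectCells (by omega) (by omega)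

lemma Level.mem_ball (L : S.Level) (s : ℕ) (tw : Bool) (p : Fin k × V) :
    p ∈ L.ball k s ↔ (-((L.Q / 8 + s : ℕ) : ℤ) ≤ (swapIf tw p.2).1 ∧
      (swapIf tw p.2).1 < (L.Q / 8 + s : ℕ)) ∧
      (-((L.Q / 8 + s : ℕ) : ℤ) ≤ (swapIf tw p.2).2 ∧
      (swapIf tw p.2).2 < (L.Q / 8 + s : ℕ)) := by
  cases tw
  · simp only [Level.ball, swapIf, Bool.false_eq_true, if_false, mem_rectCells]
  · simp only [Level.ball, swapIf, if_true, mem_rectCells]
    tauto

lemma Level.cast_swapIf (L : S.Level) (tw : Bool) {u v : V} (h : L.cast u = L.cast v) :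
    ((swapIf tw u).1 : ZMod L.Q) = ((swapIf tw v).1 : ZMod L.Q) ∧
      ((swapIf tw u).2 : ZMod L.Q) = ((swapIf tw v).2 : ZMod L.Q) := by
  simp only [Level.cast, Prod.mk.injEq] at h
  cases tw <;> simp [swapIf, h.1, h.2]

/-- The cells of one end of a long edge. -/
noncomputable def Level.endCells (L : S.Level) (k r s : ℕ) (tw side : Bool) : Finset (Fin k × V) := by
  classical
  exact (L.long k r tw).filter fun u =>
    if side then (L.Q : ℤ) - (L.Q / 8 + s : ℕ) ≤ (swapIf tw u.2).1
    else (swapIf tw u.2).1 < ((L.Q / 8 + s : ℕ) : ℤ)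

lemma Level.mem_endCells (L : S.Level) (r s : ℕ) (tw side : Bool) (u : Fin k × V) :
    u ∈ L.endCells k r s tw side ↔ u ∈ L.long k r tw ∧
      (if side then (L.Q : ℤ) - (L.Q / 8 + s : ℕ) ≤ (swapIf tw u.2).1
        else (swapIf tw u.2).1 < ((L.Q / 8 + s : ℕ) : ℤ)) := by
  classical
  simp [Level.endCells]

/-- The shift carrying an end into the ball. -/
def Level.endShift (L : S.Level) (tw side : Bool) : V := if side then L.along tw else 0

lemma Level.cast_endShift (L : S.Level) (tw side : Bool) : L.cast (L.endShift tw side) = 0 := by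
  cases side
  · simp [Level.endShift, Level.cast]
  · exact L.cast_along tw

lemma Level.end_sub_mem (L : S.Level) {r s : ℕ} (hr : 16 * (r + s + 1) ≤ L.Q) (tw side : Bool)
    {u : Fin k × V} (hu : u ∈ L.endCells k r s tw side) :
    (u.1, u.2 - L.endShift tw side) ∈ L.ball k s := by
  rw [L.mem_endCells, L.mem_long] at hu
  rw [L.mem_ball s tw]
  have h0 : swapIf tw (0 : V) = 0 := by cases tw <;> rfl
  cases side <;>
    simp only [Level.endShift, Bool.false_eq_true, if_false, if_true, swapIf_sub, L.swapIf_along,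
      h0, Prod.fst_sub, Prod.snd_sub, Prod.fst_zero, Prod.snd_zero] at hu ⊢ <;>
    omega

namespace Cover

variable {Γ : S.Cover k}

/-- A cell of a long edge is fixed by the long edges of the other direction. -/
lemma long_fixed {L : S.Level} {r : ℕ} (hr : 4 * r < L.Q) (tw : Bool) {x : Γ.H}
    (hx : x ∈ Γ.reg L (L.long k r (!tw))) (b : L.base) {u : Fin k × V}
    (hu : u ∈ L.long k r tw) : Γ.proj x (L.cpt b u) = L.cpt b u := by
  by_contra h
  obtain ⟨b', v, hv, he⟩ := Γ.reg_moved L hx h
  have hp := congrArg (fun q : Fin k × S.X => L.pos q.2) he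
  simp only [Level.cpt] at hp
  rw [L.pos_cell, L.pos_cell] at hp
  rw [L.mem_long] at hu hv
  have h1 := (L.cast_swapIf tw hp).1
  have hv' : -(r : ℤ) ≤ (swapIf tw v.2).1 ∧ (swapIf tw v.2).1 < r := by
    cases tw <;> simp only [swapIf, Bool.not_false, Bool.not_true, Bool.false_eq_true, if_false,
      if_true] at hv ⊢ <;> omega
  have := L.cast_eq_cases h1 (by omega) (by omega) (by omega) (by omega)
  omega

lemma commute_long {L : S.Level} {r : ℕ} (hr : 4 * r < L.Q) {x y : Γ.H}
    (hx : x ∈ Γ.reg L (L.long k r false)) (hy : y ∈ Γ.reg L (L.long k r true)) : Commute x y := by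
  refine Γ.commute_reg L ?_ hx hy
  intro p hp q hq _ he
  rw [L.mem_long] at hp hq
  simp only [swapIf, Bool.false_eq_true, if_false, if_true] at hp hq
  simp only [Level.cast, Prod.mk.injEq] at he
  have := L.cast_eq_cases he.1 (a := p.2.1) (by omega) (by omega) (by omega) (by omega)
  omega

open scoped Classical in
/-- Products of ended elements are ended, and parities add. -/
lemma Ended.mul {L : S.Level} {r s : ℕ} {tw : Bool} {x y : Γ.H} {ε δ : L.base → ZMod 2}
    (hr : 2 * r ≤ L.Q)
    (hx : Γ.Ended L r s tw x ε) (hy : Γ.Ended L r s tw y δ) :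
    Γ.Ended L r s tw (x * y) fun b => ε b + δ b := by
  refine ⟨mul_mem hx.mem hy.mem, fun b => ?_⟩
  obtain ⟨σ, h1, h2, h, h3⟩ := hx.ends b
  obtain ⟨τ, g1, g2, g, g3⟩ := hy.ends b
  refine ⟨σ * τ, fun u => ?_, fun u hu => ?_, fun u => (h (τ u)).trans (g u), ?_⟩
  · rw [map_mul, Perm.mul_apply, g1, h1, Perm.mul_apply]
  · by_contra hc
    have ht : τ u = u := by by_contra h'; exact hc (g2 u h')
    rw [Perm.mul_apply, ht] at hu
    exact hc (h2 u hu)
  · rw [sgn_add, ← h3, ← g3, ← map_mul]
    congr 1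

/-- The ends may be enlarged. -/
lemma Ended.mono {L : S.Level} {r s s' : ℕ} {tw : Bool} {x : Γ.H} {ε : L.base → ZMod 2}
    (hx : Γ.Ended L r s tw x ε) (h : s ≤ s') : Γ.Ended L r s' tw x ε := by
  refine ⟨hx.mem, fun b => ?_⟩
  obtain ⟨σ, h1, h2, h3⟩ := hx.ends b
  refine ⟨σ, h1, fun u hu => ?_, h3⟩
  have := h2 u hu
  simp only [Level.InEnd] at this ⊢
  omega

open scoped Classical in
/-- Inverses of ended elements are ended, with the same parity. -/
lemma Ended.inv {L : S.Level} {r s : ℕ} {tw : Bool} {x : Γ.H} {ε : L.base → ZMod 2}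
    (hx : Γ.Ended L r s tw x ε) : Γ.Ended L r s tw x⁻¹ ε := by
  refine ⟨inv_mem hx.mem, fun b => ?_⟩
  obtain ⟨σ, h1, h2, h, h3⟩ := hx.ends b
  refine ⟨σ⁻¹, fun u => ?_, fun u hu => h2 u fun h' => hu (by rw [Perm.inv_eq_iff_eq, h']),
    fun u => ?_, ?_⟩
  · rw [map_inv, Perm.inv_eq_iff_eq, h1]
    simp
  · have := h (σ⁻¹ u)
    simp only [Perm.coe_inv, Equiv.apply_symm_apply] at this
    exact this.symm
  · have e : Perm.sign (σ⁻¹.subtypePerm (p := fun u => L.IsLeft tw u.1) fun u => by
        have := h (σ⁻¹ u)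
        simp only [Perm.coe_inv, Equiv.apply_symm_apply] at this
        exact this.symm) = (Perm.sign (σ.subtypePerm (p := fun u => L.IsLeft tw u.1) h))⁻¹ := by
      rw [← map_inv]
      congr 1
    rw [e, h3, Int.units_inv_eq_self]

open scoped Classical in
/-- The two ends of an ended element. -/
lemma Ended.sides {L : S.Level} {r s : ℕ} {tw : Bool} {x : Γ.H} {ε : L.base → ZMod 2}
    (hx : Γ.Ended L r s tw x ε) (hk : 1 ≤ k) (hr1 : 1 ≤ r) (hr : 16 * (r + s + 1) ≤ L.Q)
    (σ : LocallyConstant L.base (alternatingGroup (L.long k r tw)))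
    (hσ : ∀ (b : L.base) (u : L.long k r tw), Γ.proj x (L.cpt b u.1) = L.cpt b ((σ b).1 u).1)
    (side : Bool) :
    ∃ τ : LocallyConstant L.base (Perm (L.endCells k r s tw side)),
      (∀ (b : L.base) (u : L.endCells k r s tw side),
        Γ.proj x (L.cpt b u.1) = L.cpt b (τ b u).1) ∧
      ∀ b, Perm.sign (τ b) = sgn (ε b) := by
  let ι : L.endCells k r s tw side ↪ L.long k r tw :=
    ⟨fun u => ⟨u.1, ((L.mem_endCells r s tw side u.1).1 u.2).1⟩, fun u v e => Subtype.ext (by
      simpa using congrArg Subtype.val e)⟩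
  let E : L.long k r tw → Prop := fun u => u.1 ∈ L.endCells k r s tw side
  let e : L.endCells k r s tw side ≃ {u : L.long k r tw // E u} :=
    { toFun := fun u => ⟨ι u, u.2⟩
      invFun := fun u => ⟨u.1.1, u.2⟩
      left_inv := fun u => rfl
      right_inv := fun u => rfl }
  have hagree : ∀ b, ∀ u, (σ b).1 u = (Classical.choose (hx.ends b)) u := by
    intro b u
    refine (L.cpt_injective (L.fits_long (k := k) (r := r) (by omega) tw) (b := b) (b' := b) ?_).2
    rw [← hσ b u, (Classical.choose_spec (hx.ends b)).1 u]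
  have hmain : ∀ b, ∃ h : ∀ u, E ((σ b).1 u) ↔ E u,
      Perm.sign ((σ b).1.subtypePerm (p := E) h) = sgn (ε b) := by
    intro b
    obtain ⟨h2, hl, h3⟩ := (Classical.choose_spec (hx.ends b)).2
    have hρ : (σ b).1 = Classical.choose (hx.ends b) := Equiv.ext (hagree b)
    set ρ := (σ b).1 with hρdef
    rw [← hρ] at h2
    have hl' : ∀ u, L.IsLeft tw (ρ u).1 ↔ L.IsLeft tw u.1 := fun u => by rw [hρ]; exact hl u
    have hsl : Perm.sign (ρ.subtypePerm (p := fun u => L.IsLeft tw u.1) hl') = sgn (ε b) := by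
      rw [← h3]
      congr 1
      exact Equiv.ext fun u => Subtype.ext (by simp [hρ])
    have hchar : ∀ u : L.long k r tw, E u ↔
        (L.InEnd s tw u.1 ∧ (L.IsLeft tw u.1 ↔ side = false)) := by
      intro u
      have hu := (L.mem_long r tw u.1).1 u.2
      simp only [E, L.mem_endCells, u.2, true_and, Level.InEnd, Level.IsLeft]
      cases side <;> simp <;> omega
    have hE : ∀ u, E (ρ u) ↔ E u := by
      intro u
      rcases eq_or_ne (ρ u) u with he | hne
      · rw [he]
      · rw [hchar, hchar, hl' u]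
        exact and_congr_left fun _ => iff_of_true (h2 _ fun h' => hne (ρ.injective h')) (h2 u hne)
    refine ⟨hE, ?_⟩
    cases side
    · rw [← hsl, ← Perm.sign_ofSubtype (ρ.subtypePerm hE),
        ← Perm.sign_ofSubtype (ρ.subtypePerm (p := fun u => L.IsLeft tw u.1) hl')]
      congr 1
      refine Equiv.ext fun u => ?_
      by_cases hu : L.IsLeft tw u.1
      · rw [Perm.ofSubtype_apply_of_mem (ρ.subtypePerm (p := fun u => L.IsLeft tw u.1) hl') hu]
        by_cases hu' : E u
        · rw [Perm.ofSubtype_apply_of_mem _ hu']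
          rfl
        · rw [Perm.ofSubtype_apply_of_not_mem _ hu']
          show u = ρ u
          by_contra hne
          exact hu' ((hchar u).2 ⟨h2 u (Ne.symm hne), iff_of_true hu rfl⟩)
      · rw [Perm.ofSubtype_apply_of_not_mem (ρ.subtypePerm (p := fun u => L.IsLeft tw u.1) hl') hu,
          Perm.ofSubtype_apply_of_not_mem (ρ.subtypePerm hE)
            (fun h' : E u => hu (((hchar u).1 h').2.2 rfl))]
    · have hev : Perm.sign ρ = 1 := Perm.mem_alternatingGroup.1 (σ b).2
      have hprod : ρ = Perm.ofSubtype (ρ.subtypePerm (p := fun u => L.IsLeft tw u.1) hl') *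
          Perm.ofSubtype (ρ.subtypePerm (p := E) hE) := by
        refine Equiv.ext fun u => ?_
        rw [Perm.mul_apply]
        by_cases hu : E u
        · rw [Perm.ofSubtype_apply_of_mem _ hu, Perm.ofSubtype_apply_of_not_mem]
          · rfl
          · have hn : ¬ L.IsLeft tw u.1 := fun h' => Bool.noConfusion (((hchar u).1 hu).2.1 h')
            show ¬ L.IsLeft tw (ρ u).1
            rw [hl']; exact hn
        · rw [Perm.ofSubtype_apply_of_not_mem _ hu]
          by_cases hu' : L.IsLeft tw u.1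
          · refine Eq.symm ?_
            rw [Perm.ofSubtype_apply_of_mem (ρ.subtypePerm hl') hu']
            rfl
          · refine Eq.trans ?_ (Perm.ofSubtype_apply_of_not_mem (ρ.subtypePerm hl') hu').symm
            by_contra hne
            exact hu ((hchar u).2 ⟨h2 u hne, iff_of_false hu' (by simp)⟩)
      rw [hprod, map_mul, Perm.sign_ofSubtype, Perm.sign_ofSubtype, hsl] at hev
      have := mul_eq_one_iff_inv_eq.1 hev
      rw [← this, Int.units_inv_eq_self]
  choose hE hsE using hmain
  let G : alternatingGroup (L.long k r tw) → Perm (L.endCells k r s tw side) := fun g =>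
    if h : ∀ u, E (g.1 u) ↔ E u then e.symm.permCongr (g.1.subtypePerm h) else 1
  refine ⟨σ.map G, fun b u => ?_, fun b => ?_⟩
  · simp only [LocallyConstant.map_apply, Function.comp_apply, G, dif_pos (hE b)]
    exact hσ b (ι u)
  · simp only [LocallyConstant.map_apply, Function.comp_apply, G, dif_pos (hE b),
      Perm.sign_permCongr]
    exact hsE b

open scoped Classical in
/-- An element whose long edge part agrees with a ball element is ended. -/
lemma ended_of_agree (hmf : S.MinimalFree) (hk : 1 ≤ k) {L : S.Level} {r s : ℕ} (hr1 : 1 ≤ r)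
    (hbig : 16 * (r + s + 1) ≤ L.Q) (tw : Bool) {E E' X : Γ.H}
    (hE : E ∈ Γ.reg L (L.long k r tw)) (hE' : E' ∈ Γ.reg L (L.long k r (!tw)))
    (hX : X ∈ Γ.reg L (L.ball k s)) (he : Γ.proj (E * E') = Γ.proj X) :
    ∃ ε : LocallyConstant L.base (ZMod 2), Γ.Ended L r s tw E ε := by
  have hfit := L.fits_long (k := k) (r := r) (by omega) tw
  obtain ⟨σ, hσ⟩ := Γ.reg_rep L hfit (L.five_le_long hk hr1 (by omega) tw) hE
  have h5b : 5 ≤ (L.ball k s).card := five_le_card_rectCells hk (by omega) (by omega)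
  obtain ⟨ξ, hξ⟩ := Γ.reg_rep L (L.fits_ball_wide (k := k) (s := s) (by omega)) h5b hX
  have hends : ∀ b (u : L.long k r tw), (σ b).1 u ≠ u →
      L.InEnd s tw u.1 ∧ (L.IsLeft tw ((σ b).1 u).1 ↔ L.IsLeft tw u.1) := by
    intro b u hu
    have hXp : Γ.proj X (L.cpt b u.1) = L.cpt b ((σ b).1 u).1 := by
      rw [← he, map_mul, Perm.mul_apply, Cover.long_fixed (by omega) tw hE' b u.2, hσ b u]
    have hne : Γ.proj X (L.cpt b u.1) ≠ L.cpt b u.1 := by
      rw [hXp]
      exact fun h => hu (L.cpt_injective hfit h).2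
    obtain ⟨b', v, hv, hvu⟩ := Γ.reg_moved L hX hne
    have h2 := congrArg (fun q : Fin k × S.X => L.pos q.2) hvu
    simp only [Level.cpt] at h2
    rw [L.pos_cell, L.pos_cell] at h2
    rw [L.mem_ball s tw] at hv
    have hu' := (L.mem_long r tw u.1).1 u.2
    have c1 := L.cast_eq_cases (L.cast_swapIf tw h2).1 (by omega) (by omega) (by omega) (by omega)
    have hw := hξ b' ⟨v, (L.mem_ball s tw v).2 hv⟩
    rw [← hvu, hXp] at hw
    set v' := (ξ b').1 ⟨v, (L.mem_ball s tw v).2 hv⟩
    have hb' : S.act v.2 b'.1 = S.act u.1.2 b.1 := (congrArg Prod.snd hvu).symm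
    have hb'' : b'.1 = S.act (u.1.2 - v.2) b.1 := by
      apply (S.act v.2).injective
      rw [hb', Amen.act_act]
      simp
    have hv2 : ((σ b).1 u).1.2 = v'.1.2 + (u.1.2 - v.2) := by
      refine act_eq_act hmf (x := b.1) ?_
      have := congrArg Prod.snd hw
      simp only [Level.cpt] at this
      rw [this, hb'', Amen.act_act]
    have hs := congrArg (fun z : V => (swapIf tw z).1) hv2
    simp only [swapIf_add, swapIf_sub, Prod.fst_add, Prod.fst_sub] at hs
    have hv' := (L.mem_ball s tw v'.1).1 v'.2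
    simp only [Level.InEnd, Level.IsLeft]
    omega
  have hiff : ∀ b (u : L.long k r tw),
      L.IsLeft tw ((σ b).1 u).1 ↔ L.IsLeft tw u.1 := fun b u => by
    rcases eq_or_ne ((σ b).1 u) u with h | h
    · rw [h]
    · exact (hends b u h).2
  let G : alternatingGroup (L.long k r tw) → ZMod 2 := fun g =>
    if h : ∀ u : L.long k r tw, L.IsLeft tw (g.1 u).1 ↔ L.IsLeft tw u.1 then
      (if Perm.sign (g.1.subtypePerm (p := fun u => L.IsLeft tw u.1) h) = 1 then 0 else 1) else 0
  refine ⟨σ.map G, hE, fun b => ⟨(σ b).1, fun u => hσ b u, fun u hu => (hends b u hu).1, hiff b, ?_⟩⟩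
  simp only [LocallyConstant.map_apply, Function.comp_apply, G, dif_pos (hiff b)]
  rcases Int.units_eq_one_or
      (Perm.sign ((σ b).1.subtypePerm (p := fun u => L.IsLeft tw u.1) (hiff b))) with h | h <;>
    simp [h, sgn]

open scoped Classical in
/-- The parities around a corner add up to zero. -/
lemma corner_relation (hk : 1 ≤ k) {L : S.Level} {r s : ℕ} (hr1 : 1 ≤ r)
    (hbig : 16 * (r + s + 1) ≤ L.Q) {EH EV X : Γ.H} {εH εV : L.base → ZMod 2}
    (hH : Γ.Ended L r s false EH εH) (hV : Γ.Ended L r s true EV εV)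
    (hX : X ∈ Γ.reg L (L.ball k s)) (he : Γ.proj (EH * EV) = Γ.proj X) (b : L.base) :
    εH b + εH (L.prev true b) + εV b + εV (L.prev false b) = 0 := by
  have hfitB := L.fits_ball_wide (k := k) (s := s) (by omega)
  have h5b : 5 ≤ (L.ball k s).card := five_le_card_rectCells hk (by omega) (by omega)
  obtain ⟨ξ, hξ⟩ := Γ.reg_rep L hfitB h5b hX
  let El : Bool → Γ.H := fun tw => if tw then EV else EH
  let εl : Bool → L.base → ZMod 2 := fun tw => if tw then εV else εH
  have hEl : ∀ tw, Γ.Ended L r s tw (El tw) (εl tw) := by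
    intro tw; cases tw
    · exact hH
    · exact hV
  have hcomm : ∀ tw, Γ.proj (El tw * El (!tw)) = Γ.proj X := by
    intro tw
    cases tw
    · exact he
    · rw [← he]
      exact congrArg Γ.proj (commute_long (by omega) hH.mem hV.mem).eq.symm
  let bb : Bool → Bool → L.base := fun tw side =>
    L.shift (-(L.endShift tw side)) (by
      have := L.cast_endShift tw side
      simpa [Level.cast] using this) b
  have hrep : ∀ tw, ∃ σ : LocallyConstant L.base (alternatingGroup (L.long k r tw)),
      ∀ (b : L.base) (u : L.long k r tw),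
        Γ.proj (El tw) (L.cpt b u.1) = L.cpt b ((σ b).1 u).1 := fun tw =>
    Γ.reg_rep L (L.fits_long (by omega) tw) (L.five_le_long hk hr1 (by omega) tw) (hEl tw).mem
  choose σ hσ using hrep
  have hsides := fun tw side => (hEl tw).sides hk hr1 hbig (σ tw) (hσ tw) side
  choose τ hτ hτs using hsides
  let j : ∀ tw side, L.endCells k r s tw side ↪ L.ball k s := fun tw side =>
    ⟨fun u => ⟨(u.1.1, u.1.2 - L.endShift tw side), L.end_sub_mem hbig tw side u.2⟩,
      fun u v e => Subtype.ext (by
        have := congrArg Subtype.val e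
        simp only [Prod.ext_iff, sub_left_inj] at this ⊢
        exact this)⟩
  have hcpt : ∀ tw side (u : Fin k × V),
      L.cpt b (u.1, u.2 - L.endShift tw side) = L.cpt (bb tw side) u := by
    intro tw side u
    refine Prod.ext rfl ?_
    show S.act (u.2 - L.endShift tw side) b.1 = S.act u.2 (S.act (-(L.endShift tw side)) b.1)
    rw [Amen.act_act, sub_eq_add_neg]
  have hj : ∀ tw side (u : L.endCells k r s tw side),
      (ξ b).1 (j tw side u) = j tw side (τ tw side (bb tw side) u) := by
    intro tw side u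
    have hfix : Γ.proj (El (!tw)) (L.cpt (bb tw side) u.1) = L.cpt (bb tw side) u.1 :=
      Cover.long_fixed (by omega) tw (hEl (!tw)).mem _ ((L.mem_endCells r s tw side u.1).1 u.2).1
    have h1 : Γ.proj X (L.cpt b (j tw side u).1) = L.cpt b (j tw side (τ tw side (bb tw side) u)).1 := by
      show Γ.proj X (L.cpt b (u.1.1, u.1.2 - L.endShift tw side)) = L.cpt b (_, _)
      rw [hcpt, ← hcomm tw, map_mul, Perm.mul_apply, hfix, hτ, ← hcpt tw side]
    exact (L.cpt_injective hfitB ((hξ b _).symm.trans h1)).2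
  have himage : ∀ v : L.ball k s, (ξ b).1 v ≠ v → ∃ tw side, v ∈ Set.range (j tw side) := by
    intro v hv
    have hm : Γ.proj X (L.cpt b v.1) ≠ L.cpt b v.1 := fun h =>
      hv (L.cpt_injective hfitB ((hξ b v).symm.trans h)).2
    rw [← he, map_mul, Perm.mul_apply] at hm
    have hex : ∃ tw, Γ.proj (El tw) (L.cpt b v.1) ≠ L.cpt b v.1 := by
      by_contra hc
      push Not at hc
      have h1 : Γ.proj EH (L.cpt b v.1) = L.cpt b v.1 := hc false
      have h2 : Γ.proj EV (L.cpt b v.1) = L.cpt b v.1 := hc true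
      exact hm (by rw [h2, h1])
    obtain ⟨tw, htw⟩ := hex
    obtain ⟨b', u, hu, hvu⟩ := Γ.reg_moved L (hEl tw).mem htw
    have hne : (σ tw b').1 ⟨u, hu⟩ ≠ ⟨u, hu⟩ := fun h => htw (by
      rw [hvu]; exact (hσ tw b' ⟨u, hu⟩).trans (by rw [h]))
    obtain ⟨ρ, hρ1, hρ2, -⟩ := (hEl tw).ends b'
    have hin : L.InEnd s tw u := by
      refine hρ2 ⟨u, hu⟩ fun h => hne ?_
      refine (L.cpt_injective (L.fits_long (k := k) (r := r) (by omega) tw) (b := b') (b' := b') ?_).2
      rw [← hσ tw b' ⟨u, hu⟩, hρ1, h]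
    have h2 := congrArg (fun q : Fin k × S.X => L.pos q.2) hvu
    simp only [Level.cpt] at h2
    rw [L.pos_cell, L.pos_cell] at h2
    have hu' := (L.mem_long r tw u).1 hu
    have hv' := (L.mem_ball s tw v.1).1 v.2
    have c1 := L.cast_eq_cases (L.cast_swapIf tw h2.symm).1 (by omega) (by omega) (by omega)
      (by omega)
    have c2 : (swapIf tw v.1.2).2 = (swapIf tw u.2).2 :=
      L.eq_of_cast (L.cast_swapIf tw h2).2 (by omega) (by omega)
    have hcol : v.1.1 = u.1 := (congrArg Prod.fst hvu : _)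
    simp only [Level.InEnd] at hin
    refine ⟨tw, decide ((swapIf tw v.1.2).1 < 0), ?_⟩
    by_cases hneg : (swapIf tw v.1.2).1 < 0
    · rw [decide_eq_true hneg]
      refine ⟨⟨u, (L.mem_endCells r s tw true u).2 ⟨hu, by simp only [if_true]; omega⟩⟩, ?_⟩
      refine Subtype.ext (Prod.ext hcol.symm ?_)
      show u.2 - L.endShift tw true = v.1.2
      have e2 : swapIf tw (u.2 - L.endShift tw true) = swapIf tw v.1.2 := by
        simp only [Level.endShift, if_true, swapIf_sub, L.swapIf_along]
        refine Prod.ext ?_ ?_ <;> simp <;> omega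
      cases tw <;> simp [swapIf, Prod.ext_iff] at e2 ⊢ <;> omega
    · rw [decide_eq_false hneg]
      refine ⟨⟨u, (L.mem_endCells r s tw false u).2
        ⟨hu, by simp only [Bool.false_eq_true, if_false]; omega⟩⟩, ?_⟩
      refine Subtype.ext (Prod.ext hcol.symm ?_)
      show u.2 - L.endShift tw false = v.1.2
      have e2 : swapIf tw u.2 = swapIf tw v.1.2 := Prod.ext (by omega) (by omega)
      cases tw <;> simp [swapIf, Level.endShift, Prod.ext_iff] at e2 ⊢ <;> omega
  have hdisj : ∀ tw side tw' side' (v : L.ball k s), v ∈ Set.range (j tw side) →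
      v ∈ Set.range (j tw' side') → (tw, side) = (tw', side') := by
    rintro tw side tw' side' v ⟨u, rfl⟩ ⟨u', hu'⟩
    have a1 := (L.mem_endCells r s tw side u.1).1 u.2
    have a2 := (L.mem_endCells r s tw' side' u'.1).1 u'.2
    rw [L.mem_long] at a1 a2
    have e1 := congrArg (fun z : L.ball k s => z.1.2.1) hu'
    have e2 := congrArg (fun z : L.ball k s => z.1.2.2) hu'
    cases tw <;> cases side <;> cases tw' <;> cases side' <;>
      simp [j, Level.endShift, Level.along, Cover.Kern.across, Level.per₁, Level.per₂,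
        swapIf] at a1 a2 e1 e2 ⊢ <;> omega
  let ve : Bool → Bool → Perm (L.ball k s) := fun tw side =>
    (τ tw side (bb tw side)).viaEmbedding (j tw side)
  have hout : ∀ tw side v, v ∉ Set.range (j tw side) → ve tw side v = v := fun tw side v h =>
    Perm.viaEmbedding_apply_of_notMem _ _ _ h
  have hξeq : (ξ b).1 = ve false false * ve false true * ve true false * ve true true := by
    refine Equiv.ext fun v => ?_
    by_cases hv : ∃ tw side, v ∈ Set.range (j tw side)
    · obtain ⟨tw, side, u, rfl⟩ := hv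
      have hin : ∀ w, ve tw side (j tw side w) = j tw side (τ tw side (bb tw side) w) := fun w =>
        Perm.viaEmbedding_apply _ _ _
      have hoth : ∀ tw' side', (tw, side) ≠ (tw', side') → ∀ w,
          ve tw' side' (j tw side w) = j tw side w := fun tw' side' hne w =>
        hout _ _ _ fun h => hne (hdisj _ _ _ _ _ ⟨w, rfl⟩ h)
      rw [hj]
      cases tw <;> cases side <;> simp [hin, hoth]
    · push Not at hv
      have hfix : (ξ b).1 v = v := by
        by_contra h
        obtain ⟨tw, side, h'⟩ := himage v h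
        exact hv tw side h'
      rw [hfix]
      simp [hout _ _ v (hv _ _)]
  have hs := Perm.mem_alternatingGroup.1 (ξ b).2
  rw [hξeq] at hs
  simp only [map_mul, ve, sign_viaEmbedding, hτs, ← sgn_add] at hs
  have hbb : ∀ tw, bb tw false = b ∧ bb tw true = L.prev (!tw) b := fun tw =>
    ⟨Subtype.ext (by simp [bb, Level.shift, Level.endShift, Amen.act_zero]), rfl⟩
  rw [← sgn_zero] at hs
  have := sgn_injective hs
  rw [(hbb false).1, (hbb false).2, (hbb true).1, (hbb true).2] at this
  exact this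

open scoped Classical in
/-- An ended element with even ends lies in the ball. -/
lemma Ended.mem_ball (hk : 1 ≤ k) {L : S.Level} {r s : ℕ} (hr1 : 1 ≤ r)
    (hbig : 16 * (r + s + 1) ≤ L.Q) (hQ : 128 ≤ L.Q) {tw : Bool} {x : Γ.H} {ε : L.base → ZMod 2}
    (hx : Γ.Ended L r s tw x ε) (h0 : ∀ b, ε b = 0) : x ∈ Γ.reg L (L.ball k s) := by
  have hfit := L.fits_long (k := k) (r := r) (by omega) tw
  obtain ⟨σ, hσ⟩ := Γ.reg_rep L hfit (L.five_le_long hk hr1 (by omega) tw) hx.mem
  have h5 : ∀ side, 5 ≤ (L.endCells k r s tw side).card := by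
    intro side
    have hsub : (rectCells k (if side then (L.Q : ℤ) - r - 5 else r)
        (if side then (L.Q : ℤ) - r else r + 5) 0 1).image (fun p => (p.1, swapIf tw p.2)) ⊆
        L.endCells k r s tw side := by
      intro p hp
      obtain ⟨q, hq, rfl⟩ := Finset.mem_image.1 hp
      rw [mem_rectCells] at hq
      rw [L.mem_endCells, L.mem_long]
      cases tw <;> cases side <;> simp [swapIf] at hq ⊢ <;> omega
    refine le_trans ?_ (Finset.card_le_card hsub)
    rw [Finset.card_image_of_injective _ (fun p q e => by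
      cases tw <;> simp [swapIf, Prod.ext_iff] at e ⊢ <;> tauto)]
    exact five_le_card_rectCells hk (by split_ifs <;> omega) (by omega)
  have hfitE : ∀ side, L.Fits (L.endCells k r s tw side) := fun side p hp q hq =>
    hfit p ((L.mem_endCells r s tw side p).1 hp).1 q ((L.mem_endCells r s tw side q).1 hq).1
  have hsub : ∀ side, L.endCells k r s tw side ⊆ L.long k r tw := fun side p hp =>
    ((L.mem_endCells r s tw side p).1 hp).1
  have hy : ∀ side, ∃ y ∈ Γ.reg L (L.endCells k r s tw side), ∀ b (u : L.endCells k r s tw side),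
      Γ.proj y (L.cpt b u.1) = Γ.proj x (L.cpt b u.1) := by
    intro side
    obtain ⟨τ, hτ, hs⟩ := hx.sides hk hr1 (by omega) σ hσ side
    obtain ⟨y, hy, hy'⟩ := Γ.exists_reg L (hfitE side) (h5 side) τ fun b => by rw [hs, h0, sgn_zero]
    exact ⟨y, hy, fun b u => by rw [hy', hτ]⟩
  choose y hy hy' using hy
  have hball : ∀ side, y side ∈ Γ.reg L (L.ball k s) := fun side =>
    Γ.reg_shift L (L.fits_ball_wide (by omega)) (L.endShift tw side) (L.cast_endShift tw side)
      (fun p hp => L.end_sub_mem (by omega) tw side hp) (hy side)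
  suffices x = y false * y true by
    rw [this]; exact mul_mem (hball _) (hball _)
  have hmem := mul_mem (Γ.reg_mono L hfit (hsub false) (hy false))
    (Γ.reg_mono L hfit (hsub true) (hy true))
  have hx' := hx.mem
  have h5L := L.five_le_long hk hr1 (by omega) tw
  rw [Γ.reg_eq L _ hfit h5L] at hmem hx'
  refine Γ.proj_injOn _ _ hx' hmem (Equiv.ext fun p => ?_)
  rw [map_mul, Perm.mul_apply]
  by_cases hp : ∃ b, ∃ u ∈ L.long k r tw, p = L.cpt b u
  · obtain ⟨b, u, hu, rfl⟩ := hp
    obtain ⟨ρ, hρ1, hρ2, hρ3, -⟩ := hx.ends b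
    have hfixy : ∀ (side : Bool) (v : Fin k × V), v ∈ L.long k r tw →
        v ∉ L.endCells k r s tw side → Γ.proj (y side) (L.cpt b v) = L.cpt b v := by
      intro side v hv hne
      by_contra hm
      obtain ⟨b', v', hv', hvv⟩ := Γ.reg_moved L (hy side) hm
      have := (L.cpt_injective hfit (u := ⟨v, hv⟩) (u' := ⟨v', hsub side hv'⟩) hvv).2
      have e : v = v' := congrArg Subtype.val this
      exact hne (e ▸ hv')
    by_cases hT : u ∈ L.endCells k r s tw true
    · rw [hy' true b ⟨u, hT⟩, hρ1 ⟨u, hu⟩]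
      refine (hfixy false _ (ρ ⟨u, hu⟩).2 fun hc => ?_).symm
      have a1 := (L.mem_endCells r s tw true u).1 hT
      have a2 := (L.mem_endCells r s tw false _).1 hc
      have a3 := hρ3 ⟨u, hu⟩
      have a4 := (L.mem_long r tw u).1 hu
      simp only [Level.IsLeft] at a3
      simp only [if_true] at a1
      simp only [Bool.false_eq_true, if_false] at a2
      omega
    · rw [hfixy true u hu hT]
      by_cases hF : u ∈ L.endCells k r s tw false
      · rw [hy' false b ⟨u, hF⟩]
      · rw [hfixy false u hu hF, hρ1 ⟨u, hu⟩]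
        have : ρ ⟨u, hu⟩ = ⟨u, hu⟩ := by
          by_contra h
          have hin := hρ2 ⟨u, hu⟩ h
          rw [L.mem_endCells] at hT hF
          simp only [Level.InEnd] at hin
          simp only [hu, true_and, if_true, Bool.false_eq_true, if_false] at hT hF
          omega
        rw [this]
  · have hfx : ∀ {F : Finset (Fin k × V)}, F ⊆ L.long k r tw → ∀ z ∈ Γ.reg L F,
        Γ.proj z p = p := by
      intro F hF z hz
      by_contra h
      obtain ⟨b, u, hu, rfl⟩ := Γ.reg_moved L hz h
      exact hp ⟨b, u, hF hu, rfl⟩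
    rw [hfx (hsub true) _ (hy true), hfx (hsub false) _ (hy false), hfx subset_rfl _ hx.mem]

end Cover

end Vale.Agent.P196.SFT
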